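import Mathlib

set_option autoImplicit false

namespace Crest.Agent.R180

theorem span_subring_mul_mem {K B : Type*} [Field K] [Ring B] [Algebra K B] (A : Subring B)
    {u v : B} (hu : u ∈ Submodule.span K (A : Set B)) (hv : v ∈ Submodule.span K (A : Set B)) :
    u * v ∈ Submodule.span K (A : Set B) := by
  have h := Submodule.mul_mem_mul hu hv
  rw [Submodule.span_mul_span] at h
  refine Submodule.span_mono ?_ h
  rintro _ ⟨a, ha, b, hb, rfl⟩
  exact A.mul_mem ha hb

theorem exists_inv_mem_span {K B : Type*} [Field K] [Ring B] [Algebra K B] [Module.Finite K B]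
    (A : Subring B) {z : B} (hz : z ∈ Submodule.span K (A : Set B)) (hu : IsUnit z) :
    ∃ w ∈ Submodule.span K (A : Set B), z * w = 1 ∧ w * z = 1 := by
  set V := Submodule.span K (A : Set B)
  let f : V →ₗ[K] V := (LinearMap.mulLeft K z).restrict fun v hv => span_subring_mul_mem A hz hv
  have hinj : Function.Injective f := by
    intro v w h
    have : z * (v : B) = z * w := congrArg Subtype.val h
    exact Subtype.ext (hu.mul_left_cancel this)
  obtain ⟨w, hw⟩ := LinearMap.injective_iff_surjective.mp hinj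
    ⟨1, Submodule.subset_span A.one_mem⟩
  have h1 : z * (w : B) = 1 := congrArg Subtype.val hw
  refine ⟨w, w.2, h1, hu.mul_left_cancel ?_⟩
  rw [← mul_assoc, h1, one_mul, mul_one]

theorem casimir {K B : Type*} [Field K] [CharZero K] [Ring B] [Algebra K B] [Module.Finite K B]
    (τ : B →ₗ[K] K) (hτ1 : τ 1 = 1) (hτ : ∀ a b : B, τ (a * b) = τ (b * a))
    (A : Subring B) (hA : ∀ a ∈ A, algebraMap K B (τ a) ∈ A)
    (hunit : ∀ a ∈ A, a ≠ 0 → IsUnit a)
    (δ : K → K) (d : B →+ B) (hd : ∀ a b : B, d (a * b) = d a * b + a * d b)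
    (hδ : ∀ (c : K) (a : B), d (c • a) = δ c • a + c • d a) :
    ∃ y : B, ∀ a ∈ A, d a - (y * a - a * y) ∈ Submodule.span K (A : Set B) := by
  classical
  obtain ⟨b, hbA, hspan, hli⟩ := exists_linearIndependent K (A : Set B)
  have hfin : Finite b := hli.finite
  have : Fintype b := Fintype.ofFinite b
  set V := Submodule.span K (A : Set B) with hV
  set x : b → B := fun i => (i : B) with hx
  have hxA : ∀ i, x i ∈ A := fun i => hbA i.2
  have hxV : ∀ i, x i ∈ V := fun i => Submodule.subset_span (hxA i)
  have hrep : ∀ v ∈ V, ∃ c : b → K, ∑ i, c i • x i = v := by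
    intro v hv
    rw [← hspan, ← Subtype.range_coe (s := b)] at hv
    exact (Submodule.mem_span_range_iff_exists_fun K).mp hv
  set C := A.comap (algebraMap K B) with hC
  have hsm : ∀ (c : C) (a : B), a ∈ A → (c : K) • a ∈ A := by
    intro c a ha
    rw [Algebra.smul_def]
    exact A.mul_mem c.2 ha
  set G : Matrix b b C := Matrix.of fun i j => ⟨τ (x i * x j), hA _ (A.mul_mem (hxA i) (hxA j))⟩
    with hG
  have hcomb : ∀ (v : b → C) (m : b), τ ((∑ l, (v l : K) • x l) * x m) =
      ((Matrix.vecMul v G m : C) : K) := by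
    intro v m
    simp [Matrix.vecMul, dotProduct, hG, Finset.sum_mul]
  have hdet : G.det ≠ 0 := by
    intro h0
    obtain ⟨v, hv0, hv⟩ := Matrix.exists_vecMul_eq_zero_iff.mpr h0
    have hzA : ∑ l, (v l : K) • x l ∈ A := A.sum_mem fun l _ => hsm _ _ (hxA l)
    have hz0 : ∑ l, (v l : K) • x l ≠ 0 := by
      intro h
      apply hv0
      funext l
      exact Subtype.ext (Fintype.linearIndependent_iff.mp hli (fun l => (v l : K)) h l)
    obtain ⟨w, hw, h1, -⟩ := exists_inv_mem_span (K := K) A (Submodule.subset_span hzA)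
      (hunit _ hzA hz0)
    obtain ⟨c, rfl⟩ := hrep w hw
    have := congrArg τ h1
    rw [hτ1, Finset.mul_sum, map_sum] at this
    simp only [mul_smul_comm, map_smul, hcomb, hv] at this
    simp at this
  set D : K := (G.det : K) with hD
  have hD0 : D ≠ 0 := fun h => hdet (Subtype.ext h)
  set xd : b → B := fun j => ∑ l, (G.adjugate j l : K) • x l with hxd
  have hxdA : ∀ j, xd j ∈ A := fun j => A.sum_mem fun l _ => hsm _ _ (hxA l)
  have hxdV : ∀ j, xd j ∈ V := fun j => Submodule.subset_span (hxdA j)
  have hdual : ∀ j m, τ (xd j * x m) = if j = m then D else 0 := by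
    intro j m
    rw [hxd]
    simp only
    rw [hcomb (fun l => G.adjugate j l) m]
    have : Matrix.vecMul (fun l => G.adjugate j l) G m = (G.adjugate * G) j m := rfl
    rw [this, Matrix.adjugate_mul, Matrix.smul_apply, Matrix.one_apply]
    split_ifs <;> simp [hD]
  have hnd : ∀ w ∈ V, (∀ m, τ (w * x m) = 0) → w = 0 := by
    intro w hw h
    obtain ⟨c, hc⟩ := hrep w hw
    have hc0 : ∀ j, c j = 0 := by
      intro j
      have h1 : τ (xd j * w) = c j * D := by
        rw [← hc, Finset.mul_sum, map_sum]
        simp [hdual]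
      have h2 : τ (xd j * w) = 0 := by
        rw [hτ, hxd]
        simp [Finset.mul_sum, h]
      exact (mul_eq_zero.mp (h1.symm.trans h2)).resolve_right hD0
    rw [← hc]; simp [hc0]
  have hact : ∀ a ∈ V, ∃ α : b → b → K, (∀ i, a * x i = ∑ j, α i j • x j) ∧
      ∀ j, xd j * a = ∑ i, α i j • xd i := by
    intro a ha
    choose α hα using fun i => hrep (a * x i) (span_subring_mul_mem A ha (hxV i))
    refine ⟨α, fun i => (hα i).symm, fun j => ?_⟩
    rw [← sub_eq_zero]
    apply hnd _ (V.sub_mem (span_subring_mul_mem A (hxdV j) ha)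
      (V.sum_mem fun i _ => V.smul_mem _ (hxdV i)))
    intro m
    rw [sub_mul, map_sub, mul_assoc, ← hα m, Finset.mul_sum, Finset.sum_mul, map_sum, map_sum]
    simp [hdual]
  set c : B := ∑ i, x i * xd i with hc
  have hcA : c ∈ A := A.sum_mem fun i _ => A.mul_mem (hxA i) (hxdA i)
  have hne : Nonempty b := by
    by_contra h
    rw [not_nonempty_iff] at h
    obtain ⟨e, he⟩ := hrep 1 (Submodule.subset_span A.one_mem)
    have := congrArg τ he
    simp [hτ1] at this
  have hc0 : c ≠ 0 := by
    intro h
    have h1 : τ c = Fintype.card b * D := by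
      rw [hc, map_sum]
      simp [hτ (x _), hdual]
    rw [h, map_zero] at h1
    exact mul_ne_zero (Nat.cast_ne_zero.mpr Fintype.card_ne_zero) hD0 h1.symm
  obtain ⟨c', hc'V, h1, h2⟩ := exists_inv_mem_span (K := K) A (Submodule.subset_span hcA)
    (hunit c hcA hc0)
  refine ⟨(∑ i, d (x i) * xd i) * c', fun a ha => ?_⟩
  obtain ⟨α, hα, hα'⟩ := hact a (Submodule.subset_span ha)
  have hcomm : a * c = c * a := by
    rw [hc, Finset.mul_sum, Finset.sum_mul]
    simp only [← mul_assoc, hα, Finset.sum_mul, smul_mul_assoc]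
    simp only [mul_assoc, hα', Finset.mul_sum, mul_smul_comm]
    exact Finset.sum_comm
  have hcomm' : c' * a = a * c' := by
    calc c' * a = c' * a * (c * c') := by rw [h1, mul_one]
      _ = c' * (a * c) * c' := by simp only [mul_assoc]
      _ = (c' * c) * a * c' := by rw [hcomm]; simp only [mul_assoc]
      _ = a * c' := by rw [h2, one_mul]
  set Y := ∑ i, d (x i) * xd i with hY
  set β := ∑ i, ∑ j, δ (α i j) • (x j * xd i) with hβ
  have hβV : β ∈ V := V.sum_mem fun i _ => V.sum_mem fun j _ =>
    V.smul_mem _ (span_subring_mul_mem A (hxV j) (hxdV i))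
  have key : d a * c + a * Y = β + Y * a := by
    calc d a * c + a * Y = ∑ i, d (a * x i) * xd i := by
          rw [hc, hY, Finset.mul_sum, Finset.mul_sum, ← Finset.sum_add_distrib]
          refine Finset.sum_congr rfl fun i _ => ?_
          rw [hd, add_mul, mul_assoc, mul_assoc]
      _ = β + ∑ i, ∑ j, α i j • (d (x j) * xd i) := by
          rw [hβ, ← Finset.sum_add_distrib]
          refine Finset.sum_congr rfl fun i _ => ?_
          rw [hα, map_sum, Finset.sum_mul, ← Finset.sum_add_distrib]
          refine Finset.sum_congr rfl fun j _ => ?_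
          rw [hδ, add_mul, smul_mul_assoc, smul_mul_assoc]
      _ = β + Y * a := by
          congr 1
          rw [hY, Finset.sum_mul, Finset.sum_comm]
          refine Finset.sum_congr rfl fun j _ => ?_
          rw [mul_assoc, hα', Finset.mul_sum]
          simp only [mul_smul_comm]
  have e : d a - (Y * c' * a - a * (Y * c')) = β * c' := by
    have h3 : d a = (β + Y * a - a * Y) * c' := by
      rw [← key, add_sub_cancel_right, mul_assoc, h1, mul_one]
    rw [h3, mul_assoc Y c' a, hcomm']
    simp only [sub_mul, add_mul, mul_assoc]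
    abel
  rw [e]
  exact span_subring_mul_mem A hβV hc'V

end Crest.Agent.R180
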