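import Mathlib

/-!
Row 180 (Kurosh problem for division rings): trace polynomials in two letters, the Newton
relation, and the data produced at each finite stage.
-/

set_option autoImplicit false

namespace Crest.Agent.R180

/-- Formal trace polynomials in two letters. -/
inductive Expr : Type
  | u : Expr
  | v : Expr
  | const (q : ℚ) : Expr
  | add (a b : Expr) : Expr
  | mul (a b : Expr) : Expr
  | tr (a : Expr) : Expr

section

variable {K B : Type*} [CommRing K] [Algebra ℚ K] [Ring B] [Algebra K B]

/-- Evaluation of a trace polynomial in an algebra with a linear functional `τ`. -/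
def Expr.eval (τ : B →ₗ[K] K) (x y : B) : Expr → B
  | .u => x
  | .v => y
  | .const q => algebraMap K B (algebraMap ℚ K q)
  | .add a b => a.eval τ x y + b.eval τ x y
  | .mul a b => a.eval τ x y * b.eval τ x y
  | .tr a => algebraMap K B (τ (a.eval τ x y))

/-- Elementary symmetric functions computed from the power sums `p` by Newton's recursion. -/
noncomputable def newtonE (p : ℕ → K) : ℕ → K
  | 0 => 1
  | k + 1 => ((k + 1 : ℚ)⁻¹) • ((-1) ^ k *
      ∑ a : Fin (k + 1), (-1) ^ (a : ℕ) * newtonE p a * p (k + 1 - a))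
decreasing_by exact a.2

/-- The monic degree-`m` relation whose power sums are `m τ(a ^ j)`, evaluated at `a`. -/
noncomputable def rel (m : ℕ) (τ : B →ₗ[K] K) (a : B) : B :=
  ∑ i ∈ Finset.range (m + 1), ((-1) ^ i * newtonE (fun j => (m : K) * τ (a ^ j)) i) • a ^ (m - i)

end

/-- The data of the `N`-th finite stage. -/
structure Stage (enum : ℕ → Expr) (N : ℕ) where
  K : Type
  B : Type
  [fieldK : Field K]
  [charZeroK : CharZero K]
  [ringB : Ring B]
  [algB : Algebra K B]
  [nontrivB : Nontrivial B]
  τ : B →ₗ[K] K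
  x : B
  y : B
  unit : ∀ e : Expr, e.eval τ x y ≠ 0 → IsUnit (e.eval τ x y)
  rel_eq : ∀ i < N, rel (2 ^ (i + 2)) τ ((enum i).eval τ x y) = 0
  big : ∀ M : Submodule K B, Module.Finite K M → (1 : B) ∈ M → (∀ z ∈ M, x * z ∈ M) →
    (∀ z ∈ M, y * z ∈ M) → N < Module.finrank K M

end Crest.Agent.R180
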