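import Mathlib

set_option autoImplicit false
set_option linter.unusedSectionVars false
set_option linter.style.haveILetI false

namespace Crest.Agent.R180

open Module MvPolynomial

variable {σ : Type} [Fintype σ] [DecidableEq σ]

open scoped IntermediateField.algebraAdjoinAdjoin in
/-- Dual derivations to a transcendence basis in characteristic zero. -/
lemma exists_dual_derivation_basis {K : Type} [Field K] [Algebra ℚ K] {s : Set K}
    (hs : IsTranscendenceBasis ℚ ((↑) : s → K)) (i : s) :
    ∃ δ : Derivation ℚ K K, δ i = 1 ∧ ∀ j : s, j ≠ i → δ j = 0 := by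
  classical
  set v : s → K := (↑) with hv
  have halg : Algebra.IsAlgebraic (↥(IntermediateField.adjoin ℚ (Set.range v))) K :=
    hs.isAlgebraic_field
  haveI : CharZero (↥(IntermediateField.adjoin ℚ (Set.range v))) :=
    algebraRat.charZero _
  have hsep : Algebra.IsSeparable (↥(IntermediateField.adjoin ℚ (Set.range v))) K :=
    inferInstance
  have e1 : Algebra.FormallyEtale (IntermediateField.adjoin ℚ (Set.range v)) K :=
    Algebra.FormallyEtale.of_isSeparable _ K
  have e2 : Algebra.FormallyEtale (Algebra.adjoin ℚ (Set.range v))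
      (IntermediateField.adjoin ℚ (Set.range v)) :=
    .of_isLocalization (nonZeroDivisors _)
  have e3 : Algebra.FormallyEtale (Algebra.adjoin ℚ (Set.range v)) K :=
    .comp _ (IntermediateField.adjoin ℚ (Set.range v)) _
  letI : Algebra (MvPolynomial s ℚ) (Algebra.adjoin ℚ (Set.range v)) :=
    hs.1.aevalEquiv.toAlgHom.toRingHom.toAlgebra
  letI : Algebra (MvPolynomial s ℚ) K :=
    ((algebraMap (Algebra.adjoin ℚ (Set.range v)) K).comp
      hs.1.aevalEquiv.toAlgHom.toRingHom).toAlgebra
  haveI : IsScalarTower (MvPolynomial s ℚ) (Algebra.adjoin ℚ (Set.range v)) K :=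
    IsScalarTower.of_algebraMap_eq' rfl
  haveI : IsScalarTower ℚ (MvPolynomial s ℚ) K := by
    apply IsScalarTower.of_algebraMap_eq
    intro a
    simp [RingHom.algebraMap_toAlgebra]
  have e4 : Algebra.FormallyEtale (MvPolynomial s ℚ) (Algebra.adjoin ℚ (Set.range v)) := by
    refine Algebra.FormallyEtale.of_equiv (AlgEquiv.ofBijective (Algebra.ofId _ _) ?_)
    exact hs.1.aevalEquiv.bijective
  have e5 : Algebra.FormallyEtale (MvPolynomial s ℚ) K :=
    .comp _ (Algebra.adjoin ℚ (Set.range v)) _
  have hX : ∀ j : s, algebraMap (MvPolynomial s ℚ) K (X j) = j := by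
    intro j
    simp [RingHom.algebraMap_toAlgebra, hv]
  set e := KaehlerDifferential.tensorKaehlerEquivOfFormallyEtale ℚ (MvPolynomial s ℚ) K with he
  set B := (KaehlerDifferential.mvPolynomialBasis ℚ s).baseChange K with hB
  have key : ∀ j : s, ((B.coord i) ∘ₗ e.symm.toLinearMap).compDer (KaehlerDifferential.D ℚ K) j =
      if j = i then 1 else 0 := by
    intro j
    have : e.symm (KaehlerDifferential.D ℚ K j) = B j := by
      rw [← hX j, he, KaehlerDifferential.tensorKaehlerEquivOfFormallyEtale_symm_D_algebraMap, hB,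
        Basis.baseChange_apply, KaehlerDifferential.mvPolynomialBasis_apply]
    change B.coord i (e.symm (KaehlerDifferential.D ℚ K j)) = _
    rw [this, Basis.coord_apply, B.repr_self, Finsupp.single_apply]
  refine ⟨_, by rw [key, if_pos rfl], fun j hj => by rw [key, if_neg hj]⟩

/-- Dual derivations to an algebraically independent family. -/
lemma exists_dual_derivation {K ι : Type} [Field K] [Algebra ℚ K] {v : ι → K}
    (hv : AlgebraicIndependent ℚ v) (i : ι) :
    ∃ δ : Derivation ℚ K K, δ (v i) = 1 ∧ ∀ j, j ≠ i → δ (v j) = 0 := by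
  obtain ⟨t, hst, ht⟩ := exists_isTranscendenceBasis_superset (R := ℚ) (s := Set.range v)
    hv.coe_range
  obtain ⟨δ, h1, h2⟩ := exists_dual_derivation_basis ht ⟨v i, hst ⟨i, rfl⟩⟩
  exact ⟨δ, h1, fun j hj => h2 ⟨v j, hst ⟨j, rfl⟩⟩ fun h =>
    hj (hv.injective (congrArg Subtype.val h))⟩

/-- Algebraic dependence from a bound on the values of derivations. -/
theorem dependent_of_derivations {K : Type} [Field K] [Algebra ℚ K] (x : σ → K) (σ₁ : Finset σ)
    (V : Submodule K (σ → K))
    (hV : ∀ δ : Derivation ℚ K K, (∀ j ∈ σ₁, δ (x j) = 0) → (fun j => δ (x j)) ∈ V)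
    (τ : Finset σ) (hτ : finrank K V + σ₁.card < τ.card) :
    ∃ F : MvPolynomial σ ℚ, F ≠ 0 ∧ F ∈ supported ℚ (τ : Set σ) ∧ aeval x F = 0 := by
  by_contra hcon
  have hind : AlgebraicIndependent ℚ (fun j : (τ : Set σ) => x j) := by
    rw [algebraicIndependent_iff]
    intro P hP
    by_contra hP0
    refine hcon ⟨rename (↑) P, fun h => hP0 ?_, ?_, ?_⟩
    · exact rename_injective _ Subtype.val_injective (by rw [h, map_zero])
    · rw [supported_eq_range_rename]; exact ⟨P, rfl⟩
    · rw [aeval_rename]; exact hP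
  choose δ hδ1 hδ2 using exists_dual_derivation hind
  let Φ : Derivation ℚ K K →ₗ[K] (σ → K) :=
    { toFun := fun d j => d (x j)
      map_add' := fun _ _ => rfl
      map_smul' := fun _ _ => rfl }
  let π : (σ → K) →ₗ[K] (σ₁ → K) := LinearMap.funLeft K K (↑)
  let ρ : (σ → K) →ₗ[K] (↥(τ : Set σ) → K) := LinearMap.funLeft K K Subtype.val
  set R := LinearMap.range Φ with hR
  have h1 : τ.card ≤ finrank K R := by
    have htop : R.map ρ = ⊤ := by
      rw [eq_top_iff, ← (Pi.basisFun K ↥(τ : Set σ)).span_eq, Submodule.span_le]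
      rintro _ ⟨i, rfl⟩
      refine ⟨Φ (δ i), ⟨δ i, rfl⟩, ?_⟩
      funext j
      change δ i (x j) = _
      by_cases h : j = i
      · subst h; simp [hδ1]
      · simp [hδ2 i j h, h]
    have := Submodule.finrank_map_le ρ R
    rw [htop] at this
    simpa using this
  have h2 := LinearMap.finrank_range_add_finrank_ker (π.domRestrict R)
  have h3 : finrank K (LinearMap.range (π.domRestrict R)) ≤ σ₁.card := by
    have := Submodule.finrank_le (LinearMap.range (π.domRestrict R))
    simpa using this
  have h4 : finrank K (LinearMap.ker (π.domRestrict R)) ≤ finrank K V := by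
    rw [← Submodule.finrank_map_subtype_eq]
    refine Submodule.finrank_mono ?_
    rintro _ ⟨⟨_, d, rfl⟩, hy, rfl⟩
    exact hV d fun j hj => congrFun hy ⟨j, hj⟩
  omega

end Crest.Agent.R180
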