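import Crest.Agent.R180.Lagr

/-!
The discriminant of an element of the commutative subalgebra.
-/

set_option autoImplicit false
set_option linter.unusedSectionVars false

namespace Crest.Agent.R180

open Polynomial

variable {N k : ℕ} {R : Type} [CommRing R] [Algebra ℚ R] {s : Ix N → R}

/-- Augmentation of the commutative subalgebra after splitting the parameters. -/
def aug (s : Ix N → R) (k : ℕ) {R' : Type} [CommRing R'] (f : R →+* R') (hf : ∀ i, f (s i) = 1) :
    LA s k →+* R' where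
  toFun x := ∑ l, f ((x : QA s) l)
  map_one' := by simp [TA.one_apply, apply_ite f]
  map_zero' := by simp
  map_add' x y := by simp [Finset.sum_add_distrib]
  map_mul' x y := by
    simp only [Subalgebra.coe_mul, TA.mul_apply, map_sum, map_mul]
    rw [Finset.sum_comm, Finset.sum_mul_sum]
    refine Finset.sum_congr rfl fun a _ => ?_
    rw [← Equiv.sum_comp (Equiv.addLeft a)]
    refine Finset.sum_congr rfl fun d _ => ?_
    simp only [Equiv.coe_addLeft, add_sub_cancel_left]
    by_cases ha : a ∈ Lam N k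
    · have : bf a d = 0 := by simp [bf, Lam_true ha]
      simp [qc_c, this, hf]
    · simp [x.2 a ha]

lemma aug_apply {R' : Type} [CommRing R'] (f : R →+* R') (hf : ∀ i, f (s i) = 1) (x : LA s k) :
    aug s k f hf x = ∑ l, f ((x : QA s) l) := rfl

lemma sgL_zero (x : LA s k) : sgL s k 0 x = x := Subtype.ext (sg_zero _)

lemma sgL_sgL (η θ : Hh N) (x : LA s k) : sgL s k η (sgL s k θ x) = sgL s k (η + θ) x :=
  Subtype.ext (sg_sg _ _ _)

theorem exists_disc (hk : k ≤ N) {b : QA s} (hb : b ∈ TA.Supp _ (Lam N k : Set _))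
    {R' : Type} [CommRing R'] [IsDomain R'] (f : R →+* R') (hf : ∀ i, f (s i) = 1)
    (hsep : ∀ η ∈ Psi N k, ∀ η' ∈ Psi N k, η ≠ η' →
      ∑ l, f (b l) * sgn R' (om η l) ≠ ∑ l, f (b l) * sgn R' (om η' l)) :
    ∃ h : R, f h ≠ 0 ∧
      (∃ b' : QA s, b' * aeval b (derivative (relP (2 ^ k) (TA.tr _) b)) = algebraMap R _ h) ∧
      ∀ χ ∉ Per N k, ∃ l ∈ TA.Supp _ (Lam N k : Set _), l * (sg s χ b - b) = algebraMap R _ h := by
  set x : LA s k := ⟨b, hb⟩ with hx
  set l0 : LA s k := ∏ θ ∈ (Psi N k).erase 0, (x - sgL s k θ x) with hl0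
  have h1 : aeval b (derivative (relP (2 ^ k) (TA.tr _) b)) = (l0 : QA s) := by
    have := aeval_coe x (derivative (relP (2 ^ k) (TA.tr _) b))
    rw [← Polynomial.derivative_map, map_relP hk x, ← Finset.mul_prod_erase _ _ zero_mem_Psi,
      derivative_mul, sgL_zero] at this
    simp only [derivative_sub, derivative_X, derivative_C, sub_zero, one_mul, eval_add, eval_mul,
      eval_sub, eval_X, eval_C, sub_self, zero_mul, add_zero, eval_prod] at this
    exact this
  set h : R := (relP (2 ^ k) (TA.tr _) (l0 : QA s)).eval 0 with hh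
  have h2 : algebraMap R (LA s k) h = ∏ η ∈ Psi N k, (-sgL s k η l0) := by
    have := congrArg (eval 0) (map_relP hk l0)
    rw [eval_prod, eval_zero_map] at this
    simpa using this
  have h3 : -(∏ η ∈ (Psi N k).erase 0, (-sgL s k η l0)) * l0 = algebraMap R (LA s k) h := by
    rw [h2, ← Finset.mul_prod_erase _ _ zero_mem_Psi, sgL_zero]; ring
  refine ⟨h, ?_, ⟨_, by rw [h1]; exact congrArg Subtype.val h3⟩, fun χ hχ => ?_⟩
  · have e1 : aug s k f hf (algebraMap R (LA s k) h) = f h := by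
      simp [aug_apply, TA.algebraMap_apply, apply_ite f]
    have e2 : ∀ η, aug s k f hf (sgL s k η x) = ∑ l, f (b l) * sgn R' (om η l) := by
      intro η
      simp [aug_apply, sgL_coe, hx]
    rw [← e1, h2, map_prod]
    refine Finset.prod_ne_zero_iff.2 fun η hη => ?_
    rw [map_neg, neg_ne_zero, hl0, map_prod, map_prod]
    refine Finset.prod_ne_zero_iff.2 fun θ hθ => ?_
    rw [Finset.mem_erase] at hθ
    rw [map_sub, sgL_sgL, map_sub, e2, e2, sub_ne_zero]
    exact hsep _ hη _ (add_mem_Psi hη hθ.2) (by simpa using hθ.1)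
  · have hθ : pr k χ ∈ (Psi N k).erase 0 := Finset.mem_erase.2 ⟨pr_ne_zero hχ, pr_mem χ⟩
    obtain ⟨u, hu⟩ : ∃ u, -u * l0 = algebraMap R (LA s k) h := ⟨_, h3⟩
    obtain ⟨v, hv⟩ : ∃ v, (x - sgL s k (pr k χ) x) * v = l0 :=
      ⟨_, Finset.mul_prod_erase _ (fun θ => x - sgL s k θ x) hθ⟩
    have h4 : (u * v) * (sgL s k (pr k χ) x - x) = algebraMap R (LA s k) h := by
      rw [← hu, ← hv]; ring
    refine ⟨(u * v : LA s k), (u * v).2, ?_⟩
    rw [sg_pr χ hb]
    exact congrArg Subtype.val h4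

end Crest.Agent.R180
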