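import Crest.Agent.R180.Poly

/-!
Prime filtrations of graded modules, extraction of good primes, elimination of variables.
-/

set_option autoImplicit false
set_option linter.unusedSectionVars false

namespace Crest.Agent.R180

open Module MvPolynomial

variable {ι : Type} [Fintype ι] [DecidableEq ι] {σ : Type} [Fintype σ] [DecidableEq σ]
variable {k : Type} [Field k]

lemma Wt.isPrime_of_hom (W : Wt σ ι) {I : Ideal (MvPolynomial σ k)} (hI : W.IHom I) (hne : I ≠ ⊤)
    (h : ∀ (a b : MvPolynomial σ k) (α β : ι →₀ ℕ), a.IsWeightedHomogeneous W.w α →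
      b.IsWeightedHomogeneous W.w β → a * b ∈ I → a ∈ I ∨ b ∈ I) : I.IsPrime := by
  classical
  refine ⟨hne, fun {a b} hab => ?_⟩
  by_contra hc
  push Not at hc
  obtain ⟨s, hs⟩ := (W.G k).fin a
  obtain ⟨t, ht⟩ := (W.G k).fin b
  have hA : (s.filter fun α => (W.G k).π α a ∉ I).Nonempty := by
    by_contra hc'
    apply hc.1
    rw [← hs]
    refine I.sum_mem fun α hα => ?_
    by_contra h'
    exact hc' ⟨α, Finset.mem_filter.2 ⟨hα, h'⟩⟩
  have hB : (t.filter fun β => (W.G k).π β b ∉ I).Nonempty := by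
    by_contra hc'
    apply hc.2
    rw [← ht]
    refine I.sum_mem fun α hα => ?_
    by_contra h'
    exact hc' ⟨α, Finset.mem_filter.2 ⟨hα, h'⟩⟩
  obtain ⟨α, hα, β, hβ, hu⟩ := UniqueSums.uniqueAdd_of_nonempty hA hB
  rw [Finset.mem_filter] at hα hβ
  have h1 : (W.G k).π (α + β) (a * b) ∈ I := hI _ _ hab
  have h2 : (W.G k).π (α + β) (a * b) - (W.G k).π α a * (W.G k).π β b ∈ I := by
    conv => enter [2, 1, 2]; rw [← hs, ← ht, Finset.sum_mul_sum, ← Finset.sum_product']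
    rw [map_sum, ← Finset.add_sum_erase _ _ (Finset.mk_mem_product hα.1 hβ.1)]
    rw [(W.π_eq_self_iff _ _).2 ((W.π_hom α a).mul (W.π_hom β b)), add_sub_cancel_left]
    refine I.sum_mem fun p hp => ?_
    rw [Finset.mem_erase, Finset.mem_product] at hp
    rw [Grading.π_of_hom ((W.π_eq_self_iff _ _).2 ((W.π_hom p.1 a).mul (W.π_hom p.2 b)))]
    split_ifs with e
    · by_cases h3 : (W.G k).π p.1 a ∈ I
      · exact I.mul_mem_right _ h3
      by_cases h4 : (W.G k).π p.2 b ∈ I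
      · exact I.mul_mem_left _ h4
      have := hu (Finset.mem_filter.2 ⟨hp.2.1, h3⟩) (Finset.mem_filter.2 ⟨hp.2.2, h4⟩) e.symm
      exact absurd (Prod.ext this.1 this.2) hp.1
    · exact zero_mem _
  have h3 : (W.G k).π α a * (W.G k).π β b ∈ I := by
    have := I.sub_mem h1 h2
    rwa [sub_sub_cancel] at this
  rcases h _ _ _ _ (W.π_hom α a) (W.π_hom β b) h3 with h4 | h4
  · exact hα.2 h4
  · exact hβ.2 h4

section Module

variable {M : Type*} [AddCommGroup M] [Module k M] [Module (MvPolynomial σ k) M]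
  [IsScalarTower k (MvPolynomial σ k) M]

/-- Compatibility of a grading of a module with the grading of the polynomial ring. -/
def Wt.Compat (W : Wt σ ι) (G : Grading k M ι) : Prop :=
  ∀ (r : MvPolynomial σ k) (β γ : ι →₀ ℕ) (x : M), r.IsWeightedHomogeneous W.w β →
    G.π γ x = x → G.π (β + γ) (r • x) = r • x

lemma Wt.compat_self (W : Wt σ ι) : W.Compat (W.G k) := by
  intro r β γ x hr hx
  rw [W.π_eq_self_iff] at hx ⊢
  exact hr.mul hx

lemma Wt.Compat.π_smul {W : Wt σ ι} {G : Grading k M ι} (h : W.Compat G) {q : M} {γ : ι →₀ ℕ}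
    (hq : G.π γ q = q) (β : ι →₀ ℕ) (r : MvPolynomial σ k) :
    G.π (β + γ) (r • q) = (W.G k).π β r • q := by
  obtain ⟨s, hs⟩ := (W.G k).fin r
  conv_lhs => rw [← hs]
  conv_rhs => rw [← hs]
  simp only [map_sum, Finset.sum_smul]
  refine Finset.sum_congr rfl fun α _ => ?_
  rw [Grading.π_of_hom (h _ α γ q (W.π_hom α r) hq), Grading.π_of_hom ((W.G k).idem α r)]
  by_cases e : β = α
  · simp [e]
  · simp [e]

lemma Wt.Compat.π_smul_not_le {W : Wt σ ι} {G : Grading k M ι} (h : W.Compat G) {q : M}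
    {γ : ι →₀ ℕ} (hq : G.π γ q = q) {β : ι →₀ ℕ} (hβ : ¬ γ ≤ β) (r : MvPolynomial σ k) :
    G.π β (r • q) = 0 := by
  obtain ⟨s, hs⟩ := (W.G k).fin r
  rw [← hs]
  simp only [map_sum, Finset.sum_smul]
  refine Finset.sum_eq_zero fun α _ => ?_
  rw [Grading.π_of_hom (h _ α γ q (W.π_hom α r) hq), if_neg]
  rintro rfl
  exact hβ le_add_self

/-- The ideal of coefficients sending `q` into `P`. -/
noncomputable def colon (P : Submodule (MvPolynomial σ k) M) (q : M) : Ideal (MvPolynomial σ k) :=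
  P.comap (LinearMap.toSpanSingleton (MvPolynomial σ k) M q)

lemma mem_colon' {P : Submodule (MvPolynomial σ k) M} {q : M} {r : MvPolynomial σ k} :
    r ∈ colon P q ↔ r • q ∈ P := Iff.rfl

lemma Wt.Compat.hom_colon {W : Wt σ ι} {G : Grading k M ι} (h : W.Compat G)
    {P : Submodule (MvPolynomial σ k) M} (hP : G.Hom (P.restrictScalars k)) {q : M} {γ : ι →₀ ℕ}
    (hq : G.π γ q = q) : W.IHom (colon P q) := by
  intro β r hr
  change (W.G k).π β r • q ∈ P
  rw [← h.π_smul hq]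
  exact hP _ _ hr

lemma Wt.Compat.hom_sup_span {W : Wt σ ι} {G : Grading k M ι} (h : W.Compat G)
    {P : Submodule (MvPolynomial σ k) M} (hP : G.Hom (P.restrictScalars k)) {q : M} {γ : ι →₀ ℕ}
    (hq : G.π γ q = q) :
    G.Hom ((P ⊔ Submodule.span (MvPolynomial σ k) {q}).restrictScalars k) := by
  intro β x hx
  obtain ⟨a, ha, b, hb, rfl⟩ := Submodule.mem_sup.1 hx
  obtain ⟨r, rfl⟩ := Submodule.mem_span_singleton.1 hb
  rw [map_add]
  refine Submodule.add_mem_sup (hP β a ha) ?_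
  by_cases hle : γ ≤ β
  · obtain ⟨α, rfl⟩ := exists_add_of_le hle
    rw [add_comm, h.π_smul hq]
    exact Submodule.mem_span_singleton.2 ⟨_, rfl⟩
  · rw [h.π_smul_not_le hq hle]; exact zero_mem _

lemma Wt.Compat.H_sup_span {W : Wt σ ι} {G : Grading k M ι} (h : W.Compat G)
    {P : Submodule (MvPolynomial σ k) M} (hP : G.Hom (P.restrictScalars k)) {q : M} {γ : ι →₀ ℕ}
    (hq : G.π γ q = q) :
    G.H ((P ⊔ Submodule.span (MvPolynomial σ k) {q}).restrictScalars k) -
      G.H (P.restrictScalars k) = MvPowerSeries.monomial γ 1 * W.HQ (colon P q) := by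
  have := Grading.key_map (G := W.G k) G
    ((LinearMap.toSpanSingleton (MvPolynomial σ k) M q).restrictScalars k) γ
    (fun β r => h.π_smul hq β r) (fun β r hβ => h.π_smul_not_le hq hβ r) hP Grading.Hom.top
  rw [top_inf_eq] at this
  rw [Wt.HQ]
  refine Eq.trans ?_ this.symm
  congr 2
  ext x
  simp only [Submodule.restrictScalars_mem, Submodule.mem_sup, Submodule.mem_span_singleton,
    Submodule.mem_map, Submodule.mem_top, true_and, LinearMap.coe_restrictScalars,
    LinearMap.toSpanSingleton_apply]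
  constructor
  · rintro ⟨a, ha, b, hb, rfl⟩
    exact ⟨b, hb, a, ha, add_comm _ _⟩
  · rintro ⟨a, ha, b, hb, rfl⟩
    exact ⟨b, hb, a, ha, add_comm _ _⟩

theorem Wt.Compat.filtration {W : Wt σ ι} {G : Grading k M ι} (h : W.Compat G)
    [IsNoetherian (MvPolynomial σ k) M] (Pr : MvPowerSeries ι ℤ → Prop) (h0 : Pr 0)
    (hadd : ∀ a b, Pr a → Pr b → Pr (a + b)) {P Q : Submodule (MvPolynomial σ k) M}
    (hP : G.Hom (P.restrictScalars k)) (hQ : G.Hom (Q.restrictScalars k)) (hle : P ≤ Q)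
    (hstep : ∀ (𝔮 : Ideal (MvPolynomial σ k)) (γ : ι →₀ ℕ), 𝔮.IsPrime → W.IHom 𝔮 →
      (∀ r : MvPolynomial σ k, (∀ x ∈ Q, r • x ∈ P) → r ∈ 𝔮) →
      NN (G.H (Q.restrictScalars k) - G.H (P.restrictScalars k) -
        MvPowerSeries.monomial γ 1 * W.HQ 𝔮) → Pr (MvPowerSeries.monomial γ 1 * W.HQ 𝔮)) :
    Pr (G.H (Q.restrictScalars k) - G.H (P.restrictScalars k)) := by
  have main : ∀ S : Submodule (MvPolynomial σ k) M, P ≤ S → S ≤ Q → G.Hom (S.restrictScalars k) →
      Pr (G.H (Q.restrictScalars k) - G.H (S.restrictScalars k)) := by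
    intro S
    induction S using IsNoetherian.induction with
    | hgt S ih =>
    intro s1 s2 hS
    by_cases hQS : Q ≤ S
    · rw [le_antisymm s2 hQS, sub_self]; exact h0
    have hne : ({I | ∃ q ∈ Q, q ∉ S ∧ (∃ γ, G.π γ q = q) ∧ I = colon S q} :
        Set (Ideal (MvPolynomial σ k))).Nonempty := by
      by_contra hc
      refine hQS fun x hx => ?_
      refine Grading.mem_of_forall_π (G := G) (P := S.restrictScalars k) fun γ => ?_
      by_contra hc'
      exact hc ⟨_, G.π γ x, hQ γ x hx, hc', ⟨γ, G.idem γ x⟩, rfl⟩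
    obtain ⟨_, ⟨q, hqQ, hqS, ⟨γ, hγ⟩, rfl⟩, hmax⟩ :=
      set_has_maximal_iff_noetherian.2 (inferInstance : IsNoetherian (MvPolynomial σ k)
        (MvPolynomial σ k)) _ hne
    have hhom := h.hom_colon hS hγ
    have hprime : (colon S q).IsPrime := by
      refine W.isPrime_of_hom hhom ?_ ?_
      · rw [Ne, Ideal.eq_top_iff_one, mem_colon', one_smul]; exact hqS
      · intro a b α β ha hb hab
        by_cases hbq : b • q ∈ S
        · exact Or.inr hbq
        left
        have hle' : colon S q ≤ colon S (b • q) := by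
          intro r hr
          rw [mem_colon', smul_comm]
          exact S.smul_mem _ hr
        have := hmax _ ⟨b • q, Q.smul_mem _ hqQ, hbq, ⟨_, h b β γ q hb hγ⟩, rfl⟩
        have e : colon S q = colon S (b • q) := by
          by_contra hne
          exact this (lt_of_le_of_ne hle' hne)
        rw [e, mem_colon', smul_smul]
        exact hab
    have hlt : S < S ⊔ Submodule.span (MvPolynomial σ k) {q} :=
      lt_of_le_of_ne le_sup_left fun e => hqS (e ▸ Submodule.mem_sup_right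
        (Submodule.mem_span_singleton_self q))
    have hle2 : S ⊔ Submodule.span (MvPolynomial σ k) {q} ≤ Q :=
      sup_le s2 ((Submodule.span_singleton_le_iff_mem _ _).2 hqQ)
    have a1 := ih _ hlt (s1.trans le_sup_left) hle2 (h.hom_sup_span hS hγ)
    have a2 := h.H_sup_span hS hγ
    have a3 := hstep (colon S q) γ hprime hhom (fun r hr => s1 (hr q hqQ)) (by
      rw [← a2]
      intro β
      have b1 := Grading.NN_H_sub (G := G) ((Submodule.restrictScalars_le k).2 hle2) β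
      have b2 := Grading.NN_H_sub (G := G) ((Submodule.restrictScalars_le k).2 s1) β
      simp only [map_sub] at b1 b2 ⊢
      omega)
    have := hadd _ _ a1 a3
    rw [← a2] at this
    convert this using 1
    ring
  exact main P le_rfl hle hP

lemma ACC_of_closed [IsNoetherian (MvPolynomial σ k) M] {J : Type*} (Z : J → M →ₗ[k] M)
    (𝒥 : Finset J) (P Q : Submodule k M)
    (h : ∀ S : Submodule k M, P ≤ S → S ≤ Q → Stable Z 𝒥 S →
      ∀ (r : MvPolynomial σ k) x, x ∈ S → r • x ∈ S) : ACC Z 𝒥 P Q := by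
  have wf : WellFounded ((· > ·) : Submodule (MvPolynomial σ k) M → _ → Prop) :=
    (inferInstance : WellFoundedGT (Submodule (MvPolynomial σ k) M)).wf
  let f : {S : Submodule k M // S ∈ {S | P ≤ S ∧ S ≤ Q ∧ Stable Z 𝒥 S}} →
      Submodule (MvPolynomial σ k) M := fun S =>
    { carrier := S.1
      add_mem' := S.1.add_mem
      zero_mem' := S.1.zero_mem
      smul_mem' := fun r x hx => h S.1 S.2.1 S.2.2.1 S.2.2.2 r x hx }
  refine Subrelation.wf (r := InvImage (· > ·) f) ?_ (InvImage.wf f wf)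
  intro a b hab
  exact hab

end Module

lemma Wt.exists_cl (W : Wt σ ι) (𝔫 : Ideal (MvPolynomial ι ℤ)) {𝒥 : Finset σ}
    (hn : ∀ j ∈ 𝒥, lin (W.w j) ∈ 𝔫) {I : Ideal (MvPolynomial σ k)} (hI : W.IHom I) (hg : Gen 𝒥 I)
    {e : ℕ} (hgk : GK (W.HQ I) e) :
    ∃ κ, Cl (den W.w 𝒥) (W.HQ I) (𝒥.card - e) κ ∧ (0 < 𝒥.card - e → κ ∈ 𝔫) := by
  refine R180.exists_cl (W.G k) (fun j => LinearMap.mulLeft k (X j)) W.w 𝔫 𝒥
    (fun j _ => W.deg_mul (isWeightedHomogeneous_X k W.w j))
    (fun i _ j _ => ⟨1, fun x => by simp [mul_left_comm]⟩) hn _ _ e hI Grading.Hom.top le_top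
    (fun j _ x hx => I.mul_mem_left _ hx) (fun _ _ _ _ => trivial) ?_ hgk
  refine ACC_of_closed (σ := σ) _ _ _ _ fun S s1 _ s3 r x hx => ?_
  obtain ⟨r', hr', hrr⟩ := hg r
  have a1 : (r - r') * x ∈ S := s1 (I.mul_mem_right _ hrr)
  have a2 : ∀ y ∈ S, r' * y ∈ S := by
    clear hrr a1
    induction hr' using Algebra.adjoin_induction with
    | mem z hz =>
      obtain ⟨j, hj, rfl⟩ := hz
      exact s3 j hj
    | algebraMap c => intro y hy; rw [← Algebra.smul_def]; exact S.smul_mem _ hy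
    | add a b _ _ ha hb => intro y hy; rw [add_mul]; exact S.add_mem (ha y hy) (hb y hy)
    | mul a b _ _ ha hb => intro y hy; rw [mul_assoc]; exact ha _ (hb y hy)
  have := S.add_mem a1 (a2 x hx)
  rwa [← add_mul, sub_add_cancel] at this

variable {Ω : Type} [CommRing Ω] {ev : MvPolynomial ι ℤ →+* Ω}

section Extract

variable {M : Type*} [AddCommGroup M] [Module k M] [Module (MvPolynomial σ k) M]
  [IsScalarTower k (MvPolynomial σ k) M]

/-- A module with non-vanishing class has a good prime in its support. -/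
theorem Wt.Compat.extract {W : Wt σ ι} {G : Grading k M ι} (h : W.Compat G)
    [IsNoetherian (MvPolynomial σ k) M] {P Q : Submodule (MvPolynomial σ k) M}
    (hP : G.Hom (P.restrictScalars k)) (hQ : G.Hom (Q.restrictScalars k)) (hle : P ≤ Q)
    {𝒥 : Finset σ} {𝔞 : Ideal (MvPolynomial σ k)} (hg : Gen 𝒥 𝔞)
    (ha : ∀ r ∈ 𝔞, ∀ x ∈ Q, r • x ∈ P) {c : ℕ} (hc : c ≤ 𝒥.card)
    (hgk : GK (G.H (Q.restrictScalars k) - G.H (P.restrictScalars k)) (𝒥.card - c))
    {κ : MvPolynomial ι ℤ}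
    (hcl : Cl (den W.w 𝒥) (G.H (Q.restrictScalars k) - G.H (P.restrictScalars k)) c κ)
    (hκ : ev κ ≠ 0) : ∃ 𝔮, 𝔞 ≤ 𝔮 ∧ W.Good ev 𝒥 𝔮 c := by
  by_contra hcon
  push Not at hcon
  obtain ⟨κ', a, b⟩ := h.filtration (fun s => ∃ κ', Cl (den W.w 𝒥) s c κ' ∧ ev κ' = 0)
    ⟨0, Cl.zero, map_zero _⟩
    (fun _ _ ⟨_, a, b⟩ ⟨_, a', b'⟩ => ⟨_, a.add a', by rw [map_add, b, b', add_zero]⟩) hP hQ hle
    (fun 𝔮 γ hp hh hann hnn => by
      have hle' : 𝔞 ≤ 𝔮 := fun r hr => hann r (ha r hr)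
      have g1 : GK (W.HQ 𝔮) (𝒥.card - c) := GK.of_shift (W.NN_HQ 𝔮) (hgk.of_le hnn)
      obtain ⟨κ', a, -⟩ := W.exists_cl ⊤ (fun _ _ => trivial) hh (hg.mono hle') g1
      rw [Nat.sub_sub_self hc] at a
      refine ⟨κ', a.shift γ, ?_⟩
      by_contra hne
      exact hcon 𝔮 hle' ⟨hp, hh, hg.mono hle', hc, g1, κ', a, hne⟩)
  exact hκ (hcl.unique a ▸ b)

end Extract

lemma Wt.hom_sup_span (W : Wt σ ι) {I : Ideal (MvPolynomial σ k)} (hI : W.IHom I)
    {f : MvPolynomial σ k} {δ : ι →₀ ℕ} (hf : f.IsWeightedHomogeneous W.w δ) :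
    W.IHom (I ⊔ Ideal.span {f}) :=
  W.compat_self.hom_sup_span hI ((W.π_eq_self_iff _ _).2 hf)

lemma Wt.HQ_cut (W : Wt σ ι) {I : Ideal (MvPolynomial σ k)} (hI : W.IHom I)
    {f : MvPolynomial σ k} {δ : ι →₀ ℕ} (hf : f.IsWeightedHomogeneous W.w δ)
    (hreg : ∀ r, r * f ∈ I → r ∈ I) :
    W.HQ (I ⊔ Ideal.span {f}) = W.HQ I * (1 - MvPowerSeries.monomial δ 1) := by
  have a := W.compat_self.H_sup_span (P := I) hI ((W.π_eq_self_iff _ _).2 hf)
  have e : colon I f = I := le_antisymm (fun r hr => hreg r hr) fun r hr => I.mul_mem_right _ hr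
  rw [e] at a
  have a' : (W.G k).H ((I ⊔ Ideal.span {f}).restrictScalars k) - (W.G k).H (I.restrictScalars k) =
      MvPowerSeries.monomial δ 1 * W.HQ I := a
  unfold Wt.HQ at a' ⊢
  linear_combination -a'

lemma Gen.erase {𝒥 : Finset σ} {x : σ} {I : Ideal (MvPolynomial σ k)} (h : Gen (insert x 𝒥) I)
    {g : MvPolynomial σ k} (hg : g ∈ supported k (𝒥 : Set σ)) (hf : X x - g ∈ I) : Gen 𝒥 I := by
  intro r
  obtain ⟨r', hr', hrr⟩ := h r
  have : ∃ r'' ∈ supported k (𝒥 : Set σ), r' - r'' ∈ I := by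
    clear hrr
    induction hr' using Algebra.adjoin_induction with
    | mem z hz =>
      obtain ⟨j, hj, rfl⟩ := hz
      rcases Finset.mem_insert.1 hj with rfl | hj
      · exact ⟨g, hg, hf⟩
      · exact ⟨X j, Algebra.subset_adjoin ⟨j, hj, rfl⟩, by simp⟩
    | algebraMap c => exact ⟨_, Subalgebra.algebraMap_mem _ c, by simp⟩
    | add a b _ _ ha hb =>
      obtain ⟨a', a1, a2⟩ := ha
      obtain ⟨b', b1, b2⟩ := hb
      exact ⟨a' + b', add_mem a1 b1, by
        rw [show a + b - (a' + b') = (a - a') + (b - b') by ring]; exact add_mem a2 b2⟩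
    | mul a b _ _ ha hb =>
      obtain ⟨a', a1, a2⟩ := ha
      obtain ⟨b', b1, b2⟩ := hb
      exact ⟨a' * b', mul_mem a1 b1, by
        rw [show a * b - a' * b' = (a - a') * b + a' * (b - b') by ring]
        exact add_mem (I.mul_mem_right _ a2) (I.mul_mem_left _ b2)⟩
  obtain ⟨r'', a, b⟩ := this
  exact ⟨r'', a, by rw [show r - r'' = (r - r') + (r' - r'') by ring]; exact add_mem hrr b⟩

/-- Elimination of one variable. -/
theorem Wt.Good.elim_one {W : Wt σ ι} {𝒥 : Finset σ} {x : σ} (hx : x ∉ 𝒥)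
    {I : Ideal (MvPolynomial σ k)} {c : ℕ} (h : W.Good ev (insert x 𝒥) I c)
    {g : MvPolynomial σ k} (hg : g ∈ supported k (𝒥 : Set σ))
    (hgh : g.IsWeightedHomogeneous W.w (W.w x)) :
    ∃ I' c', I ≤ I' ∧ X x - g ∈ I' ∧ c' ≤ c ∧ W.Good ev 𝒥 I' c' := by
  obtain ⟨hp, hh, hgen, hle, hgk, κ, hcl, hκ⟩ := h
  rw [Finset.card_insert_of_notMem hx] at hle hgk
  rw [den_insert W.w hx] at hcl
  have hf : (X x - g).IsWeightedHomogeneous W.w (W.w x) :=
    (isWeightedHomogeneous_X k W.w x).sub hgh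
  by_cases hmem : X x - g ∈ I
  · have hgen' := hgen.erase hg hmem
    obtain ⟨κ', a, -⟩ := W.exists_cl ⊤ (fun _ _ => trivial) hh hgen' hgk
    have a2 := a.mul_den (W.w x)
    rcases c with _ | c
    · exact absurd (by rw [hcl.unique (a2.of_lt (by omega)), map_zero]) hκ
    · rw [show 𝒥.card - (𝒥.card + 1 - (c + 1)) = c by omega] at a a2
      refine ⟨I, c, le_rfl, hmem, by omega, hp, hh, hgen', by omega, ?_, κ', a, ?_⟩
      · rwa [show 𝒥.card + 1 - (c + 1) = 𝒥.card - c by omega] at hgk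
      · intro h0
        apply hκ
        rw [hcl.unique a2, map_neg, map_mul, h0, mul_zero, neg_zero]
  · have hcut := W.HQ_cut hh hf fun r hr => (hp.mem_or_mem hr).resolve_right hmem
    rw [Cl.move_iff, ← hcut] at hcl
    have hmem' : X x - g ∈ I ⊔ Ideal.span {X x - g} :=
      Ideal.mem_sup_right (Ideal.mem_span_singleton_self _)
    have hgen' := (hgen.mono (le_sup_left : I ≤ I ⊔ Ideal.span {X x - g})).erase hg hmem'
    by_cases hc : c ≤ 𝒥.card
    · rw [show 𝒥.card + 1 - c = 𝒥.card - c + 1 by omega] at hgk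
      have g2 := GK.drop (W.NN_HQ _) (W.NN_HQ _) hcut hgk
      obtain ⟨𝔮, a, b⟩ := W.compat_self.extract (ev := ev) (P := I ⊔ Ideal.span {X x - g}) (Q := ⊤)
        (W.hom_sup_span hh hf) Grading.Hom.top le_top hgen'
        (fun r hr y _ => Ideal.mul_mem_right _ _ hr) hc g2 hcl hκ
      exact ⟨𝔮, c, le_sup_left.trans a, a hmem', le_rfl, b⟩
    · rw [show 𝒥.card + 1 - c = 0 by omega] at hgk
      have := GK.drop_zero (W.NN_HQ _) (W.NN_HQ _) hcut hgk
      rw [this] at hcl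
      exact absurd (by rw [hcl.unique Cl.zero, map_zero]) hκ

/-- Elimination of several variables. -/
theorem Wt.Good.elim {W : Wt σ ι} {𝒥 : Finset σ} (g : σ → MvPolynomial σ k) (𝒳 : Finset σ)
    (hd : Disjoint 𝒳 𝒥) (hg : ∀ x ∈ 𝒳, g x ∈ supported k (𝒥 : Set σ))
    (hgh : ∀ x ∈ 𝒳, (g x).IsWeightedHomogeneous W.w (W.w x))
    {I : Ideal (MvPolynomial σ k)} {c : ℕ} (h : W.Good ev (𝒳 ∪ 𝒥) I c) :
    ∃ I' c', I ≤ I' ∧ (∀ x ∈ 𝒳, X x - g x ∈ I') ∧ c' ≤ c ∧ W.Good ev 𝒥 I' c' := by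
  induction 𝒳 using Finset.induction_on generalizing I c with
  | empty => exact ⟨I, c, le_rfl, by simp, le_rfl, by simpa using h⟩
  | insert x 𝒳 hx ih =>
    rw [Finset.insert_union] at h
    rw [Finset.disjoint_insert_left] at hd
    have hx' : x ∉ 𝒳 ∪ 𝒥 := by simp [hx, hd.1]
    obtain ⟨I1, c1, a1, a2, a3, a4⟩ := h.elim_one hx'
      (supported_mono (by simp) (hg x (Finset.mem_insert_self _ _)))
      (hgh x (Finset.mem_insert_self _ _))
    obtain ⟨I2, c2, b1, b2, b3, b4⟩ := ih hd.2 (fun y hy => hg y (Finset.mem_insert_of_mem hy))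
      (fun y hy => hgh y (Finset.mem_insert_of_mem hy)) a4
    refine ⟨I2, c2, a1.trans b1, fun y hy => ?_, b3.trans a3, b4⟩
    rcases Finset.mem_insert.1 hy with rfl | hy
    · exact b1 a2
    · exact b2 y hy

end Crest.Agent.R180
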