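import Mathlib

/-!
Row 180: abstract algebra used in the final ultraproduct assembly.
-/

set_option autoImplicit false
set_option linter.style.haveILetI false

namespace Crest.Agent.R180

open Cardinal

/-- A division ring which is algebraic and two-generated over a central subfield `F`, and not
finite-dimensional over `F`, has the same properties over its centre. -/
theorem center_of_field {F D : Type} [Field F] [DivisionRing D] [Algebra F D]
    [Algebra.IsAlgebraic F D] (x y : D) (hxy : Algebra.adjoin F ({x, y} : Set D) = ⊤)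
    (hfin : ¬ Module.Finite F D) :
    Algebra.IsAlgebraic (Subring.center D) D ∧
      Algebra.adjoin (Subring.center D) ({x, y} : Set D) = ⊤ ∧
      ¬ FiniteDimensional (Subring.center D) D := by
  let φ : F →+* Subring.center D :=
    (algebraMap F D).codRestrict (Subring.center D) (fun c => by
      rw [Subring.mem_center_iff]
      intro g
      exact (Algebra.commutes c g).symm)
  letI : Algebra F (Subring.center D) := φ.toAlgebra
  haveI : IsScalarTower F (Subring.center D) D := IsScalarTower.of_algebraMap_eq (fun _ => rfl)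
  refine ⟨Algebra.IsAlgebraic.tower_top (K := F) _, ?_, ?_⟩
  · rw [eq_top_iff]
    intro z _
    have hz : z ∈ Algebra.adjoin F ({x, y} : Set D) := hxy ▸ Algebra.mem_top
    have hle : Algebra.adjoin F ({x, y} : Set D) ≤
        (Algebra.adjoin (Subring.center D) ({x, y} : Set D)).restrictScalars F :=
      Algebra.adjoin_le Algebra.subset_adjoin
    exact hle hz
  · intro hZ
    apply hfin
    classical
    obtain ⟨n, b, hb⟩ := Module.Finite.exists_fin (R := Subring.center D) (M := D)
    have hex : ∀ z : D, ∃ c : Fin n → Subring.center D, ∑ i, c i • b i = z := fun z => by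
      have : z ∈ Submodule.span (Subring.center D) (Set.range b) := hb ▸ Submodule.mem_top
      exact (Submodule.mem_span_range_iff_exists_fun _).1 this
    choose c hc using hex
    let T : Set (Subring.center D) :=
      Set.range (c 1) ∪ (Set.range (fun p : Fin n × Fin n => c (x * b p.1) p.2) ∪
        Set.range (fun p : Fin n × Fin n => c (y * b p.1) p.2))
    have hT : T.Finite :=
      (Set.finite_range _).union ((Set.finite_range _).union (Set.finite_range _))
    have hint : ∀ t ∈ T, IsIntegral F t := fun t _ => by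
      have h1 : IsIntegral F (algebraMap (Subring.center D) D t) :=
        (Algebra.IsAlgebraic.isAlgebraic _).isIntegral
      exact (isIntegral_algebraMap_iff (A := Subring.center D) (B := D)
        Subtype.val_injective).1 h1
    let Z' : Subalgebra F (Subring.center D) := Algebra.adjoin F T
    haveI : Module.Finite F Z' := Algebra.finite_adjoin_of_finite_of_isIntegral hT hint
    let M : Submodule Z' D := Submodule.span Z' (Set.range b)
    have hmem : ∀ z : D, (∀ i, c z i ∈ Z') → z ∈ M := fun z hz => by
      rw [← hc z]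
      refine Submodule.sum_mem _ fun i _ => ?_
      exact M.smul_mem (⟨c z i, hz i⟩ : Z') (Submodule.subset_span ⟨i, rfl⟩)
    have hstab : ∀ a : D, (∀ j, a * b j ∈ M) → ∀ z ∈ M, a * z ∈ M := fun a ha z hz => by
      induction hz using Submodule.span_induction with
      | mem z hz => obtain ⟨j, rfl⟩ := hz; exact ha j
      | zero => simp
      | add u v _ _ hu hv => rw [mul_add]; exact M.add_mem hu hv
      | smul r u _ hu =>
        have : a * (r • u) = r • (a * u) := by
          change a * ((r : Subring.center D) • u) = (r : Subring.center D) • (a * u)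
          rw [mul_smul_comm]
        rw [this]; exact M.smul_mem r hu
    have hall : ∀ a ∈ Algebra.adjoin F ({x, y} : Set D), ∀ z ∈ M, a * z ∈ M := by
      intro a ha
      induction ha using Algebra.adjoin_induction with
      | mem a ha =>
        rcases ha with rfl | rfl
        · exact hstab _ fun j => hmem _ fun i =>
            Algebra.subset_adjoin (Or.inr (Or.inl ⟨(j, i), rfl⟩))
        · exact hstab _ fun j => hmem _ fun i =>
            Algebra.subset_adjoin (Or.inr (Or.inr ⟨(j, i), rfl⟩))
      | algebraMap r =>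
        intro z hz
        have : algebraMap F D r * z = (algebraMap F Z' r) • z := by
          rw [algebraMap_smul, Algebra.smul_def]
        rw [this]; exact M.smul_mem _ hz
      | add u v _ _ hu hv => intro z hz; rw [add_mul]; exact M.add_mem (hu z hz) (hv z hz)
      | mul u v _ _ hu hv => intro z hz; rw [mul_assoc]; exact hu _ (hv z hz)
    have h1 : (1 : D) ∈ M := hmem _ fun i => Algebra.subset_adjoin (Or.inl ⟨i, rfl⟩)
    have htop : M = ⊤ := by
      rw [eq_top_iff]
      intro z _
      simpa using hall z (hxy ▸ Algebra.mem_top) 1 h1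
    haveI : Module.Finite Z' D := ⟨htop ▸ Submodule.fg_span (Set.finite_range b)⟩
    exact Module.Finite.trans Z' D

/-- Abstract form of the assembly. -/
theorem abstract_assembly {L E : Type} [Field L] [CharZero L] [Ring E] [Nontrivial E]
    [Algebra L E] (C : Subring L) (hC : (C : Set L).Countable) (R : Subring E) (x y : E)
    (hx : x ∈ R) (hy : y ∈ R) (hCR : ∀ c ∈ C, algebraMap L E c ∈ R)
    (hunit : ∀ r ∈ R, r ≠ 0 → IsUnit r) (hint : ∀ r ∈ R, IsIntegral C r)
    (hbig : ∀ (n : ℕ) (w : Fin n → E), (1 : E) ∈ Submodule.span L (Set.range w) →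
      (∀ j, x * w j ∈ Submodule.span L (Set.range w)) →
      (∀ j, y * w j ∈ Submodule.span L (Set.range w)) → False) :
    ∃ (D : Type) (_ : DivisionRing D), Countable D ∧ CharZero D ∧
      Algebra.IsAlgebraic (Subring.center D) D ∧
      (∃ x y : D, Algebra.adjoin (Subring.center D) ({x, y} : Set D) = ⊤) ∧
      ¬ FiniteDimensional (Subring.center D) D := by
  classical
  let F : Subfield L := Subfield.closure (C : Set L)
  have hF : ∀ f ∈ F, ∃ a ∈ C, ∃ b ∈ C, b ≠ 0 ∧ b * f = a := by
    intro f hf
    obtain ⟨a, ha, b, hb, rfl⟩ := Subfield.mem_closure_iff.1 hf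
    rw [Subring.closure_eq] at ha hb
    by_cases h0 : b = 0
    · exact ⟨0, C.zero_mem, 1, C.one_mem, one_ne_zero, by simp [h0]⟩
    · exact ⟨a, ha, b, hb, h0, by field_simp⟩
  let D : Subalgebra F E := Algebra.adjoin F ({x, y} : Set E)
  have hD : ∀ z ∈ D, ∃ c ∈ C, c ≠ 0 ∧ c • z ∈ R := by
    intro z hz
    induction hz using Algebra.adjoin_induction with
    | mem a ha =>
      refine ⟨1, C.one_mem, one_ne_zero, ?_⟩
      rcases ha with rfl | rfl <;> simpa
    | algebraMap r =>
      obtain ⟨a, ha, b, hb, hb0, hab⟩ := hF r r.2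
      refine ⟨b, hb, hb0, ?_⟩
      have : b • algebraMap F E r = algebraMap L E a := by
        rw [← hab, map_mul, Algebra.smul_def]; rfl
      rw [this]; exact hCR a ha
    | add u v _ _ hu hv =>
      obtain ⟨a, ha, ha0, hau⟩ := hu
      obtain ⟨b, hb, hb0, hbv⟩ := hv
      refine ⟨a * b, C.mul_mem ha hb, mul_ne_zero ha0 hb0, ?_⟩
      have : (a * b) • (u + v) = algebraMap L E b * (a • u) + algebraMap L E a * (b • v) := by
        rw [← Algebra.smul_def, ← Algebra.smul_def, smul_smul, smul_smul, smul_add, mul_comm b a]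
      rw [this]
      exact R.add_mem (R.mul_mem (hCR b hb) hau) (R.mul_mem (hCR a ha) hbv)
    | mul u v _ _ hu hv =>
      obtain ⟨a, ha, ha0, hau⟩ := hu
      obtain ⟨b, hb, hb0, hbv⟩ := hv
      refine ⟨a * b, C.mul_mem ha hb, mul_ne_zero ha0 hb0, ?_⟩
      have : (a * b) • (u * v) = (a • u) * (b • v) := by
        rw [smul_mul_smul_comm]
      rw [this]
      exact R.mul_mem hau hbv
  have hDunit : ∀ z ∈ D, z ≠ 0 → IsUnit z := by
    intro z hz hz0
    obtain ⟨c, hc, hc0, hcz⟩ := hD z hz
    have h1 : IsUnit (c • z) := hunit _ hcz (by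
      intro h
      apply hz0
      have := congrArg (fun t => c⁻¹ • t) h
      simpa [smul_smul, hc0] using this)
    have h2 : z = algebraMap L E c⁻¹ * (c • z) := by
      rw [← Algebra.smul_def, smul_smul, inv_mul_cancel₀ hc0, one_smul]
    rw [h2]
    exact ((IsUnit.mk0 _ (inv_ne_zero hc0)).map (algebraMap L E)).mul h1
  have hCF : C ≤ F.toSubring := Subfield.subset_closure
  have hDint : ∀ z ∈ D, IsIntegral F z := by
    intro z hz
    obtain ⟨c, hc, hc0, hcz⟩ := hD z hz
    have h1 : IsIntegral F (c • z) := by
      obtain ⟨p, hp, hpz⟩ := hint _ hcz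
      refine ⟨p.map (Subring.inclusion hCF), hp.map _, ?_⟩
      rw [Polynomial.eval₂_map]
      exact hpz
    have h2 : z = (⟨c, hCF hc⟩ : F)⁻¹ • (c • z) := by
      change z = c⁻¹ • (c • z)
      rw [smul_smul, inv_mul_cancel₀ hc0, one_smul]
    rw [h2]
    exact h1.smul _
  haveI : NoZeroDivisors D := ⟨fun {a b} hab => by
    by_cases ha : a = 0
    · exact Or.inl ha
    · right
      have hu := hDunit a a.2 (fun h => ha (Subtype.ext h))
      have h0 : (a : E) * b = 0 := by simpa using congrArg Subtype.val hab
      exact Subtype.ext ((hu.mul_right_eq_zero).1 h0)⟩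
  haveI : IsDomain D := NoZeroDivisors.to_isDomain D
  have hDint' : ∀ z : D, IsIntegral F z := fun z =>
    (isIntegral_algHom_iff D.val Subtype.val_injective).1 (hDint z z.2)
  letI : DivisionRing D := DivisionRing.ofIsUnitOrEqZero (fun z => by
    by_cases h : z = 0
    · exact Or.inr h
    · exact Or.inl ((hDint' z).isUnit h))
  haveI : Algebra.IsAlgebraic F D := ⟨fun z => (hDint' z).isAlgebraic⟩
  have hxD : x ∈ D := Algebra.subset_adjoin (Or.inl rfl)
  have hyD : y ∈ D := Algebra.subset_adjoin (Or.inr rfl)
  have hgen : Algebra.adjoin F ({⟨x, hxD⟩, ⟨y, hyD⟩} : Set D) = ⊤ := by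
    have := Algebra.adjoin_adjoin_coe_preimage (R := F) (s := ({x, y} : Set E))
    convert this using 2
    ext ⟨z, hz⟩
    simp
  have hnf : ¬ Module.Finite F D := by
    intro hfin
    obtain ⟨n, b, hb⟩ := Module.Finite.exists_fin (R := F) (M := D)
    have hall : ∀ z : D, (z : E) ∈ Submodule.span L (Set.range fun j => (b j : E)) := by
      intro z
      have hz : z ∈ Submodule.span F (Set.range b) := hb ▸ Submodule.mem_top
      obtain ⟨c, rfl⟩ := (Submodule.mem_span_range_iff_exists_fun _).1 hz
      rw [AddSubmonoidClass.coe_finsetSum]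
      refine Submodule.sum_mem _ fun i _ => ?_
      exact Submodule.smul_mem _ (c i : L) (Submodule.subset_span ⟨i, rfl⟩)
    exact hbig n (fun j => (b j : E)) (hall 1) (fun j => hall (⟨x, hxD⟩ * b j))
      (fun j => hall (⟨y, hyD⟩ * b j))
  obtain ⟨h1, h2, h3⟩ := center_of_field (F := F) (D := D) _ _ hgen hnf
  refine ⟨D, inferInstance, ?_, ?_, h1, ⟨_, _, h2⟩, h3⟩
  · have hFc : #F ≤ ℵ₀ :=
      (Subfield.cardinalMk_closure_le_max (C : Set L)).trans
        (max_le (Cardinal.le_aleph0_iff_set_countable.2 hC) le_rfl)
    have hs : #(({x, y} : Set E)) ≤ ℵ₀ :=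
      Cardinal.le_aleph0_iff_set_countable.2 (Set.toFinite _).countable
    exact Cardinal.mk_le_aleph0_iff.1
      ((Algebra.cardinalMk_adjoin_le F ({x, y} : Set E)).trans
        (sup_le (sup_le hFc hs) le_rfl))
  · exact charZero_of_injective_algebraMap (algebraMap F D).injective

end Crest.Agent.R180
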