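import Crest.Agent.R180.Defs
import Crest.Agent.R180.FinalAbs

set_option autoImplicit false
set_option linter.style.haveILetI false

namespace Crest.Agent.R180

open Filter

/-- Almost-everywhere equality as a ring congruence on a product. -/
def ucon (U : Filter ℕ) (R : ℕ → Type) [∀ N, Add (R N)] [∀ N, Mul (R N)] :
    RingCon (∀ N, R N) where
  r a b := ∀ᶠ N in U, a N = b N
  iseqv := ⟨fun _ => Eventually.of_forall fun _ => rfl, fun h => h.mono fun _ => Eq.symm,
    fun h1 h2 => (h1.and h2).mono fun _ h => h.1.trans h.2⟩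
  mul' h1 h2 := (h1.and h2).mono fun N h => by simp only [Pi.mul_apply, h.1, h.2]
  add' h1 h2 := (h1.and h2).mono fun N h => by simp only [Pi.add_apply, h.1, h.2]

theorem ucon_eq {U : Filter ℕ} {R : ℕ → Type} [∀ N, Ring (R N)] (a b : ∀ N, R N) :
    (ucon U R).mk' a = (ucon U R).mk' b ↔ ∀ᶠ N in U, a N = b N :=
  (ucon U R).eq

theorem ucon_eq_zero {U : Filter ℕ} {R : ℕ → Type} [∀ N, Ring (R N)] (a : ∀ N, R N) :
    (ucon U R).mk' a = 0 ↔ ∀ᶠ N in U, a N = 0 := by
  rw [← map_zero (ucon U R).mk', ucon_eq]; rfl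

theorem ucon_ne_zero {U : Ultrafilter ℕ} {R : ℕ → Type} [∀ N, Ring (R N)] (a : ∀ N, R N) :
    (ucon U R).mk' a ≠ 0 ↔ ∀ᶠ N in U, a N ≠ 0 := by
  rw [Ne, ucon_eq_zero, Ultrafilter.eventually_not]

theorem ucon_nontrivial (U : Ultrafilter ℕ) (R : ℕ → Type) [∀ N, Ring (R N)]
    [∀ N, Nontrivial (R N)] : Nontrivial (ucon U R).Quotient := by
  refine ⟨⟨1, 0, ?_⟩⟩
  rw [← map_one (ucon U R).mk', ucon_ne_zero]
  exact Eventually.of_forall fun N => one_ne_zero

theorem ucon_isUnit {U : Filter ℕ} {R : ℕ → Type} [∀ N, Ring (R N)] (a : ∀ N, R N)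
    (h : ∀ᶠ N in U, IsUnit (a N)) : IsUnit ((ucon U R).mk' a) := by
  refine ⟨⟨(ucon U R).mk' a, (ucon U R).mk' (fun N => Ring.inverse (a N)), ?_, ?_⟩, rfl⟩
  · rw [← map_mul, ← map_one (ucon U R).mk', ucon_eq]
    exact h.mono fun N hN => Ring.mul_inverse_cancel _ hN
  · rw [← map_mul, ← map_one (ucon U R).mk', ucon_eq]
    exact h.mono fun N hN => Ring.inverse_mul_cancel _ hN

theorem ucon_isField (U : Ultrafilter ℕ) (K : ℕ → Type) [∀ N, Field (K N)] :
    IsField (ucon U K).Quotient := by
  haveI := ucon_nontrivial U K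
  refine ⟨exists_pair_ne _, mul_comm, fun {a} ha => ?_⟩
  obtain ⟨a, rfl⟩ := (ucon U K).mk'_surjective a
  have := ucon_isUnit a (((ucon_ne_zero a).1 ha).mono fun N hN => IsUnit.mk0 _ hN)
  exact this.exists_right_inv

/-- Expressions are countable. -/
def Expr.code : Expr → ℕ
  | .u => Nat.pair 0 0
  | .v => Nat.pair 1 0
  | .const q => Nat.pair 2 (Encodable.encode q)
  | .add a b => Nat.pair 3 (Nat.pair a.code b.code)
  | .mul a b => Nat.pair 4 (Nat.pair a.code b.code)
  | .tr a => Nat.pair 5 a.code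

theorem Expr.code_injective : Function.Injective Expr.code := by
  intro a
  induction a with
  | u => intro b h; cases b <;> simp_all [Expr.code]
  | v => intro b h; cases b <;> simp_all [Expr.code]
  | const q => intro b h; cases b <;> simp_all [Expr.code]
  | add a b iha ihb =>
    intro c h
    cases c <;> simp only [Expr.code, Nat.pair_eq_pair] at h <;> try omega
    rw [iha h.2.1, ihb h.2.2]
  | mul a b iha ihb =>
    intro c h
    cases c <;> simp only [Expr.code, Nat.pair_eq_pair] at h <;> try omega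
    rw [iha h.2.1, ihb h.2.2]
  | tr a iha =>
    intro c h
    cases c <;> simp only [Expr.code, Nat.pair_eq_pair] at h <;> try omega
    rw [iha h.2]

instance : Countable Expr := Expr.code_injective.countable

/-- Powers of an expression. -/
def Expr.npow (e : Expr) : ℕ → Expr
  | 0 => .const 1
  | j + 1 => .mul (e.npow j) e

theorem Expr.eval_npow {K B : Type*} [CommRing K] [Algebra ℚ K] [Ring B] [Algebra K B]
    (τ : B →ₗ[K] K) (x y : B) (e : Expr) (j : ℕ) :
    (e.npow j).eval τ x y = e.eval τ x y ^ j := by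
  induction j with
  | zero => simp [Expr.npow, Expr.eval]
  | succ j ih => simp [Expr.npow, Expr.eval, ih, pow_succ]

section seqs

variable {K B : ℕ → Type} [∀ N, Field (K N)] [∀ N, CharZero (K N)] [∀ N, Ring (B N)]
  [∀ N, Algebra (K N) (B N)] (τ : ∀ N, B N →ₗ[K N] K N) (x y : ∀ N, B N)

/-- Sequences of values of expressions. -/
def valRing : Subring (∀ N, B N) where
  carrier := {b | ∃ e : Expr, ∀ N, e.eval (τ N) (x N) (y N) = b N}
  mul_mem' := by
    rintro a b ⟨e, he⟩ ⟨e', he'⟩
    exact ⟨.mul e e', fun N => by simp [Expr.eval, he, he']⟩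
  one_mem' := ⟨.const 1, fun N => by simp [Expr.eval]⟩
  add_mem' := by
    rintro a b ⟨e, he⟩ ⟨e', he'⟩
    exact ⟨.add e e', fun N => by simp [Expr.eval, he, he']⟩
  zero_mem' := ⟨.const 0, fun N => by simp [Expr.eval]⟩
  neg_mem' := by
    rintro a ⟨e, he⟩
    exact ⟨.mul (.const (-1)) e, fun N => by simp [Expr.eval, he]⟩

/-- The componentwise structure map. -/
def piAlg (K B : ℕ → Type) [∀ N, Field (K N)] [∀ N, Ring (B N)] [∀ N, Algebra (K N) (B N)] :
    (∀ N, K N) →+* (∀ N, B N) :=
  RingHom.pi fun N => (algebraMap (K N) (B N)).comp (Pi.evalRingHom K N)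

@[simp] theorem piAlg_apply {K B : ℕ → Type} [∀ N, Field (K N)] [∀ N, Ring (B N)]
    [∀ N, Algebra (K N) (B N)] (c : ∀ N, K N) (N : ℕ) :
    piAlg K B c N = algebraMap (K N) (B N) (c N) := rfl

/-- Scalar sequences which are values of expressions. -/
def scalRing : Subring (∀ N, K N) := (valRing τ x y).comap (piAlg K B)

theorem scalRing_countable [∀ N, Nontrivial (B N)] :
    (scalRing τ x y : Set (∀ N, K N)).Countable := by
  have h1 : (valRing τ x y : Set (∀ N, B N)).Countable := by
    refine (Set.countable_range (fun e : Expr => fun N => e.eval (τ N) (x N) (y N))).mono ?_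
    rintro b ⟨e, he⟩
    exact ⟨e, funext he⟩
  refine h1.preimage_of_injOn (f := piAlg K B) ?_
  intro a _ b _ hab
  funext N
  exact (algebraMap (K N) (B N)).injective (congrFun hab N)

theorem const_mem_scalRing (q : ℚ) : (fun N => algebraMap ℚ (K N) q) ∈ scalRing τ x y :=
  ⟨.const q, fun _ => rfl⟩

theorem newtonE_mem (p : ∀ N, ℕ → K N) (hp : ∀ j, (fun N => p N j) ∈ scalRing τ x y) (k : ℕ) :
    (fun N => newtonE (p N) k) ∈ scalRing τ x y := by
  induction k using Nat.strong_induction_on with
  | _ k ih =>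
    cases k with
    | zero =>
      have : (fun N => newtonE (p N) 0) = 1 := by funext N; simp [newtonE]
      rw [this]; exact Subring.one_mem _
    | succ k =>
      have : (fun N => newtonE (p N) (k + 1)) =
          (fun N => algebraMap ℚ (K N) ((k + 1 : ℚ)⁻¹)) * ((-1) ^ k *
            ∑ a : Fin (k + 1), (-1) ^ (a : ℕ) * (fun N => newtonE (p N) a) *
              (fun N => p N (k + 1 - a))) := by
        funext N
        rw [newtonE, Algebra.smul_def]
        simp [Finset.sum_apply]
      rw [this]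
      have hm : (-1 : ∀ N, K N) ∈ scalRing τ x y := Subring.neg_mem _ (Subring.one_mem _)
      refine Subring.mul_mem _ (const_mem_scalRing τ x y _) (Subring.mul_mem _
        (Subring.pow_mem _ hm _) (Subring.sum_mem _ fun a _ => ?_))
      exact Subring.mul_mem _ (Subring.mul_mem _ (Subring.pow_mem _ hm _) (ih a a.2)) (hp _)

theorem relCoeff_mem (e : Expr) (m i : ℕ) :
    (fun N => (-1 : K N) ^ i *
      newtonE (fun j => (m : K N) * τ N (e.eval (τ N) (x N) (y N) ^ j)) i) ∈ scalRing τ x y := by
  have hm : (-1 : ∀ N, K N) ∈ scalRing τ x y := Subring.neg_mem _ (Subring.one_mem _)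
  have h1 := newtonE_mem τ x y (fun N j => (m : K N) * τ N (e.eval (τ N) (x N) (y N) ^ j))
    (fun j => by
      have h2 : (fun N => τ N (e.eval (τ N) (x N) (y N) ^ j)) ∈ scalRing τ x y :=
        ⟨.tr (e.npow j), fun N => by simp [Expr.eval, Expr.eval_npow]⟩
      exact Subring.mul_mem _ (natCast_mem (scalRing τ x y) m) h2) i
  exact Subring.mul_mem _ (Subring.pow_mem _ hm i) h1

theorem final_of_seqs [∀ N, Nontrivial (B N)]
    (hunit : ∀ N (e : Expr), e.eval (τ N) (x N) (y N) ≠ 0 → IsUnit (e.eval (τ N) (x N) (y N)))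
    (hrel : ∀ e : Expr, ∃ m : ℕ, ∀ᶠ N in atTop, rel m (τ N) (e.eval (τ N) (x N) (y N)) = 0)
    (hbig : ∀ N, ∀ M : Submodule (K N) (B N), Module.Finite (K N) M → (1 : B N) ∈ M →
      (∀ z ∈ M, x N * z ∈ M) → (∀ z ∈ M, y N * z ∈ M) → N < Module.finrank (K N) M) :
    ∃ (D : Type) (_ : DivisionRing D), Countable D ∧ CharZero D ∧
      Algebra.IsAlgebraic (Subring.center D) D ∧
      (∃ x y : D, Algebra.adjoin (Subring.center D) ({x, y} : Set D) = ⊤) ∧
      ¬ FiniteDimensional (Subring.center D) D := by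
  classical
  let U : Ultrafilter ℕ := hyperfilter ℕ
  have hU : (U : Filter ℕ) ≤ atTop := Nat.hyperfilter_le_atTop
  let L : Type := (ucon U K).Quotient
  let E : Type := (ucon U B).Quotient
  letI : Field L := (ucon_isField U K).toField
  haveI : Nontrivial E := ucon_nontrivial U B
  let mK : (∀ N, K N) →+* L := (ucon U K).mk'
  let mB : (∀ N, B N) →+* E := (ucon U B).mk'
  let φ : L →+* E := (ucon U K).lift (mB.comp (piAlg K B)) (fun {a b} hab => by
    rw [RingCon.ker_apply]
    refine (ucon_eq _ _).2 (Eventually.mono hab fun N hN => ?_)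
    simp only [piAlg_apply]
    rw [hN])
  have hφ : ∀ c, φ (mK c) = mB (piAlg K B c) := fun c => rfl
  letI : Algebra L E := φ.toAlgebra' (fun c z => by
    obtain ⟨c, rfl⟩ := (ucon U K).mk'_surjective c
    obtain ⟨z, rfl⟩ := (ucon U B).mk'_surjective z
    change mB (piAlg K B c) * mB z = mB z * mB (piAlg K B c)
    rw [← map_mul, ← map_mul]
    congr 1
    funext N
    exact Algebra.commutes (c N) (z N))
  have halg : ∀ c, algebraMap L E (mK c) = mB (piAlg K B c) := fun c => rfl
  have hsmul : ∀ c z, mK c • mB z = mB (fun N => c N • z N) := fun c z => by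
    rw [Algebra.smul_def, halg, ← map_mul]
    congr 1
    funext N
    simp [Algebra.smul_def]
  haveI : CharZero L := ⟨fun a b hab => by
    have h1 : mK (a : ∀ N, K N) = mK (b : ∀ N, K N) := by simpa using hab
    obtain ⟨N, hN⟩ := ((ucon_eq _ _).1 h1).exists
    simpa using hN⟩
  refine abstract_assembly (L := L) (E := E) ((scalRing τ x y).map mK)
    ((scalRing_countable τ x y).image _) ((valRing τ x y).map mB) (mB x) (mB y)
    ⟨x, ⟨.u, fun _ => rfl⟩, rfl⟩ ⟨y, ⟨.v, fun _ => rfl⟩, rfl⟩ ?_ ?_ ?_ ?_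
  · rintro _ ⟨c, hc, rfl⟩
    exact ⟨piAlg K B c, hc, (halg c).symm⟩
  · rintro _ ⟨b, ⟨e, he⟩, rfl⟩ h0
    refine ucon_isUnit b (((ucon_ne_zero b).1 h0).mono fun N hN => ?_)
    rw [← he N] at hN ⊢
    exact hunit N e hN
  · rintro _ ⟨b, ⟨e, he⟩, rfl⟩
    obtain ⟨m, hm⟩ := hrel e
    let c : ℕ → (scalRing τ x y).map mK := fun i =>
      ⟨mK _, ⟨_, relCoeff_mem τ x y e m i, rfl⟩⟩
    have hc0 : c 0 = 1 := by
      apply Subtype.ext
      change mK _ = 1
      rw [← map_one mK]
      congr 1
      funext N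
      simp [newtonE]
    refine ⟨∑ i ∈ Finset.range (m + 1), Polynomial.monomial (m - i) (c i), ?_, ?_⟩
    · rw [Finset.sum_range_succ', hc0, add_comm]
      simp only [Nat.sub_zero, Polynomial.monomial_one_right_eq_X_pow]
      refine Polynomial.monic_X_pow_add ?_
      refine (Polynomial.degree_sum_le _ _).trans_lt ?_
      rw [Finset.sup_lt_iff (by exact WithBot.bot_lt_coe _)]
      intro i hi
      refine (Polynomial.degree_monomial_le _ _).trans_lt ?_
      have := Finset.mem_range.1 hi
      exact_mod_cast (by omega : m - (i + 1) < m)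
    · rw [Polynomial.eval₂_finsetSum]
      have : ∀ i, Polynomial.eval₂ (algebraMap ((scalRing τ x y).map mK) E) (mB b)
          (Polynomial.monomial (m - i) (c i)) = mB (fun N => ((-1 : K N) ^ i *
            newtonE (fun j => (m : K N) * τ N (e.eval (τ N) (x N) (y N) ^ j)) i) •
              (e.eval (τ N) (x N) (y N)) ^ (m - i)) := fun i => by
        rw [Polynomial.eval₂_monomial]
        have hb : b = fun N => e.eval (τ N) (x N) (y N) := (funext he).symm
        have h3 : (fun N => (e.eval (τ N) (x N) (y N)) ^ (m - i)) = b ^ (m - i) := by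
          rw [hb]; rfl
        rw [← hsmul, h3, map_pow, Algebra.smul_def]
        rfl
      simp only [this]
      rw [← map_sum]
      refine (ucon_eq_zero _).2 ((hm.filter_mono hU).mono fun N hN => ?_)
      rw [Finset.sum_apply]
      exact hN
  · intro n w h1 hx hy
    choose ω hω using fun j => (ucon U B).mk'_surjective (w j)
    have key : ∀ z : ∀ N, B N, mB z ∈ Submodule.span L (Set.range w) →
        ∀ᶠ N in U, z N ∈ Submodule.span (K N) (Set.range fun j => ω j N) := by
      intro z hz
      obtain ⟨c, hc⟩ := (Submodule.mem_span_range_iff_exists_fun _).1 hz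
      choose γ hγ using fun j => (ucon U K).mk'_surjective (c j)
      have h2 : mB (∑ j, fun N => γ j N • ω j N) = mB z := by
        rw [map_sum, ← hc]
        refine Finset.sum_congr rfl fun j _ => ?_
        rw [← hsmul, ← hγ j, ← hω j]
      refine ((ucon_eq _ _).1 h2).mono fun N hN => ?_
      rw [← hN, Finset.sum_apply]
      exact Submodule.sum_mem _ fun j _ =>
        Submodule.smul_mem _ _ (Submodule.subset_span ⟨j, rfl⟩)
    have e1 := key 1 (by rw [map_one]; exact h1)
    have ex : ∀ᶠ N in U, ∀ j,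
        x N * ω j N ∈ Submodule.span (K N) (Set.range fun j => ω j N) :=
      eventually_all.2 fun j => key (x * ω j) (by
        rw [map_mul]; have := hx j; rw [← hω j] at this; exact this)
    have ey : ∀ᶠ N in U, ∀ j,
        y N * ω j N ∈ Submodule.span (K N) (Set.range fun j => ω j N) :=
      eventually_all.2 fun j => key (y * ω j) (by
        rw [map_mul]; have := hy j; rw [← hω j] at this; exact this)
    have en : ∀ᶠ N in U, n ≤ N := (eventually_ge_atTop n).filter_mono hU
    obtain ⟨N, hN1, hNx, hNy, hNn⟩ := (e1.and (ex.and (ey.and en))).exists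
    have hstab : ∀ a : B N,
        (∀ j, a * ω j N ∈ Submodule.span (K N) (Set.range fun j => ω j N)) →
        ∀ z ∈ Submodule.span (K N) (Set.range fun j => ω j N),
          a * z ∈ Submodule.span (K N) (Set.range fun j => ω j N) := fun a ha z hz => by
      induction hz using Submodule.span_induction with
      | mem z hz => obtain ⟨j, rfl⟩ := hz; exact ha j
      | zero => simp
      | add u v _ _ hu hv => rw [mul_add]; exact Submodule.add_mem _ hu hv
      | smul r u _ hu => rw [mul_smul_comm]; exact Submodule.smul_mem _ r hu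
    have h5 := hbig N (Submodule.span (K N) (Set.range fun j => ω j N))
      (Module.Finite.span_of_finite _ (Set.finite_range _)) hN1 (hstab _ hNx) (hstab _ hNy)
    have h6 := finrank_range_le_card (R := K N) (fun j => ω j N)
    simp only [Set.finrank, Fintype.card_fin] at h6
    omega

end seqs

theorem final_of_stages (h : ∀ (enum : ℕ → Expr) (N : ℕ), Nonempty (Stage enum N)) :
    ∃ (D : Type) (_ : DivisionRing D), Countable D ∧ CharZero D ∧
      Algebra.IsAlgebraic (Subring.center D) D ∧
      (∃ x y : D, Algebra.adjoin (Subring.center D) ({x, y} : Set D) = ⊤) ∧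
      ¬ FiniteDimensional (Subring.center D) D := by
  haveI : Nonempty Expr := ⟨.u⟩
  obtain ⟨enum, henum⟩ := exists_surjective_nat Expr
  let S : ∀ N, Stage enum N := fun N => (h enum N).some
  letI : ∀ N, Field (S N).K := fun N => (S N).fieldK
  letI : ∀ N, CharZero (S N).K := fun N => (S N).charZeroK
  letI : ∀ N, Ring (S N).B := fun N => (S N).ringB
  letI : ∀ N, Algebra (S N).K (S N).B := fun N => (S N).algB
  letI : ∀ N, Nontrivial (S N).B := fun N => (S N).nontrivB
  refine final_of_seqs (K := fun N => (S N).K) (B := fun N => (S N).B) (fun N => (S N).τ)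
    (fun N => (S N).x) (fun N => (S N).y) (fun N => (S N).unit) (fun e => ?_)
    (fun N => (S N).big)
  obtain ⟨i, rfl⟩ := henum e
  exact ⟨2 ^ (i + 2), (eventually_gt_atTop i).mono fun N hN => (S N).rel_eq i hN⟩

end Crest.Agent.R180
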