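import Crest.Agent.R180.Poly

set_option autoImplicit false
set_option linter.unusedSectionVars false

namespace Crest.Agent.R180

open Module MvPolynomial

variable {ι : Type} [Fintype ι] [DecidableEq ι] {σ : Type} [Fintype σ] [DecidableEq σ]
variable {k : Type} [Field k]

lemma exists_monomialOrder (σ : Type) [Fintype σ] : Nonempty (MonomialOrder.{0, 0} σ) := by
  classical
  let _ : LinearOrder σ := LinearOrder.lift' (Fintype.equivFin σ) (Fintype.equivFin σ).injective
  exact ⟨MonomialOrder.degLex⟩

lemma support_subset_of_supported {F : MvPolynomial σ k} {τ : Finset σ}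
    (hF : F ∈ supported k (τ : Set σ)) {c : σ →₀ ℕ} (hc : c ∈ F.support) : c.support ⊆ τ := by
  intro j hj
  have := mem_supported.1 hF (Finset.mem_coe.2 ((mem_vars_iff_mem_support j).2 ⟨c, hc, hj⟩))
  exact Finset.mem_coe.1 this

/-- Reduction to standard monomials. -/
lemma monomial_mem_sup_span (m : MonomialOrder.{0, 0} σ) {𝒥 : Finset σ}
    {I : Ideal (MvPolynomial σ k)} (Std : Set (σ →₀ ℕ))
    (hS : ∀ d : σ →₀ ℕ, d.support ⊆ 𝒥 → d ∉ Std →
      ∃ F ∈ I, F ≠ 0 ∧ F ∈ supported k (𝒥 : Set σ) ∧ m.degree F ≤ d) (d : σ →₀ ℕ) :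
    d.support ⊆ 𝒥 → monomial d (1 : k) ∈
      I.restrictScalars k ⊔ Submodule.span k ((fun d => monomial d (1 : k)) '' Std) := by
  have wf : WellFounded fun a b : σ →₀ ℕ => m.toSyn a < m.toSyn b :=
    InvImage.wf m.toSyn wellFounded_lt
  induction d using wf.induction with
  | _ d ih =>
  intro hd
  by_cases hs : d ∈ Std
  · exact Submodule.mem_sup_right (Submodule.subset_span ⟨d, hs, rfl⟩)
  obtain ⟨F, hFI, hF0, hFs, hle⟩ := hS d hd hs
  obtain ⟨d', rfl⟩ := exists_add_of_le hle
  set T := I.restrictScalars k ⊔ Submodule.span k ((fun d => monomial d (1 : k)) '' Std)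
  have hd' : d'.support ⊆ 𝒥 := by
    intro j hj
    apply hd
    simp only [Finsupp.mem_support_iff, Finsupp.coe_add, Pi.add_apply] at hj ⊢
    omega
  have h1 : F * monomial d' (1 : k) ∈ T :=
    Submodule.mem_sup_left (I.mul_mem_right _ hFI)
  have h2 : F * monomial d' (1 : k) =
      ∑ c ∈ F.support, coeff c F • monomial (c + d') (1 : k) := by
    conv_lhs => rw [F.as_sum]
    rw [Finset.sum_mul]
    refine Finset.sum_congr rfl fun c _ => ?_
    rw [monomial_mul, smul_monomial, smul_eq_mul]
  have hmem : m.degree F ∈ F.support := m.degree_mem_support hF0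
  rw [h2, ← Finset.add_sum_erase _ _ hmem] at h1
  have h3 : ∑ c ∈ F.support.erase (m.degree F), coeff c F • monomial (c + d') (1 : k) ∈ T := by
    refine T.sum_mem fun c hc => T.smul_mem _ (ih _ ?_ ?_)
    · obtain ⟨hne, hc⟩ := Finset.mem_erase.1 hc
      have hlt : m.toSyn c < m.toSyn (m.degree F) :=
        lt_of_le_of_ne (m.le_degree hc) fun e => hne (m.toSyn.injective e)
      simp only [map_add]
      exact add_lt_add_left hlt _
    · refine Finsupp.support_add.trans (Finset.union_subset ?_ hd')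
      exact support_subset_of_supported hFs (Finset.mem_erase.1 hc).2
  have h4 := (T.add_mem_iff_left h3).1 h1
  exact (T.smul_mem_iff (mem_support_iff.1 hmem)).1 h4

/-- Exponent vectors in the box of side `n` with at most `e` coordinates `≥ D`. -/
noncomputable def boxSet (σ : Type) [Fintype σ] [DecidableEq σ] (e D n : ℕ) : Finset (σ →₀ ℕ) :=
  ((Finset.univ.powerset.filter fun T : Finset σ => T.card ≤ e).biUnion fun T =>
    Fintype.piFinset fun j => if j ∈ T then Finset.range (n + 1) else Finset.range D).image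
    Finsupp.equivFunOnFinite.symm

lemma mem_boxSet {e D n : ℕ} {d : σ →₀ ℕ} (h1 : ∀ j, d j ≤ n)
    (h2 : (Finset.univ.filter fun j => D ≤ d j).card ≤ e) : d ∈ boxSet σ e D n := by
  refine Finset.mem_image.2 ⟨d, ?_, by simp⟩
  refine Finset.mem_biUnion.2 ⟨Finset.univ.filter fun j => D ≤ d j, by simpa using h2, ?_⟩
  rw [Fintype.mem_piFinset]
  intro j
  have := h1 j
  split_ifs with h
  · simp only [Finset.mem_range]; omega
  · simp only [Finset.mem_filter, Finset.mem_univ, true_and, not_le] at h
    simpa using h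

lemma card_boxSet (e D n : ℕ) :
    (boxSet σ e D n).card ≤
      2 ^ Fintype.card σ * (D + 1) ^ Fintype.card σ * (n + 1) ^ e := by
  refine Finset.card_image_le.trans (Finset.card_biUnion_le.trans ?_)
  have : ∀ T ∈ (Finset.univ.powerset.filter fun T : Finset σ => T.card ≤ e),
      (Fintype.piFinset fun j => if j ∈ T then Finset.range (n + 1) else Finset.range D).card ≤
        (D + 1) ^ Fintype.card σ * (n + 1) ^ e := by
    intro T hT
    have hT := (Finset.mem_filter.1 hT).2
    rw [Fintype.card_piFinset]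
    calc ∏ j, (if j ∈ T then Finset.range (n + 1) else Finset.range D).card
        ≤ ∏ j : σ, ((D + 1) * if j ∈ T then n + 1 else 1) := by
          refine Finset.prod_le_prod' fun j _ => ?_
          split_ifs
          · simp only [Finset.card_range]; nlinarith
          · simp
      _ = (D + 1) ^ Fintype.card σ * (n + 1) ^ T.card := by
          rw [Finset.prod_mul_distrib, Finset.prod_const, Finset.card_univ, Finset.prod_ite_mem,
            Finset.univ_inter, Finset.prod_const]
      _ ≤ _ := Nat.mul_le_mul_left _ (Nat.pow_le_pow_right (by omega) hT)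
  refine (Finset.sum_le_card_nsmul _ _ _ this).trans ?_
  rw [smul_eq_mul, mul_assoc]
  refine Nat.mul_le_mul_right _ ((Finset.card_filter_le _ _).trans ?_)
  simp

lemma Wt.le_of_weight_le (W : Wt σ ι) {d : σ →₀ ℕ} {n : ℕ}
    (h : Finsupp.weight W.w d ≤ bx n) (j : σ) : d j ≤ n := by
  obtain ⟨i, hi⟩ : ∃ i, W.w j i ≠ 0 := by
    by_contra hc
    push Not at hc
    exact W.ne j (Finsupp.ext hc)
  have h1 := le_bx.1 h i
  by_cases hj : d j = 0
  · omega
  have h2 : d j * W.w j i ≤ Finsupp.weight W.w d i := by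
    rw [Finsupp.weight_apply, Finsupp.sum, Finsupp.finsetSum_apply]
    have := Finset.single_le_sum (f := fun j => (d j • W.w j) i) (s := d.support)
      (fun _ _ => Nat.zero_le _) (Finsupp.mem_support_iff.2 hj)
    simpa using this
  have : d j ≤ d j * W.w j i := Nat.le_mul_of_pos_right _ (Nat.pos_of_ne_zero hi)
  omega

/-- If any `e + 1` of the generating variables are algebraically dependent modulo `I`, the
quotient has growth of order at most `e`. -/
theorem Wt.gk_of_dependent (W : Wt σ ι) {𝒥 : Finset σ} {I : Ideal (MvPolynomial σ k)}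
    (hI : W.IHom I) (hg : Gen 𝒥 I) (e : ℕ)
    (h : ∀ τ ⊆ 𝒥, τ.card = e + 1 → ∃ F ∈ I, F ≠ 0 ∧ F ∈ supported k (τ : Set σ)) :
    GK (W.HQ I) e := by
  classical
  obtain ⟨m⟩ := exists_monomialOrder σ
  have h' : ∀ τ : Finset σ, ∃ F : MvPolynomial σ k, τ ⊆ 𝒥 → τ.card = e + 1 →
      F ∈ I ∧ F ≠ 0 ∧ F ∈ supported k (τ : Set σ) := by
    intro τ
    by_cases hτ : τ ⊆ 𝒥 ∧ τ.card = e + 1
    · obtain ⟨F, hF⟩ := h τ hτ.1 hτ.2
      exact ⟨F, fun _ _ => hF⟩
    · exact ⟨0, fun a b => absurd ⟨a, b⟩ hτ⟩
  choose F hF using h'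
  set D : ℕ := (∑ τ : Finset σ, ∑ j, m.degree (F τ) j) + 1 with hD
  have hDlt : ∀ τ j, m.degree (F τ) j < D := by
    intro τ j
    have a := Finset.single_le_sum (f := fun j => m.degree (F τ) j) (s := Finset.univ)
      (fun _ _ => Nat.zero_le _) (Finset.mem_univ j)
    have b := Finset.single_le_sum (f := fun τ => ∑ j, m.degree (F τ) j) (s := Finset.univ)
      (fun _ _ => Nat.zero_le _) (Finset.mem_univ τ)
    omega
  set Std : Set (σ →₀ ℕ) := {d | (Finset.univ.filter fun j => D ≤ d j).card ≤ e} with hStd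
  have hS : ∀ d : σ →₀ ℕ, d.support ⊆ 𝒥 → d ∉ Std →
      ∃ F ∈ I, F ≠ 0 ∧ F ∈ supported k (𝒥 : Set σ) ∧ m.degree F ≤ d := by
    intro d hd hs
    have hs : e + 1 ≤ (Finset.univ.filter fun j => D ≤ d j).card := by
      simpa [hStd] using hs
    obtain ⟨τ, hτ, hc⟩ := Finset.exists_subset_card_eq hs
    have hτJ : τ ⊆ 𝒥 := by
      intro j hj
      apply hd
      have := (Finset.mem_filter.1 (hτ hj)).2
      rw [Finsupp.mem_support_iff]
      omega
    obtain ⟨a, b, c⟩ := hF τ hτJ hc
    refine ⟨F τ, a, b, supported_mono (Finset.coe_subset.2 hτJ) c, fun j => ?_⟩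
    by_cases hj : j ∈ τ
    · have := (Finset.mem_filter.1 (hτ hj)).2
      have := hDlt τ j
      omega
    · have : j ∉ (m.degree (F τ)).support := fun hh =>
        hj (support_subset_of_supported c (m.degree_mem_support b) hh)
      rw [Finsupp.notMem_support_iff.1 this]
      exact Nat.zero_le _
  have hall : ∀ r : MvPolynomial σ k, r ∈
      I.restrictScalars k ⊔ Submodule.span k ((fun d => monomial d (1 : k)) '' Std) := by
    intro r
    obtain ⟨r', hr', hrr⟩ := hg r
    have e1 : r = (r - r') + r' := by ring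
    rw [e1]
    refine add_mem (Submodule.mem_sup_left hrr) ?_
    rw [r'.as_sum]
    refine Submodule.sum_mem _ fun c hc => ?_
    rw [← mul_one (coeff c r'), ← smul_eq_mul, ← smul_monomial]
    exact Submodule.smul_mem _ _
      (monomial_mem_sup_span m Std hS c (support_subset_of_supported hr' hc))
  refine ⟨2 ^ Fintype.card σ * (D + 1) ^ Fintype.card σ, fun n => ?_⟩
  have hcoeff : ∀ γ ∈ Finset.Iic (bx n : ι →₀ ℕ), MvPowerSeries.coeff γ (W.HQ I) ≤
      (((boxSet σ e D n).filter fun d => Finsupp.weight W.w d = γ).card : ℤ) := by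
    intro γ hγ
    rw [Wt.HQ, Grading.coeff_H_sub hI Grading.Hom.top le_top, Nat.cast_le]
    set B := ((boxSet σ e D n).filter fun d => Finsupp.weight W.w d = γ).image
      fun d => (I.restrictScalars k).mkQ (monomial d (1 : k)) with hB
    have hle : ((⊤ : Submodule k (MvPolynomial σ k)).map ((W.G k).π γ)).map
        (I.restrictScalars k).mkQ ≤ Submodule.span k (B : Set _) := by
      rintro _ ⟨_, ⟨r, -, rfl⟩, rfl⟩
      obtain ⟨a, ha, b, hb, rfl⟩ := Submodule.mem_sup.1 (hall r)
      have ha0 : (I.restrictScalars k).mkQ ((W.G k).π γ a) = 0 :=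
        (Submodule.Quotient.mk_eq_zero _).2 (hI γ a ha)
      rw [map_add, map_add, ha0, zero_add]
      refine Submodule.span_induction (p := fun b _ =>
        (I.restrictScalars k).mkQ ((W.G k).π γ b) ∈ Submodule.span k (B : Set _))
        ?_ ?_ ?_ ?_ hb
      · rintro _ ⟨d, hd, rfl⟩
        have hhom : (W.G k).π (Finsupp.weight W.w d) (monomial d (1 : k)) = monomial d 1 :=
          (W.π_eq_self_iff _ _).2 (isWeightedHomogeneous_monomial _ _ _ rfl)
        simp only
        rw [Grading.π_of_hom hhom]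
        split_ifs with hγd
        · refine Submodule.subset_span (Finset.mem_coe.2 (Finset.mem_image.2 ⟨d, ?_, rfl⟩))
          refine Finset.mem_filter.2 ⟨mem_boxSet (W.le_of_weight_le ?_) hd, hγd.symm⟩
          rw [← hγd]
          exact Finset.mem_Iic.1 hγ
        · rw [map_zero]; exact zero_mem _
      · simp
      · intro x y _ _ hx hy
        rw [map_add, map_add]
        exact add_mem hx hy
      · intro c x _ hx
        rw [map_smul, map_smul]
        exact Submodule.smul_mem _ _ hx
    refine (Submodule.finrank_mono hle).trans ?_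
    exact (finrank_span_finset_le_card B).trans Finset.card_image_le
  refine (Finset.sum_le_sum hcoeff).trans ?_
  rw [← Nat.cast_sum, Finset.sum_card_fiberwise_eq_card_filter]
  have := (Finset.card_filter_le (boxSet σ e D n)
    (fun d => Finsupp.weight W.w d ∈ Finset.Iic (bx n : ι →₀ ℕ))).trans (card_boxSet e D n)
  exact_mod_cast this

end Crest.Agent.R180
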