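import Crest.Agent.R180.Filtr
import Crest.Agent.R180.Growth

/-!
Ideals generated by variables, and criteria for good primes.
-/

set_option autoImplicit false
set_option linter.unusedSectionVars false

namespace Crest.Agent.R180

open Module MvPolynomial

variable {ι : Type} [Fintype ι] [DecidableEq ι] {σ : Type} [Fintype σ] [DecidableEq σ]
variable {k : Type} [Field k] {Ω : Type} [CommRing Ω] {ev : MvPolynomial ι ℤ →+* Ω}

/-- The ideal generated by the variables in `𝒩`. -/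
noncomputable def varI (k : Type) [Field k] (𝒩 : Finset σ) : Ideal (MvPolynomial σ k) :=
  Ideal.span (X '' (𝒩 : Set σ))

lemma sub_kill_mem_varI (𝒩 : Finset σ) (f : MvPolynomial σ k) :
    f - aeval (fun j => if j ∈ 𝒩 then (0 : MvPolynomial σ k) else X j) f ∈ varI k 𝒩 := by
  induction f using MvPolynomial.induction_on with
  | C a => simp
  | add p q hp hq =>
    rw [map_add, add_sub_add_comm]
    exact add_mem hp hq
  | mul_X p j hp =>
    rw [map_mul, aeval_X]
    split_ifs with h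
    · rw [mul_zero, sub_zero]
      exact Ideal.mul_mem_left _ _ (Ideal.subset_span ⟨j, h, rfl⟩)
    · rw [← sub_mul]
      exact Ideal.mul_mem_right _ _ hp

lemma varI_insert (j : σ) (𝒩 : Finset σ) :
    varI k (insert j 𝒩) = varI k 𝒩 ⊔ Ideal.span {X j} := by
  rw [varI, varI, Finset.coe_insert, Set.image_insert_eq, Ideal.span_insert, sup_comm]

theorem mem_varI_iff (𝒩 : Finset σ) (f : MvPolynomial σ k) :
    f ∈ varI k 𝒩 ↔
      aeval (fun j => if j ∈ 𝒩 then (0 : MvPolynomial σ k) else X j) f = 0 := by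
  constructor
  · intro hf
    have : varI k 𝒩 ≤ RingHom.ker (aeval (fun j => if j ∈ 𝒩 then (0 : MvPolynomial σ k) else X j) :
        MvPolynomial σ k →ₐ[k] MvPolynomial σ k) := by
      rw [varI, Ideal.span_le]
      rintro _ ⟨j, hj, rfl⟩
      simp [Finset.mem_coe.1 hj]
    exact this hf
  · intro hf
    have := sub_kill_mem_varI 𝒩 f
    rwa [hf, sub_zero] at this

lemma varI_isPrime (𝒩 : Finset σ) : (varI k 𝒩).IsPrime := by
  have : varI k 𝒩 = RingHom.ker (aeval (fun j => if j ∈ 𝒩 then (0 : MvPolynomial σ k) else X j) :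
      MvPolynomial σ k →ₐ[k] MvPolynomial σ k) := by
    ext f
    exact mem_varI_iff 𝒩 f
  rw [this]
  exact RingHom.ker_isPrime _

lemma X_not_mem_varI {𝒩 : Finset σ} {j : σ} (hj : j ∉ 𝒩) :
    (X j : MvPolynomial σ k) ∉ varI k 𝒩 := by
  rw [mem_varI_iff, aeval_X, if_neg hj]
  exact X_ne_zero j

lemma mem_varI_univ (f : MvPolynomial σ k) : f ∈ varI k Finset.univ ↔ coeff 0 f = 0 := by
  rw [mem_varI_iff]
  simp only [Finset.mem_univ, if_true]
  rw [aeval_zero', algebraMap_eq, C_eq_zero]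
  rfl

theorem Wt.varI_hom (W : Wt σ ι) (𝒩 : Finset σ) : W.IHom (varI k 𝒩) := by
  induction 𝒩 using Finset.induction_on with
  | empty =>
    have : varI k (∅ : Finset σ) = ⊥ := by simp [varI]
    rw [this]
    exact Grading.Hom.bot
  | insert j 𝒩 _ ih =>
    rw [varI_insert]
    exact W.hom_sup_span ih (isWeightedHomogeneous_X k W.w j)

theorem varI_gen (𝒩 : Finset σ) : Gen 𝒩ᶜ (varI k 𝒩) := by
  intro r
  refine ⟨_, ?_, sub_kill_mem_varI 𝒩 r⟩
  induction r using MvPolynomial.induction_on with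
  | C a => rw [aeval_C]; exact Subalgebra.algebraMap_mem _ a
  | add p q hp hq => rw [map_add]; exact add_mem hp hq
  | mul_X p j hp =>
    rw [map_mul, aeval_X]
    refine mul_mem hp ?_
    split_ifs with h
    · exact zero_mem _
    · exact Algebra.subset_adjoin ⟨j, by simpa using h, rfl⟩

lemma Wt.HQ_varI_univ (W : Wt σ ι) : W.HQ (varI k (Finset.univ : Finset σ)) = 1 := by
  ext γ
  rw [Wt.HQ, Grading.coeff_H_sub (W.varI_hom _) Grading.Hom.top le_top, MvPowerSeries.coeff_one]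
  have hc : ∀ x : MvPolynomial σ k,
      coeff 0 ((W.G k).π γ x) = if γ = 0 then coeff 0 x else 0 := fun x => by
    change coeff 0 (weightedHomogeneousComponent W.w γ x) = _
    rw [coeff_weightedHomogeneousComponent, map_zero]
    simp only [eq_comm]
  split_ifs with h
  · have : (((⊤ : Submodule k (MvPolynomial σ k)).map ((W.G k).π γ)).map
        ((varI k (Finset.univ : Finset σ)).restrictScalars k).mkQ) =
        Submodule.span k {((varI k (Finset.univ : Finset σ)).restrictScalars k).mkQ 1} := by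
      apply le_antisymm
      · rintro _ ⟨_, ⟨x, -, rfl⟩, rfl⟩
        refine Submodule.mem_span_singleton.2 ⟨coeff 0 x, ?_⟩
        rw [← map_smul, Submodule.mkQ_apply, Submodule.mkQ_apply, Submodule.Quotient.eq,
          Submodule.restrictScalars_mem, mem_varI_univ, coeff_sub, hc, if_pos h]
        simp
      · rw [Submodule.span_le]
        rintro _ rfl
        refine ⟨1, ⟨1, trivial, ?_⟩, rfl⟩
        rw [W.π_eq_self_iff, h]
        exact isWeightedHomogeneous_one k W.w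
    rw [this, finrank_span_singleton, Nat.cast_one]
    rw [Ne, Submodule.mkQ_apply, Submodule.Quotient.mk_eq_zero, Submodule.restrictScalars_mem,
      mem_varI_univ]
    simp
  · have : (((⊤ : Submodule k (MvPolynomial σ k)).map ((W.G k).π γ)).map
        ((varI k (Finset.univ : Finset σ)).restrictScalars k).mkQ) = ⊥ := by
      rw [eq_bot_iff]
      rintro _ ⟨_, ⟨x, -, rfl⟩, rfl⟩
      rw [Submodule.mem_bot, Submodule.mkQ_apply, Submodule.Quotient.mk_eq_zero,
        Submodule.restrictScalars_mem, mem_varI_univ, hc, if_neg h]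
    rw [this, finrank_bot, Nat.cast_zero]

theorem Wt.HQ_varI (W : Wt σ ι) (𝒩 : Finset σ) :
    W.HQ (varI k 𝒩) * (den W.w 𝒩ᶜ : MvPolynomial ι ℤ) = 1 := by
  obtain ⟨S, rfl⟩ : ∃ S : Finset σ, 𝒩 = Sᶜ := ⟨𝒩ᶜ, (compl_compl _).symm⟩
  rw [compl_compl]
  induction S using Finset.induction_on with
  | empty => simp [den, W.HQ_varI_univ]
  | insert j S hj ih =>
    have e : insert j (insert j S)ᶜ = Sᶜ := by
      ext x
      by_cases hx : x = j
      · subst hx; simpa using hj
      · simp [hx]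
    have hcut := W.HQ_cut (W.varI_hom (k := k) (insert j S)ᶜ) (isWeightedHomogeneous_X k W.w j)
      (fun r hr => ((varI_isPrime _).mem_or_mem hr).resolve_right (X_not_mem_varI (by simp)))
    rw [← varI_insert, e] at hcut
    rw [hcut] at ih
    rw [den_insert _ hj, MvPolynomial.coe_mul, Cl.coe_one_sub]
    linear_combination ih

lemma Wt.cl_varI (W : Wt σ ι) (𝒩 : Finset σ) : Cl (den W.w 𝒩ᶜ) (W.HQ (varI k 𝒩)) 0 1 :=
  ⟨1, by rw [W.HQ_varI, MvPolynomial.coe_one], 1, by simp, by simp⟩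

lemma Cl.neg {den : MvPolynomial ι ℤ} {h : MvPowerSeries ι ℤ} {c : ℕ} {κ : MvPolynomial ι ℤ}
    (a : Cl den h c κ) : Cl den (-h) c (-κ) := by
  obtain ⟨K, hK, P, hP, rfl⟩ := a
  refine ⟨-K, ?_, -P, by rw [map_neg, hP]; ring, by simp⟩
  have := map_neg (MvPolynomial.coeToMvPowerSeries.ringHom (σ := ι) (R := ℤ)) K
  simp only [MvPolynomial.coeToMvPowerSeries.ringHom_apply] at this
  rw [this, hK, neg_mul]

lemma Cl.mul_den_finset [IsDomain Ω] (w : σ → ι →₀ ℕ) {d : MvPolynomial ι ℤ}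
    {h : MvPowerSeries ι ℤ} {c : ℕ} {κ : MvPolynomial ι ℤ} (a : Cl d h c κ) (hκ : ev κ ≠ 0)
    (𝒩 : Finset σ) (hN : ∀ j ∈ 𝒩, ev (lin (w j)) ≠ 0) :
    ∃ κ', Cl (d * den w 𝒩) h (c + 𝒩.card) κ' ∧ ev κ' ≠ 0 := by
  induction 𝒩 using Finset.induction_on with
  | empty => exact ⟨κ, by simpa [den] using a, hκ⟩
  | insert j 𝒩 hj ih =>
    obtain ⟨κ', b, hb⟩ := ih fun x hx => hN x (Finset.mem_insert_of_mem hx)
    refine ⟨_, ?_, (show ev (-(lin (w j) * κ')) ≠ 0 from ?_)⟩
    · rw [den_insert _ hj, Finset.card_insert_of_notMem hj, ← mul_assoc, ← add_assoc]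
      exact b.mul_den _
    · rw [map_neg, map_mul, neg_ne_zero]
      exact mul_ne_zero (hN j (Finset.mem_insert_self _ _)) hb

theorem Wt.good_bot [Nontrivial Ω] (W : Wt σ ι) :
    W.Good ev Finset.univ (⊥ : Ideal (MvPolynomial σ k)) 0 := by
  have hb : varI k (∅ : Finset σ) = ⊥ := by simp [varI]
  refine ⟨Ideal.isPrime_bot, Grading.Hom.bot, Gen.univ _, Nat.zero_le _, ?_, 1, ?_, by simp⟩
  · refine W.gk_of_dependent (I := ⊥) Grading.Hom.bot (Gen.univ _) _ fun τ hτ hc => ?_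
    have := Finset.card_le_card hτ
    omega
  · have := W.cl_varI (k := k) ∅
    rwa [hb, Finset.compl_empty] at this

/-- A good prime contains no non-zero polynomial in variables whose degrees are killed by `ev`. -/
theorem Wt.Good.not_mem_of_supported {W : Wt σ ι} {𝒥 : Finset σ} {I : Ideal (MvPolynomial σ k)}
    {c : ℕ} (h : W.Good ev 𝒥 I c) {𝒥₀ : Finset σ} (hsub : 𝒥₀ ⊆ 𝒥)
    (h0 : ∀ j ∈ 𝒥₀, ev (lin (W.w j)) = 0) {f : MvPolynomial σ k}
    (hf : f ∈ supported k (𝒥₀ : Set σ)) (hne : f ≠ 0) : f ∉ I := by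
  intro hfI
  rw [← Finset.sdiff_union_of_subset hsub] at h
  obtain ⟨I', c', hle, -, -, hp, hh, hgen, hc, hgk, κ, hcl, hκ⟩ :=
    Wt.Good.elim (fun _ => 0) (𝒥 \ 𝒥₀) Finset.sdiff_disjoint (fun _ _ => zero_mem _)
      (fun _ _ => isWeightedHomogeneous_zero _ _ _) h
  have hf' := hle hfI
  rcases Nat.eq_zero_or_pos c' with rfl | hpos
  · rcases 𝒥₀.eq_empty_or_nonempty with rfl | hne'
    · rw [Finset.coe_empty, supported_empty, Algebra.mem_bot] at hf
      obtain ⟨a, rfl⟩ := hf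
      have ha : a ≠ 0 := fun e => hne (by rw [e, map_zero])
      exact hp.ne_top (Ideal.eq_top_of_isUnit_mem _ hf' ((IsUnit.mk0 a ha).map _))
    · have hcard := hne'.card_pos
      have g := W.gk_of_dependent hh hgen (𝒥₀.card - 1) fun τ hτ hτc => by
        have : τ = 𝒥₀ := Finset.eq_of_subset_of_card_le hτ (by omega)
        subst this
        exact ⟨f, hf', hne, hf⟩
      obtain ⟨κ', a, -⟩ := W.exists_cl ⊤ (fun _ _ => trivial) hh hgen g
      exact hκ (by rw [hcl.unique (a.of_lt (by omega)), map_zero])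
  · obtain ⟨κ', a, b⟩ := W.exists_cl (RingHom.ker ev) h0 hh hgen hgk
    rw [Nat.sub_sub_self hc] at a b
    exact hκ (by rw [hcl.unique a]; exact b hpos)

/-- The quotient by a good prime has the expected transcendence degree. -/
theorem Wt.Good.not_dependent {W : Wt σ ι} {𝒥 : Finset σ} {I : Ideal (MvPolynomial σ k)}
    {c : ℕ} (h : W.Good ev 𝒥 I c) (e : ℕ) (he : e + c < 𝒥.card)
    (hdep : ∀ τ ⊆ 𝒥, τ.card = e + 1 → ∃ F ∈ I, F ≠ 0 ∧ F ∈ supported k (τ : Set σ)) : False := by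
  obtain ⟨κ, hcl, hκ⟩ := h.cl
  obtain ⟨κ', a, -⟩ := W.exists_cl ⊤ (fun _ _ => trivial) h.hom h.gen
    (W.gk_of_dependent h.hom h.gen e hdep)
  exact hκ (by rw [hcl.unique (a.of_lt (by omega)), map_zero])

/-- Goodness from a degeneration to a coordinate subspace. -/
theorem Wt.good_of_degeneration [IsDomain Ω] (W : Wt σ ι) {I : Ideal (MvPolynomial σ k)}
    (hp : I.IsPrime) (hI : W.IHom I) (ε : σ) (hε : X ε ∉ I) (𝒩 : Finset σ) (hεN : ε ∉ 𝒩)
    (hgk : GK (W.HQ I) (Fintype.card σ - 𝒩.card)) (hle : I ≤ varI k (insert ε 𝒩))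
    (hN : ∀ j ∈ 𝒩, ev (lin (W.w j)) ≠ 0) (𝒥₀ : Finset σ) (hε0 : ε ∉ 𝒥₀)
    (h0 : ∀ j ∈ 𝒥₀, ev (lin (W.w j)) = 0) (h : MvPolynomial σ k)
    (hh : h ∈ supported k (𝒥₀ : Set σ)) (hne : h ≠ 0)
    (hmul : ∀ j ∈ 𝒩, h * X j ∈ I ⊔ Ideal.span {X ε}) :
    W.Good ev Finset.univ I 𝒩.card := by
  set 𝒥 : Finset σ := Finset.univ.erase ε with h𝒥
  have hins : insert ε 𝒥 = Finset.univ := Finset.insert_erase (Finset.mem_univ ε)
  have hε𝒥 : ε ∉ 𝒥 := Finset.notMem_erase _ _
  have hcard : Fintype.card σ = 𝒥.card + 1 := by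
    rw [← Finset.card_insert_of_notMem hε𝒥, hins, Finset.card_univ]
  have hsub : ∀ S : Finset σ, ε ∉ S → S ⊆ 𝒥 := fun S hS x hx =>
    Finset.mem_erase.2 ⟨fun e => hS (e ▸ hx), Finset.mem_univ _⟩
  have hc : 𝒩.card ≤ 𝒥.card := Finset.card_le_card (hsub _ hεN)
  set G : Ideal (MvPolynomial σ k) := I ⊔ Ideal.span {X ε} with hG
  have hXG : X ε ∈ G := Ideal.mem_sup_right (Ideal.mem_span_singleton_self _)
  have hGh : W.IHom G := W.hom_sup_span hI (isWeightedHomogeneous_X k W.w ε)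
  have hGg : Gen 𝒥 G := Gen.erase (x := ε) (g := 0) (hins ▸ Gen.univ G) (zero_mem _)
    (by simpa using hXG)
  have hcut : W.HQ G = W.HQ I * (1 - MvPowerSeries.monomial (W.w ε) 1) :=
    W.HQ_cut hI (isWeightedHomogeneous_X k W.w ε) fun r hr => (hp.mem_or_mem hr).resolve_right hε
  have hgk' : GK (W.HQ G) (𝒥.card - 𝒩.card) :=
    GK.drop (W.NN_HQ _) (W.NN_HQ _) hcut (by
      rwa [show 𝒥.card - 𝒩.card + 1 = Fintype.card σ - 𝒩.card by omega])
  obtain ⟨κG, hκG, -⟩ := W.exists_cl ⊤ (fun _ _ => trivial) hGh hGg hgk'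
  rw [Nat.sub_sub_self hc] at hκG
  refine ⟨hp, hI, Gen.univ _, Finset.card_le_univ _ |>.trans (by simp), by simpa using hgk,
    κG, ?_, fun hev => ?_⟩
  · rw [← hins, den_insert _ hε𝒥, Cl.move_iff, ← hcut]
    exact hκG
  set P : Ideal (MvPolynomial σ k) := varI k (insert ε 𝒩) with hP
  have hGP : G ≤ P := sup_le hle (by
    rw [Ideal.span_le]
    rintro _ rfl
    exact Ideal.subset_span ⟨ε, by simp, rfl⟩)
  obtain ⟨κP, hκP, hevP⟩ := Cl.mul_den_finset (ev := ev) W.w (W.cl_varI (k := k) (insert ε 𝒩))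
    (by simp) 𝒩 hN
  have hden : den W.w (insert ε 𝒩)ᶜ * den W.w 𝒩 = den W.w 𝒥 := by
    rw [den, den, den, ← Finset.prod_union (by
      rw [Finset.disjoint_left]; intro x hx hx'; simp [hx'] at hx)]
    congr 1
    ext x
    by_cases hx : x ∈ 𝒩
    · simp [hx, hsub _ hεN hx]
    · simp [hx, h𝒥]
  rw [hden, zero_add] at hκP
  have e : (W.G k).H (P.restrictScalars k) - (W.G k).H (G.restrictScalars k) =
      W.HQ G + -W.HQ P := by
    unfold Wt.HQ; ring
  obtain ⟨𝔮, a, b⟩ := W.compat_self.extract (ev := ev) (P := G) (Q := P) hGh (W.varI_hom _) hGP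
    (𝒥 := 𝒥) (𝔞 := G ⊔ Ideal.span {h}) (hGg.mono le_sup_left)
    (by
      intro r hr x hx
      obtain ⟨g, hg, b, hb, rfl⟩ := Submodule.mem_sup.1 hr
      obtain ⟨a, rfl⟩ := Ideal.mem_span_singleton'.1 hb
      have : P ≤ colon G h := by
        rw [hP, varI, Ideal.span_le]
        rintro _ ⟨j, hj, rfl⟩
        rw [SetLike.mem_coe, mem_colon', smul_eq_mul]
        rcases Finset.mem_insert.1 (Finset.mem_coe.1 hj) with rfl | hj
        · exact G.mul_mem_right _ hXG
        · rw [mul_comm]; exact hmul j hj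
      have h2 : x * h ∈ G := this hx
      rw [smul_eq_mul, add_mul, mul_assoc, mul_comm h]
      exact add_mem (G.mul_mem_right _ hg) (G.mul_mem_left _ h2))
    hc (hgk'.of_le (by
      rw [e]
      have := W.NN_HQ P
      convert this using 1
      ring))
    (κ := κG + -κP) (by rw [e]; exact hκG.add hκP.neg)
    (by rw [map_add, hev, zero_add, map_neg, neg_ne_zero]; exact hevP)
  exact b.not_mem_of_supported (hsub _ hε0) h0 hh hne
    (a (Ideal.mem_sup_right (Ideal.mem_span_singleton_self _)))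

end Crest.Agent.R180
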