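import Crest.Agent.R180.Univ
import Crest.Agent.R180.VarIdeal

/-!
The special fibre of the family contains the coordinate subspace.
-/

set_option autoImplicit false
set_option linter.unusedSectionVars false

namespace Crest.Agent.R180

open MvPolynomial

variable {N k j : ℕ}

lemma g1c_eval₂_monomial {P : Type} [CommRing P] (θ : P →+* ℚ) (t : Ix N → ℚ) (γ : Ix N →₀ ℕ)
    (a : P) : eval₂Hom θ t (monomial γ a) = θ a * tpow t γ := by
  rw [eval₂Hom_monomial, Finsupp.prod_fintype _ _ (fun _ => pow_zero _), tpow]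

lemma g1c_mem_NV {χ : Hh N} : (.inr (some χ) : Sv N) ∈ insert (.inr none) (NV N k) ↔
    χ ∈ Per N k ∧ χ ∉ Lam N k := by
  simp [NV]

lemma g1c_comm {b : QA (fun _ : Ix N => (1 : ℚ))} (hb : b ∈ TA.Supp _ (Lam N k : Set (Hh N)))
    (hl : ∀ χ ∉ Per N k, ∃ l ∈ TA.Supp _ (Lam N k : Set (Hh N)), l * (sg _ χ b - b) = 1)
    (ν : Hh N → ℚ) : ∃ Y : QA (fun _ : Ix N => (1 : ℚ)),
      ∀ χ, (Y * b - b * Y) χ = if χ ∈ Per N k then 0 else ν χ := by
  choose! l hl1 hl2 using hl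
  refine ⟨∑ χ ∈ (Per N k)ᶜ, ν χ • (l χ * TA.E _ χ), fun ψ => ?_⟩
  have : (∑ χ ∈ (Per N k)ᶜ, ν χ • (l χ * TA.E _ χ)) * b -
      b * (∑ χ ∈ (Per N k)ᶜ, ν χ • (l χ * TA.E _ χ)) = ∑ χ ∈ (Per N k)ᶜ, ν χ • TA.E _ χ := by
    rw [Finset.sum_mul, Finset.mul_sum, ← Finset.sum_sub_distrib]
    refine Finset.sum_congr rfl fun χ hχ => ?_
    rw [Finset.mem_compl] at hχ
    rw [smul_mul_assoc, mul_smul_comm, ← smul_sub, mul_assoc, E_mul_eq, ← mul_assoc, ← mul_assoc,
      ← comm_of_Per (TA.Supp_mono (fun _ h => Lam_sub_Per h) (hl1 χ hχ)) hb, ← sub_mul,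
      ← mul_sub, hl2 χ hχ, one_mul]
  rw [this, TA.sum_apply]
  simp only [TA.smul_apply, TA.E_apply, smul_eq_mul, mul_ite, mul_one, mul_zero,
    Finset.sum_ite_eq, Finset.mem_compl, ite_not]

theorem ker_le_varI (hN : 0 < N) (hj : 1 ≤ j) {P : Type} [CommRing P] [Algebra ℚ P] {ε : P}
    {p : Hh N → P} (h : Spec k ε p) {D : MvPolynomial (Sv N) ℚ} (hD : D ≠ 0)
    (hl : ∀ χ ∉ Per N k, ∃ l ∈ TA.Supp _ (Lam N k : Set (Hh N)),
      l * (sg _ χ (Bt N k) - Bt N k) = algebraMap _ _ D) :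
    RingHom.ker ((W1 hN k hj).hmap ℚ (pp ε p)) ≤ varI ℚ (insert (.inr none) (NV N k)) := by
  intro f hf
  rw [mem_varI_iff]
  refine (mul_eq_zero.1 ?_).resolve_left hD
  let S : Sv N → Set ℚ := Sum.elim (fun _ => {x | ∃ t : ℚ, t ≠ 0 ∧ x = t ^ 2}) fun _ => Set.univ
  have hS : ∀ v, (S v).Infinite := by
    rintro (i | v)
    · refine Set.infinite_of_injective_forall_mem (f := fun n : ℕ => ((n : ℚ) + 1) ^ 2) ?_ ?_
      · intro a b hab
        have := (pow_left_inj₀ (by positivity) (by positivity) two_ne_zero).1 hab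
        exact_mod_cast add_right_cancel this
      · exact fun n => ⟨_, by positivity, rfl⟩
    · exact Set.infinite_univ
  refine funext_set S hS fun z hz => ?_
  rw [map_mul, map_zero]
  by_cases hd : eval z D = 0
  · rw [hd, zero_mul]
  choose t ht0 ht using fun i => hz (.inl i) (Set.mem_univ _)
  have hs : ∀ i, eval z (sS N i) = t i ^ 2 := fun i => by rw [eval_X, ht]
  set ρ := rs (eval z) (sS N) t hs with hρ
  set T := tpow t ((j + 1) • Del N) with hT
  have hT0 : T ≠ 0 := tpow_ne_zero ht0 _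
  have hsupp : ∀ x ∈ TA.Supp (qc (sS N)) (Lam N k : Set (Hh N)),
      ρ x ∈ TA.Supp _ (Lam N k : Set (Hh N)) := fun x hx χ hχ => by
    rw [hρ, rs_apply, hx χ hχ, map_zero, zero_mul]
  have hsg : ∀ χ x, ρ (sg _ χ x) = sg _ χ (ρ x) := fun χ x => by
    ext ψ
    simp only [hρ, rs_apply, sg_apply, map_mul, map_sgn]
    ring
  have hb : T⁻¹ • ρ (Bt N k) ∈ TA.Supp _ (Lam N k : Set (Hh N)) :=
    Submodule.smul_mem _ _ (hsupp _ Bt_mem)
  obtain ⟨Y, hY⟩ := g1c_comm hb (fun χ hχ => by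
    obtain ⟨l, h1, h2⟩ := hl χ hχ
    refine ⟨(T / eval z D) • ρ l, Submodule.smul_mem _ _ (hsupp _ h1), ?_⟩
    have h3 := congrArg ρ h2
    rw [map_mul, map_sub, hsg, hρ, rs_algebraMap, ← hρ] at h3
    rw [sg_smul, ← smul_sub, smul_mul_smul_comm, h3, Algebra.algebraMap_eq_smul_one, smul_smul]
    rw [show T / eval z D * T⁻¹ * eval z D = 1 by field_simp, one_smul])
    (fun χ => z (.inr (some χ)) / tpow t (j • Del N - lift χ))
  obtain ⟨θ, hθ0, hθ⟩ := h _ Y hb
  have key : (eval₂Hom θ t).comp ((W1 hN k hj).hmap ℚ (pp ε p) : MvPolynomial (Sv N) ℚ →+* _) =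
      (eval z).comp ((aeval (fun v => if v ∈ insert (.inr none) (NV N k) then
        (0 : MvPolynomial (Sv N) ℚ) else X v) :
          MvPolynomial (Sv N) ℚ →ₐ[ℚ] MvPolynomial (Sv N) ℚ) :
            MvPolynomial (Sv N) ℚ →+* MvPolynomial (Sv N) ℚ) := by
    refine ringHom_ext' (Subsingleton.elim _ _) fun v => ?_
    simp only [RingHom.comp_apply, RingHom.coe_coe, Wt.hmap_X, g1c_eval₂_monomial, aeval_X]
    rcases v with i | _ | χ
    · rw [if_neg (by simp [NV]), eval_X, ht]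
      simp [pp, W1, tpow_single]
    · simp [pp, hθ0]
    · simp only [pp, hθ, g1c_mem_NV, W1]
      by_cases h1 : χ ∈ Lam N k
      · rw [if_pos h1, if_pos h1, if_neg (by simp [h1]), eval_X, TA.smul_apply, hρ, rs_apply, Bt,
          TA.mk_apply, if_pos h1, eval_X, smul_eq_mul]
        have e : T = tpow t ((j + 1) • Del N - lift χ) * tpow t (lift χ) := by
          rw [← tpow_add, tsub_add_cancel_of_le (lift_le χ (by omega))]
        have := tpow_ne_zero ht0 ((j + 1) • Del N - lift χ)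
        have := tpow_ne_zero ht0 (lift χ)
        rw [e]; field_simp
      · rw [if_neg h1, if_neg h1, hY]
        by_cases h2 : χ ∈ Per N k
        · simp [h1, h2]
        · rw [if_neg h2, if_neg (by simp [h2]), eval_X]
          have := tpow_ne_zero ht0 (j • Del N - lift χ)
          field_simp
  have := DFunLike.congr_fun key f
  simp only [RingHom.comp_apply, RingHom.coe_coe] at this
  rw [← this, (RingHom.mem_ker).1 hf, map_zero, mul_zero]

end Crest.Agent.R180
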