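import Crest.Agent.R180.Univ

/-!
First-order expansion of the relation.
-/

set_option autoImplicit false
set_option linter.unusedSectionVars false

namespace Crest.Agent.R180

open MvPolynomial

variable {N k : ℕ}

section General

/-- The first-order term of `(B + e ν) ^ n`. -/
def g1dD {A : Type*} [Ring A] (B ν : A) : ℕ → A
  | 0 => 0
  | n + 1 => g1dD B ν n * B + B ^ n * ν

lemma g1d_pow_expand {R A : Type*} [CommRing R] [Ring A] [Algebra R A] (B ν : A) (e : R) (n : ℕ) :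
    ∃ r : A, (B + e • ν) ^ n = B ^ n + e • g1dD B ν n + e ^ 2 • r := by
  induction n with
  | zero => exact ⟨0, by simp [g1dD]⟩
  | succ n ih =>
    obtain ⟨r, hr⟩ := ih
    refine ⟨g1dD B ν n * ν + r * B + e • (r * ν), ?_⟩
    rw [pow_succ, hr, g1dD, pow_succ B n]
    simp only [add_mul, mul_add, smul_mul_assoc, mul_smul_comm, smul_add, smul_smul]
    module

variable {R : Type} [CommRing R] {s : Ix N → R}

lemma g1d_pow_mem {B : QA s} (hB : B ∈ TA.Supp _ (Lam N k : Set (Hh N))) (n : ℕ) :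
    B ^ n ∈ TA.Supp _ (Lam N k : Set (Hh N)) :=
  mem_LA.1 (pow_mem (mem_LA.2 hB) n)

lemma g1d_mul_mem {B ν : QA s} (hB : B ∈ TA.Supp _ (Lam N k : Set (Hh N)))
    (hν : ν ∈ TA.Supp _ ((Per N k : Set (Hh N)) \ Lam N k)) :
    B * ν ∈ TA.Supp _ ((Per N k : Set (Hh N)) \ Lam N k) := by
  refine TA.mul_mem_Supp ?_ hB hν
  intro a ha b hb
  refine ⟨add_mem_Per (Lam_sub_Per ha) hb.1, fun h => hb.2 ?_⟩
  have := add_mem_Lam ha h
  rwa [← add_assoc, Hh_add_self, zero_add] at this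

lemma g1d_split {B ν₁ ν₂ : QA s} (hB : B ∈ TA.Supp _ (Lam N k : Set (Hh N)))
    (h₁ : ν₁ ∈ TA.Supp _ ((Per N k : Set (Hh N)) \ Lam N k))
    (h₂ : ν₂ ∈ TA.Supp _ ((Per N k : Set (Hh N))ᶜ)) (n : ℕ) :
    g1dD B (ν₁ + ν₂) n - (n : R) • (B ^ (n - 1) * ν₁) ∈ TA.Supp _ ((Per N k : Set (Hh N))ᶜ) := by
  induction n with
  | zero => simp [g1dD]
  | succ n ih =>
    have hc : ν₁ * B = B * ν₁ := comm_of_Per (TA.Supp_mono Set.sdiff_subset h₁) hB
    have e1 : (n : R) • (B ^ (n - 1) * ν₁) * B = (n : R) • (B ^ n * ν₁) := by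
      cases n with
      | zero => simp
      | succ n => rw [smul_mul_assoc, mul_assoc, hc, ← mul_assoc, Nat.add_sub_cancel, ← pow_succ]
    have e2 : g1dD B (ν₁ + ν₂) (n + 1) - ((n + 1 : ℕ) : R) • (B ^ (n + 1 - 1) * ν₁)
        = (g1dD B (ν₁ + ν₂) n - (n : R) • (B ^ (n - 1) * ν₁)) * B + B ^ n * ν₂ := by
      rw [g1dD, sub_mul, e1, Nat.add_sub_cancel, Nat.cast_succ, add_smul, one_smul, mul_add]
      abel
    rw [e2]
    refine add_mem (TA.mul_mem_Supp ?_ ih hB) (TA.mul_mem_Supp ?_ (g1d_pow_mem hB n) h₂)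
    · intro a ha b hb
      exact add_notMem_Per ha (Lam_sub_Per hb)
    · intro a ha b hb
      rw [add_comm]
      exact add_notMem_Per hb (Lam_sub_Per ha)

lemma g1d_tr {B ν₁ ν₂ : QA s} (hB : B ∈ TA.Supp _ (Lam N k : Set (Hh N)))
    (h₁ : ν₁ ∈ TA.Supp _ ((Per N k : Set (Hh N)) \ Lam N k))
    (h₂ : ν₂ ∈ TA.Supp _ ((Per N k : Set (Hh N))ᶜ)) (n : ℕ) :
    TA.tr _ (g1dD B (ν₁ + ν₂) n) = 0 := by
  have h := g1d_split hB h₁ h₂ n 0 (by simpa using Lam_sub_Per zero_mem_Lam)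
  have h' := g1d_mul_mem (g1d_pow_mem hB (n - 1)) h₁ 0 (fun h => h.2 zero_mem_Lam)
  rw [TA.sub_apply, TA.smul_apply, h', smul_zero, sub_zero] at h
  exact h

variable [Algebra ℚ R]

lemma g1d_rel_expand {B ν₁ ν₂ : QA s} (hB : B ∈ TA.Supp _ (Lam N k : Set (Hh N)))
    (h₁ : ν₁ ∈ TA.Supp _ ((Per N k : Set (Hh N)) \ Lam N k))
    (h₂ : ν₂ ∈ TA.Supp _ ((Per N k : Set (Hh N))ᶜ)) (e : R) (m : ℕ) :
    ∃ r : QA s, rel m (TA.tr _) (B + e • (ν₁ + ν₂)) = rel m (TA.tr _) B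
      + e • ∑ i ∈ Finset.range (m + 1),
          ((-1) ^ i * newtonE (fun j => (m : R) * TA.tr _ (B ^ j)) i) • g1dD B (ν₁ + ν₂) (m - i)
      + e ^ 2 • r := by
  choose r hr using g1d_pow_expand B (ν₁ + ν₂) e
  have hc : ∀ i, ∃ d : R, newtonE (fun j => (m : R) * TA.tr _ ((B + e • (ν₁ + ν₂)) ^ j)) i
      = newtonE (fun j => (m : R) * TA.tr _ (B ^ j)) i + e ^ 2 * d := by
    intro i
    have : newtonE (fun j => (m : R) * TA.tr _ ((B + e • (ν₁ + ν₂)) ^ j)) i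
        - newtonE (fun j => (m : R) * TA.tr _ (B ^ j)) i ∈ Ideal.span {e ^ 2} := by
      rw [← Ideal.Quotient.eq, newtonE_map, newtonE_map]
      refine newtonE_congr _ _ (fun j _ => ?_) i
      rw [Ideal.Quotient.eq, hr j, map_add, map_add, map_smul, map_smul, g1d_tr hB h₁ h₂,
        Ideal.mem_span_singleton']
      exact ⟨m * TA.tr _ (r j), by simp only [smul_eq_mul]; ring⟩
    obtain ⟨d, hd⟩ := Ideal.mem_span_singleton'.1 this
    exact ⟨d, by rw [mul_comm, hd]; ring⟩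
  choose d hd using hc
  refine ⟨∑ i ∈ Finset.range (m + 1),
    (((-1) ^ i * newtonE (fun j => (m : R) * TA.tr _ (B ^ j)) i) • r (m - i)
      + ((-1) ^ i * d i) • (B + e • (ν₁ + ν₂)) ^ (m - i)), ?_⟩
  unfold rel
  rw [Finset.smul_sum, Finset.smul_sum, ← Finset.sum_add_distrib, ← Finset.sum_add_distrib]
  refine Finset.sum_congr rfl fun i _ => ?_
  rw [hd i, mul_add, add_smul]
  conv_lhs => rw [hr (m - i)]
  conv_rhs => rw [hr (m - i)]
  module

lemma g1d_deriv (B : QA s) (m : ℕ) :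
    Polynomial.aeval B (Polynomial.derivative (relP m (TA.tr _) B))
      = ∑ i ∈ Finset.range (m + 1),
          ((-1) ^ i * newtonE (fun j => (m : R) * TA.tr _ (B ^ j)) i) •
            (((m - i : ℕ) : R) • B ^ (m - i - 1)) := by
  unfold relP
  rw [Polynomial.derivative_sum, map_sum]
  refine Finset.sum_congr rfl fun i _ => ?_
  rw [Polynomial.derivative_C_mul, Polynomial.derivative_X_pow, map_mul, Polynomial.aeval_C,
    map_mul (Polynomial.aeval B), Polynomial.aeval_C, map_pow (Polynomial.aeval B), Polynomial.aeval_X, Algebra.smul_def, Algebra.smul_def]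

theorem g1d_general (hk : k ≤ N) {B ν₁ ν₂ : QA s} (hB : B ∈ TA.Supp _ (Lam N k : Set (Hh N)))
    (h₁ : ν₁ ∈ TA.Supp _ ((Per N k : Set (Hh N)) \ Lam N k))
    (h₂ : ν₂ ∈ TA.Supp _ ((Per N k : Set (Hh N))ᶜ)) (e : R) {I : Ideal R} (hp : I.IsPrime)
    (he : e ∉ I) (hrel : ∀ χ, rel (2 ^ k) (TA.tr _) (B + e • (ν₁ + ν₂)) χ ∈ I)
    {h : R} {b' : QA s}
    (hb : b' * Polynomial.aeval B (Polynomial.derivative (relP (2 ^ k) (TA.tr _) B))
      = algebraMap _ _ h) (χ : Hh N) : h * ν₁ χ ∈ I ⊔ Ideal.span {e} := by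
  obtain ⟨r, hr⟩ := g1d_rel_expand hB h₁ h₂ e (2 ^ k)
  rw [rel_eq_zero_of_Lam hk hB, zero_add] at hr
  set S := ∑ i ∈ Finset.range (2 ^ k + 1),
    ((-1) ^ i * newtonE (fun j => ((2 ^ k : ℕ) : R) * TA.tr _ (B ^ j)) i) •
      g1dD B (ν₁ + ν₂) (2 ^ k - i) with hS
  set A := Polynomial.aeval B (Polynomial.derivative (relP (2 ^ k) (TA.tr _) B)) with hA
  have hSG : ∀ ψ, S ψ ∈ I ⊔ Ideal.span {e} := by
    intro ψ
    have h1 := hrel ψ
    rw [hr, TA.add_apply, TA.smul_apply, TA.smul_apply, smul_eq_mul, smul_eq_mul] at h1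
    have h2 : e * (S ψ + e * r ψ) ∈ I := by convert h1 using 1; ring
    have h3 := (hp.mem_or_mem h2).resolve_left he
    have h4 : S ψ = (S ψ + e * r ψ) - e * r ψ := by ring
    rw [h4]
    exact sub_mem (Ideal.mem_sup_left h3)
      (Ideal.mem_sup_right (Ideal.mul_mem_right _ _ (Ideal.mem_span_singleton_self e)))
  have hdiff : S - A * ν₁ ∈ TA.Supp _ ((Per N k : Set (Hh N))ᶜ) := by
    rw [hA, g1d_deriv, hS, Finset.sum_mul, ← Finset.sum_sub_distrib]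
    refine Submodule.sum_mem _ fun i _ => ?_
    rw [smul_mul_assoc, smul_mul_assoc, ← smul_sub]
    exact Submodule.smul_mem _ _ (g1d_split hB h₁ h₂ _)
  have hAν : A * ν₁ ∈ TA.Supp _ ((Per N k : Set (Hh N)) \ Lam N k) := by
    rw [hA, g1d_deriv, Finset.sum_mul]
    refine Submodule.sum_mem _ fun i _ => ?_
    rw [smul_mul_assoc, smul_mul_assoc]
    exact Submodule.smul_mem _ _ (Submodule.smul_mem _ _ (g1d_mul_mem (g1d_pow_mem hB _) h₁))
  have hAG : ∀ ψ, (A * ν₁) ψ ∈ I ⊔ Ideal.span {e} := by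
    intro ψ
    by_cases hψ : ψ ∈ Per N k
    · have := hdiff ψ (by simpa using hψ)
      rw [TA.sub_apply, sub_eq_zero] at this
      rw [← this]; exact hSG ψ
    · rw [hAν ψ fun h => hψ h.1]; exact zero_mem _
  have h5 : (b' * (A * ν₁)) χ ∈ I ⊔ Ideal.span {e} := by
    rw [TA.mul_apply]
    exact Ideal.sum_mem _ fun ψ _ => Ideal.mul_mem_left _ _ (hAG _)
  rwa [← mul_assoc, hb, ← Algebra.smul_def, TA.smul_apply, smul_eq_mul] at h5

end General

theorem mul_mem_of_rel (hk : k ≤ N) {I : Ideal (MvPolynomial (Sv N) ℚ)} (hp : I.IsPrime)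
    (hε : X (.inr none) ∉ I) (hrel : ∀ χ, rel (2 ^ k) (TA.tr _) (Tt N k) χ ∈ I)
    {h : MvPolynomial (Sv N) ℚ} {b' : QA (sS N)}
    (hb : b' * Polynomial.aeval (Bt N k)
      (Polynomial.derivative (relP (2 ^ k) (TA.tr _) (Bt N k))) = algebraMap _ _ h) :
    ∀ v ∈ NV N k, h * X v ∈ I ⊔ Ideal.span {X (.inr none)} := by
  intro v hv
  obtain ⟨χ, hχ, rfl⟩ := Finset.mem_image.1 hv
  let ν₁ : QA (sS N) := TA.mk _ fun ψ => if ψ ∈ Per N k \ Lam N k then X (.inr (some ψ)) else 0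
  let ν₂ : QA (sS N) := TA.mk _ fun ψ => if ψ ∈ Per N k then 0 else X (.inr (some ψ))
  have h₁ : ν₁ ∈ TA.Supp _ ((Per N k : Set (Hh N)) \ Lam N k) := fun ψ hψ =>
    if_neg (by simpa using hψ)
  have h₂ : ν₂ ∈ TA.Supp _ ((Per N k : Set (Hh N))ᶜ) := fun ψ hψ => if_pos (by simpa using hψ)
  have hT : Tt N k = Bt N k + (X (.inr none) : MvPolynomial (Sv N) ℚ) • (ν₁ + ν₂) := by
    ext1 ψ
    simp only [Tt, Bt, ν₁, ν₂, TA.mk_apply, TA.add_apply, TA.smul_apply, smul_eq_mul,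
      Finset.mem_sdiff]
    by_cases hl : ψ ∈ Lam N k
    · simp [hl, Lam_sub_Per hl]
    · by_cases hp : ψ ∈ Per N k <;> simp [hl, hp]
  rw [hT] at hrel
  have := g1d_general hk Bt_mem h₁ h₂ _ hp hε hrel hb χ
  simpa only [ν₁, TA.mk_apply, if_pos hχ] using this

end Crest.Agent.R180
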