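import Crest.Agent.R180.Univ
import Crest.Agent.R180.DerivDep

/-!
The dimension of the family.
-/

set_option autoImplicit false
set_option linter.unusedSectionVars false

namespace Crest.Agent.R180

open MvPolynomial

variable {N k j : ℕ}

lemma g1e_deriv_conj {K : Type} [Field K] (δ : K →+ K)
    (hδ : ∀ a b, δ (a * b) = δ a * b + a * δ b) {g g' b : QA (fun _ : Ix N => (1 : K))}
    (h1 : g * g' = 1) (h2 : g' * g = 1) (hb : b ∈ TA.Supp _ (Lam N k : Set (Hh N))) :
    ∃ z ∈ TA.Supp (qc fun _ : Ix N => (1 : K)) ((Per N k \ Lam N k)ᶜ : Finset (Hh N)),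
      TA.cw _ δ (g * b * g') = g * z * g' := by
  have hδ1 : δ 1 = 0 := by
    have := hδ 1 1
    simpa using this
  have hc : ∀ a c : Hh N, δ ((qc fun _ : Ix N => (1 : K)).c a c) = 0 := by
    intro a c
    rw [qc_c]
    rcases zmod2_cases (bf a c) with h | h <;> simp [h, hδ1]
  have hm := TA.cw_mul (C := qc fun _ : Ix N => (1 : K)) δ hδ hc
  have hone : TA.cw (qc fun _ : Ix N => (1 : K)) δ 1 = 0 := by
    ext χ
    rw [TA.cw_apply, TA.one_apply]
    split_ifs <;> simp [hδ1]
  set d := TA.cw (qc fun _ : Ix N => (1 : K)) δ with hd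
  have e1 : d g' = -(g' * d g * g') := by
    have := hm g g'
    rw [h1, hone] at this
    have h3 : g' * (d g * g' + g * d g') = 0 := by rw [← this, mul_zero]
    rw [mul_add, ← mul_assoc g' g, h2, one_mul, ← mul_assoc] at h3
    exact eq_neg_of_add_eq_zero_right h3
  refine ⟨(g' * d g) * b - b * (g' * d g) + d b, add_mem ?_ ?_, ?_⟩
  · refine TA.Supp_mono ?_ (comm_mem_Supp (k := k) _ hb)
    intro χ hχ
    simp only [Set.mem_compl_iff, Finset.mem_coe] at hχ
    simp [hχ]
  · intro χ hχ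
    rw [hd, TA.cw_apply, hb χ (by simp at hχ; simpa using hχ.2), map_zero]
  · rw [hm, hm, e1]
    have : g * (g' * d g * b) = d g * b := by rw [← mul_assoc, ← mul_assoc, h1, one_mul]
    rw [mul_add g, mul_sub g, this]
    noncomm_ring

lemma g1e_dep (hN : 0 < N) (hj : 1 ≤ j) {K : Type} [Field K] [Algebra ℚ K] {e : K} (he : e ≠ 0)
    (q : Hh N → K) {t : Ix N → K} (ht : ∀ i, t i ≠ 0) {g g' b : QA (fun _ : Ix N => (1 : K))}
    (h1 : g * g' = 1) (h2 : g' * g = 1) (hb : b ∈ TA.Supp _ (Lam N k : Set (Hh N)))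
    (ha : aa k e q = g * b * g') (τ : Finset (Sv N))
    (hτ : τ.card = Fintype.card (Sv N) - (NV N k).card + 1) :
    ∃ F : MvPolynomial (Sv N) ℚ, F ≠ 0 ∧ F ∈ supported ℚ (τ : Set (Sv N)) ∧
      aeval (fun v => pp e q v * tpow t ((W1 hN k hj).w v)) F = 0 := by
  have : CharZero K := algebraRat.charZero K
  let c : Hh N → K := fun χ =>
    tpow t ((W1 hN k hj).w (.inr (some χ))) * if χ ∈ Lam N k then 1 else e⁻¹
  let L : QA (fun _ : Ix N => (1 : K)) →ₗ[K] (Sv N → K) := LinearMap.pi fun v =>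
    match v with
    | .inr (some χ) => c χ • (TA.coef _ χ ∘ₗ LinearMap.mulRight K g' ∘ₗ LinearMap.mulLeft K g)
    | _ => 0
  refine dependent_of_derivations _ (insert (.inr none) (Finset.univ.image .inl))
    ((TA.Supp _ ((Per N k \ Lam N k)ᶜ : Finset (Hh N))).map L) ?_ τ ?_
  · intro δ hδ
    have hmul : ∀ a b, δ (a * b) = δ a * b + a * δ b := fun a b => by
      rw [Derivation.leibniz, smul_eq_mul, smul_eq_mul]; ring
    have hδt : ∀ i, δ (t i) = 0 := by
      intro i
      have := hδ (.inl i) (by simp)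
      simp only [pp, W1, one_mul, tpow_single, Derivation.leibniz_pow] at this
      simpa [ht i] using this
    have hδp : ∀ γ, δ (tpow t γ) = 0 := by
      intro γ
      refine Finset.prod_induction _ (fun x => δ x = 0) (fun a b ha hb => ?_) (by simp)
        fun i _ => by simp [Derivation.leibniz_pow, hδt]
      rw [hmul, ha, hb, zero_mul, mul_zero, add_zero]
    have hδe : δ e = 0 := by
      have := hδ (.inr none) (by simp)
      simp only [pp, hmul, hδp, mul_zero, add_zero] at this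
      exact (mul_eq_zero.1 this).resolve_right (tpow_ne_zero ht _)
    obtain ⟨z, hz, hz'⟩ := g1e_deriv_conj (k := k) (δ : K →+ K) hmul h1 h2 hb
    refine ⟨z, hz, ?_⟩
    ext v
    rcases v with i | _ | χ
    · exact (hδ (.inl i) (by simp)).symm
    · exact (hδ (.inr none) (by simp)).symm
    · have e1 : L z (.inr (some χ)) = c χ * (g * z * g') χ := rfl
      rw [e1, ← hz', ← ha, TA.cw_apply, aa, TA.mk_apply]
      simp only [c, pp, AddMonoidHom.coe_coe, hmul, hδp]
      split_ifs
      · ring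
      · rw [hmul, hδe]; field_simp; ring
  · have a1 := (Submodule.finrank_map_le L _).trans
      (TA.finrank_Supp_le (C := qc fun _ : Ix N => (1 : K)) ((Per N k \ Lam N k)ᶜ))
    have a2 : (insert (.inr none) (Finset.univ.image .inl) : Finset (Sv N)).card ≤
        Fintype.card (Ix N) + 1 :=
      (Finset.card_insert_le _ _).trans (Nat.add_le_add_right Finset.card_image_le 1)
    have a3 : (NV N k).card = (Per N k \ Lam N k).card :=
      Finset.card_image_of_injective _ fun a b h => by simpa using h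
    have a4 : (Per N k \ Lam N k).card ≤ Fintype.card (Hh N) := Finset.card_le_univ _
    rw [Finset.card_compl] at a1
    rw [hτ, a3, Fintype.card_sum, Fintype.card_option]
    omega

theorem dependent_ker (hN : 0 < N) (hj : 1 ≤ j) {P : Type} [CommRing P] [IsDomain P] [Algebra ℚ P]
    {ε : P} {p : Hh N → P} (hε : ε ≠ 0) (h : Conj k ε p) (τ : Finset (Sv N))
    (hτ : τ.card = Fintype.card (Sv N) - (NV N k).card + 1) :
    ∃ F ∈ RingHom.ker ((W1 hN k hj).hmap ℚ (pp ε p)), F ≠ 0 ∧ F ∈ supported ℚ (τ : Set (Sv N)) := by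
  obtain ⟨g, g', b, ν, hν, h1, h2, hb, ha⟩ := h
  let T := MvPolynomial (Ix N) P
  let K := FractionRing T
  let ψ : T →+* K := algebraMap T K
  have hψ : Function.Injective ψ := IsFractionRing.injective T K
  let φ : P →+* K := ψ.comp C
  have hφ : Function.Injective φ := hψ.comp (C_injective _ _)
  let _ : Algebra ℚ K := (φ.comp (algebraMap ℚ P)).toAlgebra
  let B := bc φ (fun _ : Ix N => (1 : P)) (fun _ => (1 : K)) (fun _ => map_one φ)
  have hν' : φ ν ≠ 0 := (map_ne_zero_iff φ hφ).2 hν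
  obtain ⟨F, hF0, hF1, hF2⟩ := g1e_dep (k := k) hN hj ((map_ne_zero_iff φ hφ).2 hε)
    (fun χ => φ (p χ)) (t := fun i => ψ (X i))
    (fun i => (map_ne_zero_iff ψ hψ).2 (X_ne_zero i)) (g := B g) (g' := (φ ν)⁻¹ • B g')
    (b := φ ν • B b)
    (by rw [mul_smul_comm, ← map_mul, h1, bc_algebraMap, Algebra.algebraMap_eq_smul_one,
      smul_smul, inv_mul_cancel₀ hν', one_smul])
    (by rw [smul_mul_assoc, ← map_mul, h2, bc_algebraMap, Algebra.algebraMap_eq_smul_one,
      smul_smul, inv_mul_cancel₀ hν', one_smul])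
    (Submodule.smul_mem _ _ fun χ hχ => by rw [bc_apply, hb χ hχ, map_zero])
    (by
      rw [mul_smul_comm, mul_smul_comm, smul_mul_assoc, smul_smul, inv_mul_cancel₀ hν', one_smul,
        ← map_mul, ← map_mul, ← ha]
      ext χ
      rw [bc_apply, aa, aa, TA.mk_apply, TA.mk_apply]
      split_ifs
      · rfl
      · rw [map_mul]) τ hτ
  refine ⟨F, ?_, hF0, hF1⟩
  rw [RingHom.mem_ker]
  apply hψ
  rw [map_zero, ← hF2]
  have key : ψ.comp ((W1 hN k hj).hmap ℚ (pp ε p) : MvPolynomial (Sv N) ℚ →+* T) =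
      ((aeval (fun v => pp (φ ε) (fun χ => φ (p χ)) v *
        tpow (fun i => ψ (X i)) ((W1 hN k hj).w v)) : MvPolynomial (Sv N) ℚ →ₐ[ℚ] K) :
          MvPolynomial (Sv N) ℚ →+* K) := by
    refine ringHom_ext' (Subsingleton.elim _ _) fun v => ?_
    simp only [RingHom.comp_apply, RingHom.coe_coe, Wt.hmap_X, aeval_X]
    rw [monomial_eq, map_mul, Finsupp.prod_fintype _ _ (fun _ => pow_zero _), ← map_tpow, tpow]
    congr 1
    rcases v with i | _ | χ
    · simp [pp]
    · rfl
    · rfl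
  exact DFunLike.congr_fun key F

end Crest.Agent.R180
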