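import Crest.Agent.R180.Filtr

/-!
Parity argument: over a prime that is good modulo two, homogeneous maps of Clifford-type modules
are injective or zero.
-/

set_option autoImplicit false
set_option linter.unusedSectionVars false

namespace Crest.Agent.R180

open Module MvPolynomial

variable {ι : Type} [Fintype ι] [DecidableEq ι] {σ : Type} [Fintype σ] [DecidableEq σ]
variable {k : Type} [Field k]

/-- Reduction modulo two. -/
noncomputable def ev2 (ι : Type) : MvPolynomial ι ℤ →+* MvPolynomial ι (ZMod 2) :=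
  MvPolynomial.map (Int.castRingHom (ZMod 2))

lemma Cl.mul_den_two_prod {den : MvPolynomial ι ℤ} {h : MvPowerSeries ι ℤ} {c : ℕ}
    {κ : MvPolynomial ι ℤ} (a : Cl den h c κ) (T : Finset ι) :
    Cl (den * ∏ i ∈ T, (1 + MvPolynomial.monomial (Finsupp.single i 1) 1)) h c
      (2 ^ T.card * κ) := by
  induction T using Finset.induction_on with
  | empty => simpa using a
  | insert i T hi ih =>
    rw [Finset.prod_insert hi, Finset.card_insert_of_notMem hi, mul_comm (1 + _), ← mul_assoc,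
      pow_succ', mul_assoc 2]
    exact ih.mul_den_two _

lemma mul_prod_one_add {den : MvPolynomial ι ℤ} {h : MvPowerSeries ι ℤ} {c e : ℕ}
    {κ : MvPolynomial ι ℤ} (a : Cl den h c κ) (hn : NN h) (hg : GK h e) (T : Finset ι) :
    Cl den (h * ∏ i ∈ T, (1 + MvPowerSeries.monomial (Finsupp.single i 1) (1 : ℤ))) c
        (2 ^ T.card * κ) ∧
      NN (h * ∏ i ∈ T, (1 + MvPowerSeries.monomial (Finsupp.single i 1) (1 : ℤ))) ∧
      GK (h * ∏ i ∈ T, (1 + MvPowerSeries.monomial (Finsupp.single i 1) (1 : ℤ))) e := by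
  induction T using Finset.induction_on with
  | empty => simpa using ⟨a, hn, hg⟩
  | insert i T hi ih =>
    obtain ⟨a1, a2, a3⟩ := ih
    rw [Finset.prod_insert hi, Finset.card_insert_of_notMem hi]
    set h' := h * ∏ i ∈ T, (1 + MvPowerSeries.monomial (Finsupp.single i 1) (1 : ℤ)) with hh'
    have e1 : h * ((1 + MvPowerSeries.monomial (Finsupp.single i 1) (1 : ℤ)) *
        ∏ i ∈ T, (1 + MvPowerSeries.monomial (Finsupp.single i 1) (1 : ℤ))) =
        h' + MvPowerSeries.monomial (Finsupp.single i 1) (1 : ℤ) * h' := by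
      rw [hh']; ring
    rw [e1]
    refine ⟨?_, fun γ => ?_, a3.add (a3.shift a2 _)⟩
    · have := a1.add (a1.shift (Finsupp.single i 1))
      convert this using 1
      ring
    · rw [map_add]
      exact add_nonneg (a2 γ) (a2.shift _ γ)

section

variable {M : Type} [AddCommGroup M] [Module k M] [Module (MvPolynomial σ k) M]
  [IsScalarTower k (MvPolynomial σ k) M] [IsNoetherian (MvPolynomial σ k) M]
  {Ω : Type} [CommRing Ω] {ev : MvPolynomial ι ℤ →+* Ω}

/-- The class of a module annihilated by a good prime is a multiple of the class of the prime. -/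
lemma Wt.Good.rank {W : Wt σ ι} {𝔭 : Ideal (MvPolynomial σ k)} {c : ℕ}
    (h : W.Good ev Finset.univ 𝔭 c) {κ : MvPolynomial ι ℤ}
    (hκ : Cl (den W.w Finset.univ) (W.HQ 𝔭) c κ) {G : Grading k M ι} (hG : W.Compat G)
    {P Q : Submodule (MvPolynomial σ k) M} (hP : G.Hom (P.restrictScalars k))
    (hQ : G.Hom (Q.restrictScalars k)) (hle : P ≤ Q) (hann : ∀ r ∈ 𝔭, ∀ x ∈ Q, r • x ∈ P) :
    ∃ ρ : ℕ, Cl (den W.w Finset.univ)
      (G.H (Q.restrictScalars k) - G.H (P.restrictScalars k)) c (ρ * κ) := by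
  refine hG.filtration (fun s => ∃ ρ : ℕ, Cl (den W.w Finset.univ) s c (ρ * κ))
    ⟨0, by simpa using Cl.zero⟩
    (fun _ _ ⟨ρ, a⟩ ⟨ρ', a'⟩ => ⟨ρ + ρ', by rw [Nat.cast_add, add_mul]; exact a.add a'⟩) hP hQ hle
    (fun 𝔮 γ hp hh hann' _ => ?_)
  have hle' : 𝔭 ≤ 𝔮 := fun r hr => hann' r (hann r hr)
  by_cases hq : 𝔮 ≤ 𝔭
  · rw [le_antisymm hq hle']
    exact ⟨1, by simpa using hκ.shift γ⟩
  obtain ⟨f, δ, hf𝔮, hf𝔭, hfh⟩ : ∃ (f : MvPolynomial σ k) (δ : ι →₀ ℕ), f ∈ 𝔮 ∧ f ∉ 𝔭 ∧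
      f.IsWeightedHomogeneous W.w δ := by
    by_contra hc
    push Not at hc
    refine hq fun x hx => ?_
    refine Grading.mem_of_forall_π (G := W.G k) (P := 𝔭.restrictScalars k) fun β => ?_
    by_contra hc'
    exact hc _ β (hh β x hx) hc' (W.π_hom β x)
  have hcut := W.HQ_cut h.hom hfh fun r hr => (h.prime.mem_or_mem hr).resolve_right hf𝔭
  have hle2 : 𝔭 ⊔ Ideal.span {f} ≤ 𝔮 :=
    sup_le hle' ((Ideal.span_singleton_le_iff_mem _).2 hf𝔮)
  have hnn : NN (W.HQ (𝔭 ⊔ Ideal.span {f}) - W.HQ 𝔮) := by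
    have := Grading.NN_H_sub (G := W.G k) ((Submodule.restrictScalars_le k).2 hle2)
    unfold Wt.HQ
    convert this using 1
    ring
  have hgk := h.gk
  have hc := h.le
  refine ⟨0, ?_⟩
  rw [Nat.cast_zero, zero_mul]
  refine Cl.shift ?_ γ
  rcases hcc : (Finset.univ : Finset σ).card - c with _ | e
  · rw [hcc] at hgk
    have h0 := GK.drop_zero (W.NN_HQ _) (W.NN_HQ _) hcut hgk
    have h1 := Grading.eq_of_H_eq (W.hom_sup_span h.hom hfh) le_top h0
    have h2 : (1 : MvPolynomial σ k) ∈ (𝔭 ⊔ Ideal.span {f}).restrictScalars k := by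
      rw [← h1]; trivial
    exact absurd ((Ideal.eq_top_iff_one _).2 (hle2 h2)) hp.ne_top
  · rw [hcc] at hgk
    have g2 := (GK.drop (W.NN_HQ _) (W.NN_HQ _) hcut hgk).of_le hnn
    obtain ⟨κ', a, -⟩ := W.exists_cl ⊤ (fun _ _ => trivial) hh (Gen.univ 𝔮) g2
    exact a.of_lt (by omega)

/-- Positive rank. -/
lemma Wt.Good.rank_pos {W : Wt σ ι} {𝔭 : Ideal (MvPolynomial σ k)} {c : ℕ}
    (h : W.Good ev Finset.univ 𝔭 c) {κ : MvPolynomial ι ℤ}
    (hκ : Cl (den W.w Finset.univ) (W.HQ 𝔭) c κ) {G : Grading k M ι} (hG : W.Compat G)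
    {P Q : Submodule (MvPolynomial σ k) M} (hP : G.Hom (P.restrictScalars k))
    (hQ : G.Hom (Q.restrictScalars k)) (hle : P ≤ Q) (hne : ¬ Q ≤ P)
    (htf : ∀ (r : MvPolynomial σ k) (x : M), r • x ∈ P ↔ r ∈ 𝔭 ∨ x ∈ P) :
    ∃ ρ : ℕ, Cl (den W.w Finset.univ)
      (G.H (Q.restrictScalars k) - G.H (P.restrictScalars k)) c ((ρ + 1 : ℕ) * κ) := by
  obtain ⟨q, γ, hqQ, hqP, hγ⟩ : ∃ (q : M) (γ : ι →₀ ℕ), q ∈ Q ∧ q ∉ P ∧ G.π γ q = q := by
    by_contra hc
    push Not at hc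
    refine hne fun x hx => ?_
    refine Grading.mem_of_forall_π (G := G) (P := P.restrictScalars k) fun β => ?_
    by_contra hc'
    exact hc _ β (hQ β x hx) hc' (G.idem β x)
  have a2 := hG.H_sup_span hP hγ
  have e : colon P q = 𝔭 := by
    ext r
    rw [mem_colon', htf]
    simp [hqP]
  rw [e] at a2
  have hle2 : P ⊔ Submodule.span (MvPolynomial σ k) {q} ≤ Q :=
    sup_le hle ((Submodule.span_singleton_le_iff_mem _ _).2 hqQ)
  obtain ⟨ρ, a⟩ := h.rank hκ hG (hG.hom_sup_span hP hγ) hQ hle2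
    (fun r hr x _ => Submodule.mem_sup_left ((htf r x).2 (Or.inl hr)))
  refine ⟨ρ, ?_⟩
  have := a.add (a2 ▸ hκ.shift γ)
  convert this using 1
  · ring
  · push_cast; ring

/-- Divisibility of classes of Clifford-type modules. -/
lemma Wt.Compat.clifford_dvd {W : Wt σ ι} {c : ℕ} (hc : c ≤ (Finset.univ : Finset σ).card)
    (s : ι → σ) (hs : Function.Injective s) (hw : ∀ i, W.w (s i) = Finsupp.single i 2)
    {G : Grading k M ι} (hG : W.Compat G) (E : ι → M →ₗ[MvPolynomial σ k] M)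
    (hE : ∀ i, G.Deg ((E i).restrictScalars k) (Finsupp.single i 1))
    (hEE : ∀ i x, E i (E i x) = (X (s i) : MvPolynomial σ k) • x)
    (hq : ∀ i j, ∃ a : k, ∀ x, E i (E j x) = a • E j (E i x))
    {P Q : Submodule (MvPolynomial σ k) M} (hP : G.Hom (P.restrictScalars k))
    (hQ : G.Hom (Q.restrictScalars k)) (hle : P ≤ Q)
    (hPE : ∀ i, ∀ x ∈ P, E i x ∈ P) (hQE : ∀ i, ∀ x ∈ Q, E i x ∈ Q)
    (hgk : GK (G.H (Q.restrictScalars k) - G.H (P.restrictScalars k))
      ((Finset.univ : Finset σ).card - c)) :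
    ∃ κ', Cl (den W.w Finset.univ) (G.H (Q.restrictScalars k) - G.H (P.restrictScalars k)) c
      (2 ^ (Finset.univ : Finset ι).card * κ') := by
  let Xs : σ → M →ₗ[k] M := fun j =>
    (LinearMap.lsmul (MvPolynomial σ k) M (X j)).restrictScalars k
  let Z : σ → M →ₗ[k] M := Function.extend s (fun i => (E i).restrictScalars k) Xs
  let δ : σ → ι →₀ ℕ := Function.extend s (fun i => Finsupp.single i 1) W.w
  have Z1 : ∀ i, Z (s i) = (E i).restrictScalars k := fun i => hs.extend_apply _ _ i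
  have Z2 : ∀ j, (¬ ∃ i, s i = j) → Z j = Xs j := fun j hj => Function.extend_apply' _ _ _ hj
  have δ1 : ∀ i, δ (s i) = Finsupp.single i 1 := fun i => hs.extend_apply _ _ i
  have δ2 : ∀ j, (¬ ∃ i, s i = j) → δ j = W.w j := fun j hj => Function.extend_apply' _ _ _ hj
  have Xa : ∀ j x, Xs j x = (X j : MvPolynomial σ k) • x := fun _ _ => rfl
  have stab : ∀ S : Submodule (MvPolynomial σ k) M, (∀ i, ∀ x ∈ S, E i x ∈ S) →
      Stable Z Finset.univ (S.restrictScalars k) := by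
    intro S hS j _ x hx
    by_cases hj : ∃ i, s i = j
    · obtain ⟨i, rfl⟩ := hj
      rw [Z1]; exact hS i x hx
    · rw [Z2 j hj, Xa]; exact S.smul_mem _ hx
  obtain ⟨κ', a, -⟩ := R180.exists_cl G Z δ ⊤ Finset.univ
    (fun j _ => by
      by_cases hj : ∃ i, s i = j
      · obtain ⟨i, rfl⟩ := hj
        rw [Z1, δ1]; exact hE i
      · rw [Z2 j hj, δ2 j hj]
        intro γ x hx
        rw [Xa, add_comm]
        exact hG _ _ _ _ (isWeightedHomogeneous_X k W.w j) hx)
    (fun i _ j _ => by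
      by_cases hi : ∃ i', s i' = i
      · obtain ⟨i, rfl⟩ := hi
        by_cases hj : ∃ j', s j' = j
        · obtain ⟨j, rfl⟩ := hj
          rw [Z1, Z1]; exact hq i j
        · rw [Z1, Z2 j hj]
          exact ⟨1, fun x => by simp [Xa]⟩
      · by_cases hj : ∃ j', s j' = j
        · obtain ⟨j, rfl⟩ := hj
          rw [Z1, Z2 i hi]
          exact ⟨1, fun x => by simp [Xa]⟩
        · rw [Z2 i hi, Z2 j hj]
          exact ⟨1, fun x => by simp only [Xa, one_smul]; rw [smul_comm]⟩)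
    (fun _ _ => trivial) _ _ _ hP hQ ((Submodule.restrictScalars_le k).2 hle) (stab P hPE)
    (stab Q hQE)
    (ACC_of_closed (σ := σ) _ _ _ _ fun S _ _ s3 r => by
      have hX : ∀ j, ∀ x ∈ S, (X j : MvPolynomial σ k) • x ∈ S := by
        intro j x hx
        by_cases hj : ∃ i, s i = j
        · obtain ⟨i, rfl⟩ := hj
          have h1 := s3 (s i) (Finset.mem_univ _)
          rw [Z1] at h1
          rw [← hEE]
          exact h1 _ (h1 x hx)
        · have h1 := s3 j (Finset.mem_univ _) x hx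
          rwa [Z2 j hj] at h1
      induction r using MvPolynomial.induction_on with
      | C a =>
        intro x hx
        rw [← algebraMap_eq, algebraMap_smul]
        exact S.smul_mem _ hx
      | add p q hp hq => intro x hx; rw [add_smul]; exact S.add_mem (hp x hx) (hq x hx)
      | mul_X p j hp => intro x hx; rw [mul_smul]; exact hp _ (hX j x hx)) hgk
  rw [Nat.sub_sub_self hc] at a
  refine ⟨κ', ?_⟩
  have e : den W.w Finset.univ = den δ Finset.univ *
      ∏ i : ι, (1 + MvPolynomial.monomial (Finsupp.single i 1) 1) := by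
    let g : σ → MvPolynomial ι ℤ :=
      Function.extend s (fun i => 1 + MvPolynomial.monomial (Finsupp.single i 1) 1) 1
    have g1 : ∀ i, g (s i) = 1 + MvPolynomial.monomial (Finsupp.single i 1) 1 :=
      fun i => hs.extend_apply _ _ i
    have g2 : ∀ j, (¬ ∃ i, s i = j) → g j = 1 := fun j hj => Function.extend_apply' _ _ _ hj
    rw [Fintype.prod_of_injective s hs _ g (fun j hj => g2 j hj) (fun i => (g1 i).symm), den, den,
      ← Finset.prod_mul_distrib]
    refine Finset.prod_congr rfl fun j _ => ?_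
    by_cases hj : ∃ i, s i = j
    · obtain ⟨i, rfl⟩ := hj
      have : (MvPolynomial.monomial (Finsupp.single i 2) 1 : MvPolynomial ι ℤ) =
          MvPolynomial.monomial (Finsupp.single i 1) 1 *
            MvPolynomial.monomial (Finsupp.single i 1) 1 := by
        rw [MvPolynomial.monomial_mul, ← Finsupp.single_add, mul_one]
      rw [g1, δ1, hw, this]
      ring
    · rw [g2 j hj, δ2 j hj, mul_one]
  rw [e]
  exact a.mul_den_two_prod _

end

theorem Wt.Good.inj_of_clifford {W : Wt σ ι} {𝔭 : Ideal (MvPolynomial σ k)} {c : ℕ}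
    (h : W.Good (ev2 ι) Finset.univ 𝔭 c)
    (s : ι → σ) (hs : Function.Injective s) (hw : ∀ i, W.w (s i) = Finsupp.single i 2)
    {M : Type} [AddCommGroup M] [Module k M] [Module (MvPolynomial σ k) M]
    [IsScalarTower k (MvPolynomial σ k) M] [IsNoetherian (MvPolynomial σ k) M]
    (G : Grading k M ι) (hG : W.Compat G) (E : ι → M →ₗ[MvPolynomial σ k] M)
    (hE : ∀ i, G.Deg ((E i).restrictScalars k) (Finsupp.single i 1))
    (hEE : ∀ i x, E i (E i x) = (X (s i) : MvPolynomial σ k) • x)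
    (hq : ∀ i j, ∃ a : k, ∀ x, E i (E j x) = a • E j (E i x))
    (P : Submodule (MvPolynomial σ k) M) (hP : G.Hom (P.restrictScalars k))
    (hPE : ∀ i, ∀ x ∈ P, E i x ∈ P)
    (htf : ∀ (r : MvPolynomial σ k) (x : M), r • x ∈ P ↔ r ∈ 𝔭 ∨ x ∈ P)
    (hH : G.H ⊤ - G.H (P.restrictScalars k) =
      W.HQ 𝔭 * ∏ i, (1 + MvPowerSeries.monomial (Finsupp.single i 1) (1 : ℤ)))
    (φ : M →ₗ[MvPolynomial σ k] M) (γ : ι →₀ ℕ) (hφ : G.Deg (φ.restrictScalars k) γ)
    (hφE : ∀ i x, φ (E i x) = E i (φ x)) (hφP : ∀ x ∈ P, φ x ∈ P) (hne : ∃ x, φ x ∉ P) :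
    ∀ x, φ x ∈ P → x ∈ P := by
  obtain ⟨κ, hκ, hκ0⟩ := h.cl
  obtain ⟨d, hd⟩ : ∃ d, ¬ (2 : ℤ) ∣ coeff d κ := by
    by_contra hc
    push Not at hc
    apply hκ0
    ext d
    rw [ev2, coeff_map, coeff_zero]
    exact (ZMod.intCast_zmod_eq_zero_iff_dvd _ 2).2 (by exact_mod_cast hc d)
  have hd0 : coeff d κ ≠ 0 := fun h0 => hd (h0 ▸ dvd_zero _)
  obtain ⟨b1, -, b3⟩ := mul_prod_one_add hκ (W.NN_HQ 𝔭) h.gk Finset.univ
  rw [← hH] at b1 b3
  let Q1 : Submodule (MvPolynomial σ k) M := LinearMap.range φ ⊔ P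
  let Q2 : Submodule (MvPolynomial σ k) M := P.comap φ
  have e1 : Q1.restrictScalars k =
      (⊤ : Submodule k M).map (φ.restrictScalars k) ⊔ P.restrictScalars k := by
    ext x
    simp only [Q1, Submodule.restrictScalars_mem, Submodule.mem_sup, LinearMap.mem_range,
      Submodule.mem_map, Submodule.mem_top, true_and, LinearMap.coe_restrictScalars]
  have e2 : Q2.restrictScalars k = (P.restrictScalars k).comap (φ.restrictScalars k) := rfl
  have hQ1 : G.Hom (Q1.restrictScalars k) := e1 ▸ (Grading.Hom.map hφ Grading.Hom.top).sup hP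
  have hQ2 : G.Hom (Q2.restrictScalars k) := e2 ▸ Grading.Hom.comap hφ hP
  have key := Grading.key hφ hP Grading.Hom.top
  rw [top_inf_eq, ← e1, ← e2] at key
  have l1 : P ≤ Q1 := le_sup_right
  have l2 : P ≤ Q2 := fun x hx => hφP x hx
  by_contra hcon
  have n2 : ¬ Q2 ≤ P := fun hle => hcon fun x hx => hle hx
  have n1 : ¬ Q1 ≤ P := fun hle => by
    obtain ⟨x, hx⟩ := hne
    exact hx (hle (Submodule.mem_sup_left ⟨x, rfl⟩))
  obtain ⟨ρ1, c1⟩ := h.rank_pos hκ hG hP hQ1 l1 n1 htf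
  obtain ⟨ρ2, c2⟩ := h.rank_pos hκ hG hP hQ2 l2 n2 htf
  obtain ⟨ρ3, c3⟩ := h.rank hκ hG hQ2 (Q := ⊤) Grading.Hom.top le_top
    (fun r hr x _ => l2 ((htf r x).2 (Or.inl hr)))
  rw [Submodule.restrictScalars_top] at c3
  obtain ⟨κ', c4⟩ := hG.clifford_dvd h.le s hs hw E hE hEE hq hP hQ1 l1 hPE
    (fun i x hx => by
      obtain ⟨_, ⟨a, rfl⟩, b, hb, rfl⟩ := Submodule.mem_sup.1 hx
      rw [map_add, ← hφE]
      exact Submodule.add_mem_sup ⟨_, rfl⟩ (hPE i b hb))
    (b3.of_le (by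
      have := Grading.NN_H_sub (G := G) (le_top : Q1.restrictScalars k ≤ ⊤)
      convert this using 1
      ring))
  have u1 := c1.unique (key ▸ c3.shift γ)
  have u2 := c1.unique c4
  have u3 := b1.unique (by
    have := c3.add c2
    rwa [sub_add_sub_cancel] at this)
  set r := (Finset.univ : Finset ι).card
  have two : (2 : MvPolynomial ι ℤ) ^ r = ((2 ^ r : ℕ) : MvPolynomial ι ℤ) := by simp
  have cf : ∀ (n : ℕ) (p : MvPolynomial ι ℤ), coeff d ((n : MvPolynomial ι ℤ) * p) =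
      (n : ℤ) * coeff d p := fun n p => by
    rw [← nsmul_eq_mul, coeff_smul, nsmul_eq_mul]
  have v1 := congrArg (coeff d) u1
  have v2 := congrArg (coeff d) u2
  have v3 := congrArg (coeff d) u3
  rw [two] at v2 v3
  rw [cf, cf] at v1 v2
  rw [cf, coeff_add, cf, cf, ← add_mul] at v3
  have w1 : ρ1 + 1 = ρ3 := by exact_mod_cast mul_right_cancel₀ hd0 v1
  have w3 : 2 ^ r = ρ3 + (ρ2 + 1) := by exact_mod_cast mul_right_cancel₀ hd0 v3
  have cop : IsCoprime ((2 : ℤ) ^ r) (coeff d κ) :=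
    ((Int.prime_two.irreducible.coprime_iff_not_dvd).2 hd).pow_left
  have w2 : ((2 ^ r : ℕ) : ℤ) ∣ ((ρ1 + 1 : ℕ) : ℤ) := by
    refine IsCoprime.dvd_of_dvd_mul_right (by exact_mod_cast cop) ⟨_, v2⟩
  have w4 := Nat.le_of_dvd (by omega) (Int.natCast_dvd_natCast.1 w2)
  omega

end Crest.Agent.R180
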