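import Crest.Agent.R180.G1a
import Crest.Agent.R180.G1c
import Crest.Agent.R180.G1d
import Crest.Agent.R180.G1e
import Crest.Agent.R180.Disc
import Crest.Agent.R180.Rank

/-!
The relation scheme has a component that is good modulo two.
-/

set_option autoImplicit false
set_option linter.unusedSectionVars false

namespace Crest.Agent.R180

open MvPolynomial

variable {N k j : ℕ}

lemma rel_aa (hk : k ≤ N) {P : Type} [CommRing P] [IsDomain P] [Algebra ℚ P] {ε : P}
    {p : Hh N → P} (h : Conj k ε p) : rel (2 ^ k) (TA.tr _) (aa k ε p) = 0 := by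
  obtain ⟨g, g', b, ν, hν, h1, h2, hb, ha⟩ := h
  let K := FractionRing P
  have hinj : Function.Injective (algebraMap P K) := IsFractionRing.injective P K
  let F := bc (algebraMap P K) (fun _ : Ix N => (1 : P)) (fun _ => (1 : K)) (fun _ => map_one _)
  have hν' : algebraMap P K ν ≠ 0 := fun e => hν (hinj (by rw [e, map_zero]))
  have e1 : F g * ((algebraMap P K ν)⁻¹ • F g') = 1 := by
    rw [mul_smul_comm, ← map_mul, h1, bc_algebraMap, Algebra.smul_def, ← map_mul,
      inv_mul_cancel₀ hν', map_one]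
  have e2 : ((algebraMap P K ν)⁻¹ • F g') * F g = 1 := by
    rw [smul_mul_assoc, ← map_mul, h2, bc_algebraMap, Algebra.smul_def, ← map_mul,
      inv_mul_cancel₀ hν', map_one]
  have e3 : F (aa k ε p) = F g * (algebraMap P K ν • F b) * ((algebraMap P K ν)⁻¹ • F g') := by
    rw [ha, map_mul, map_mul, mul_smul_comm, mul_smul_comm, smul_mul_assoc, smul_smul,
      inv_mul_cancel₀ hν', one_smul]
  have e4 : algebraMap P K ν • F b ∈ TA.Supp _ (Lam N k : Set (Hh N)) :=
    Submodule.smul_mem _ _ fun χ hχ => by simp [F, hb χ hχ]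
  have e5 : F (rel (2 ^ k) (TA.tr _) (aa k ε p)) = 0 := by
    rw [bc_rel]
    change rel _ _ (F _) = 0
    rw [e3, rel_conj _ TA.tr_comm _ _ _ e1 e2, rel_eq_zero_of_Lam hk e4, mul_zero, zero_mul]
  ext χ
  have := congrArg (fun x : QA (fun _ : Ix N => (1 : K)) => x χ) e5
  simp only [F, bc_apply, TA.zero_apply] at this
  exact hinj (by rw [this, TA.zero_apply, map_zero])

lemma monomial_eq_tpow {P : Type} [CommRing P] (γ : Ix N →₀ ℕ) (a : P) :
    monomial γ a = C a * tpow (X : Ix N → MvPolynomial (Ix N) P) γ := by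
  rw [monomial_eq, Finsupp.prod_fintype _ _ (by simp), tpow]

theorem rel_Tt_mem (hN : 0 < N) (hk : k ≤ N) (hj : 1 ≤ j) {P : Type} [CommRing P] [IsDomain P]
    [Algebra ℚ P] {ε : P} {p : Hh N → P} (h : Conj k ε p) (χ : Hh N) :
    rel (2 ^ k) (TA.tr _) (Tt N k) χ ∈ RingHom.ker ((W1 hN k hj).hmap ℚ (pp ε p)) := by
  let ψ := ((W1 hN k hj).hmap ℚ (pp ε p)).toRingHom
  have hψ : ∀ v, ψ (X v) = monomial ((W1 hN k hj).w v) (pp ε p v) := (W1 hN k hj).hmap_X _
  have hs : ∀ i, ψ (sS N i) = X i ^ 2 := fun i => by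
    rw [hψ, X_pow_eq_monomial]; rfl
  let F := bc (C : P →+* MvPolynomial (Ix N) P) (fun _ : Ix N => (1 : P)) (fun _ => 1)
    (fun _ => map_one _)
  have e1 : rs ψ (sS N) X hs (Tt N k) =
      tpow (X : Ix N → MvPolynomial (Ix N) P) ((j + 1) • Del N) • F (aa k ε p) := by
    ext1 χ
    simp only [rs_apply, Tt, TA.mk_apply, TA.smul_apply, F, bc_apply, aa, smul_eq_mul]
    split_ifs with hχ
    · rw [hψ, monomial_eq_tpow, mul_assoc, ← tpow_add, mul_comm]
      simp only [W1, pp, if_pos hχ]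
      rw [tsub_add_cancel_of_le (lift_le χ (by omega))]
    · rw [map_mul, hψ, hψ, monomial_eq_tpow, monomial_eq_tpow]
      simp only [W1, pp, if_neg hχ]
      rw [map_mul, add_smul, one_smul, tpow_add, ← tsub_add_cancel_of_le (lift_le χ hj), tpow_add,
        tsub_add_cancel_of_le (lift_le χ hj)]
      ring
  have e2 : rs ψ (sS N) X hs (rel (2 ^ k) (TA.tr _) (Tt N k)) = 0 := by
    rw [rs_rel, e1, rel_smul, ← bc_rel, rel_aa hk h, map_zero, smul_zero]
  have e3 := congrArg (fun x : QA (fun _ : Ix N => (1 : MvPolynomial (Ix N) P)) => x χ) e2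
  simp only [rs_apply, TA.zero_apply] at e3
  exact (mul_eq_zero.1 e3).resolve_right (tpow_ne_zero (fun i => X_ne_zero i) _)

lemma relP_map {K K' B B' : Type*} [CommRing K] [Algebra ℚ K] [CommRing K'] [Algebra ℚ K']
    [Ring B] [Algebra K B] [Ring B'] [Algebra K' B'] (f : K →+* K') (F : B →+* B')
    (τ : B →ₗ[K] K) (τ' : B' →ₗ[K'] K') (hτ : ∀ a, τ' (F a) = f (τ a)) (m : ℕ) (a : B) :
    (relP m τ a).map f = relP m τ' (F a) := by
  simp only [relP, Polynomial.map_sum, Polynomial.map_mul, Polynomial.map_pow, Polynomial.map_X,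
    Polynomial.map_C, map_mul f, map_pow f, map_neg f, map_one f, newtonE_map, map_natCast,
    ← hτ, map_pow F]

/-- The variables that carry the discriminant. -/
def JV (N k : ℕ) : Finset (Sv N) :=
  Finset.univ.image Sum.inl ∪ (Lam N k).image fun χ => .inr (some χ)

theorem exists_disc_Bt (hk : k ≤ N) : ∃ h : MvPolynomial (Sv N) ℚ, h ≠ 0 ∧
    h ∈ supported ℚ (JV N k : Set (Sv N)) ∧
    (∃ b' : QA (sS N), b' * Polynomial.aeval (Bt N k)
      (Polynomial.derivative (relP (2 ^ k) (TA.tr _) (Bt N k))) = algebraMap _ _ h) ∧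
    ∀ χ ∉ Per N k, ∃ l ∈ TA.Supp _ (Lam N k : Set (Hh N)),
      l * (sg _ χ (Bt N k) - Bt N k) = algebraMap _ _ h := by
  let f : MvPolynomial (Sv N) ℚ →ₐ[ℚ] MvPolynomial (Hh N) ℚ := aeval fun v => match v with
    | .inl _ => 1
    | .inr none => 0
    | .inr (some χ) => if χ ∈ Lam N k then X χ else 0
  let κ : MvPolynomial (Sv N) ℚ →ₐ[ℚ] MvPolynomial (Sv N) ℚ :=
    aeval fun v => if v ∈ JV N k then X v else 0
  have hJ1 : ∀ i, (.inl i : Sv N) ∈ JV N k := fun i => by simp [JV]
  have hJ2 : (.inr none : Sv N) ∉ JV N k := by simp [JV]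
  have hJ3 : ∀ χ, (.inr (some χ) : Sv N) ∈ JV N k ↔ χ ∈ Lam N k := fun χ => by simp [JV]
  have hfκ : f.comp κ = f := by
    ext1 v
    rcases v with i | _ | χ
    · simp [κ, hJ1]
    · simp [κ, f, hJ2]
    · by_cases h : χ ∈ Lam N k <;> simp [κ, f, hJ3, h]
  obtain ⟨h, h1, ⟨b', h2⟩, h3⟩ := exists_disc hk (Bt_mem (N := N) (k := k)) f.toRingHom
    (fun i => by simp [f]) (by
      intro η hη η' hη' hne e
      obtain ⟨l, hl, hom⟩ := exists_om_Lam (add_mem_Psi hη hη') (fun h0 => hne (by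
        have := congrArg (· + η') h0
        simpa [add_assoc, Hh_add_self] using this))
      have key : ∀ θ : Hh N, eval (Pi.single l (1 : ℚ))
          (∑ l', f.toRingHom (Bt N k l') * sgn _ (om θ l')) = sgn ℚ (om θ l) := by
        intro θ
        rw [map_sum, Finset.sum_eq_single l]
        · simp [Bt, f, hl]
        · intro l' _ hl'
          by_cases h : l' ∈ Lam N k <;> simp [Bt, f, h, hl']
        · simp
      have e' := congrArg (eval (Pi.single l (1 : ℚ))) e
      rw [key, key] at e'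
      rw [om_add_left] at hom
      have e2 := sgn_add (R := ℚ) (om η l) (om η' l)
      rw [hom, sgn_one, e', sgn_mul_self] at e2
      norm_num at e2)
  have hs : ∀ i, κ.toRingHom (sS N i) = sS N i := fun i => by simp [κ, hJ1]
  let F := bc κ.toRingHom (sS N) (sS N) hs
  have hFB : F (Bt N k) = Bt N k := by
    ext1 χ
    by_cases h : χ ∈ Lam N k <;> simp [F, Bt, κ, hJ3, h]
  refine ⟨κ h, fun e => h1 ?_, ?_, ⟨F b', ?_⟩, fun χ hχ => ?_⟩
  · have : f h = f (κ h) := (DFunLike.congr_fun hfκ h).symm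
    change f h = 0
    rw [this, e, map_zero]
  · generalize h = r
    induction r using MvPolynomial.induction_on with
    | C a => simp only [κ, algHom_C]; exact Subalgebra.algebraMap_mem _ _
    | add a b ha hb => rw [map_add]; exact add_mem ha hb
    | mul_X a v ha =>
      rw [map_mul]
      refine mul_mem ha ?_
      simp only [κ, aeval_X]
      split_ifs with hv
      · exact X_mem_supported.2 hv
      · exact zero_mem _
  · have := congrArg F h2
    rw [map_mul, bc_algebraMap, Polynomial.map_aeval_eq_aeval_map (φ := κ.toRingHom)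
      (RingHom.ext fun r => (bc_algebraMap hs r).symm), ← Polynomial.derivative_map,
      relP_map κ.toRingHom F _ (TA.tr _) (fun a => TA.tr_map a), hFB] at this
    exact this
  · obtain ⟨l, hl, e⟩ := h3 χ hχ
    refine ⟨F l, fun a ha => by simp [F, hl a ha], ?_⟩
    have := congrArg F e
    rw [map_mul, map_sub, bc_algebraMap, hFB] at this
    rw [← show F (sg _ χ (Bt N k)) = sg _ χ (Bt N k) from ?_]
    · exact this
    · conv_rhs => rw [← hFB]
      ext1 a
      simp only [F, bc_apply, sg_apply, map_mul, map_sgn]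

/-- Killing the linear forms of the isotropic positions. -/
noncomputable def killL (N k : ℕ) : MvPolynomial (Ix N) (ZMod 2) →+* MvPolynomial (Ix N) (ZMod 2) :=
  (aeval fun i : Ix N => if i.1.val < k ∧ i.2 = false then (0 : MvPolynomial (Ix N) (ZMod 2))
    else X i : MvPolynomial (Ix N) (ZMod 2) →ₐ[ZMod 2] _).toRingHom

lemma killL_lin (γ : Ix N →₀ ℕ) : ((killL N k).comp (ev2 (Ix N))) (lin γ) =
    ∑ i, C (γ i : ZMod 2) * if i.1.val < k ∧ i.2 = false then 0 else X i := by
  simp [killL, ev2, lin]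

lemma cast_sub_lift (hj : 1 ≤ j) (χ : Hh N) (i : Ix N) :
    (((j • Del N - lift χ) i : ℕ) : ZMod 2) = χ i := by
  have h := lift_le χ hj i
  simp only [Finsupp.coe_tsub, Pi.sub_apply]
  rw [Nat.cast_sub h]
  simp only [Finsupp.coe_smul, Pi.smul_apply, Del_apply, smul_eq_mul, Nat.cast_mul, lift_apply,
    ZMod.natCast_val, ZMod.cast_id', id_eq]
  rw [show ((2 : ℕ) : ZMod 2) = 0 from rfl, mul_zero, zero_sub]
  rcases zmod2_cases (χ i) with h | h <;> rw [h] <;> rfl

lemma Wt.Good.of_comp {ι σ K Ω Ω' : Type} [Fintype ι] [DecidableEq ι] [Fintype σ] [DecidableEq σ]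
    [Field K] [CommRing Ω] [CommRing Ω'] {ev : MvPolynomial ι ℤ →+* Ω} (g : Ω →+* Ω')
    {W : Wt σ ι} {𝒥 : Finset σ} {I : Ideal (MvPolynomial σ K)} {c : ℕ}
    (h : W.Good (g.comp ev) 𝒥 I c) : W.Good ev 𝒥 I c := by
  obtain ⟨h1, h2, h3, h4, h5, κ, h6, h7⟩ := h
  exact ⟨h1, h2, h3, h4, h5, κ, h6, fun e => h7 (by rw [RingHom.comp_apply, e, map_zero])⟩

theorem exists_good_rel (hN : 0 < N) (hk : k ≤ N) (hj : 1 ≤ j) :
    ∃ (I : Ideal (MvPolynomial (Sv N) ℚ)) (c : ℕ),
      (W1 hN k hj).Good (ev2 (Ix N)) Finset.univ I c ∧ c * 2 ^ k ≤ 4 ^ N ∧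
      ∀ χ, rel (2 ^ k) (TA.tr _) (Tt N k) χ ∈ I := by
  obtain ⟨P, _, _, _, ε, p, hε, hc, hs⟩ := exists_family N k
  obtain ⟨h, h0, hsupp, ⟨b', hb'⟩, hl⟩ := exists_disc_Bt hk
  set W := W1 hN k hj with hW
  have hp : (RingHom.ker (W.hmap ℚ (pp ε p))).IsPrime := RingHom.ker_isPrime _
  have hεI : X (.inr none) ∉ RingHom.ker (W.hmap ℚ (pp ε p)) := by
    rw [RingHom.mem_ker, W.hmap_X, monomial_eq_zero]
    exact hε
  have hrel := rel_Tt_mem hN hk hj hc
  refine ⟨RingHom.ker (W.hmap ℚ (pp ε p)), (NV N k).card, Wt.Good.of_comp (killL N k) ?_, ?_, hrel⟩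
  · refine W.good_of_degeneration hp (W.hom_ker_hmap _) (.inr none) hεI (NV N k) (by simp [NV])
      (W.gk_of_dependent (W.hom_ker_hmap _) (Gen.univ _) _ fun τ _ hτ =>
        dependent_ker hN hj hε hc τ hτ)
      (ker_le_varI hN hj hs h0 hl) ?_ (JV N k) (by simp [JV]) ?_ h hsupp h0
      (mul_mem_of_rel hk hp hεI hrel hb')
    · intro v hv e
      obtain ⟨χ, hχ, rfl⟩ := Finset.mem_image.1 hv
      have hχ' := (Finset.mem_sdiff.1 hχ).2
      rw [mem_Lam] at hχ'
      push Not at hχ'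
      obtain ⟨i, hi, hi'⟩ := hχ'
      have hi2 : ¬ (i.1.val < k ∧ i.2 = false) := fun h => hi' h.1 h.2
      rw [killL_lin] at e
      have e' := congrArg (eval (Pi.single i (1 : ZMod 2))) e
      rw [map_sum, Finset.sum_eq_single i] at e'
      · simp only [hW, W1] at e'
        rw [cast_sub_lift (by split_ifs <;> omega), if_neg hi2] at e'
        exact hi (by simpa using e')
      · intro i' _ hi'
        split_ifs <;> simp [hi']
      · simp
    · intro v hv
      rw [killL_lin]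
      refine Finset.sum_eq_zero fun i _ => ?_
      rcases Finset.mem_union.1 hv with hv | hv
      · obtain ⟨i', -, rfl⟩ := Finset.mem_image.1 hv
        have : (((W.w (.inl i')) i : ℕ) : ZMod 2) = 0 := by
          simp only [hW, W1, Finsupp.single_apply]
          split_ifs
          · rfl
          · rfl
        rw [this, C_0, zero_mul]
      · obtain ⟨χ, hχ, rfl⟩ := Finset.mem_image.1 hv
        simp only [hW, W1]
        rw [cast_sub_lift (by split_ifs <;> omega)]
        by_cases h : χ i = 0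
        · rw [h, C_0, zero_mul]
        · rw [if_pos (mem_Lam.1 hχ i h), mul_zero]
  · refine le_trans (Nat.mul_le_mul_right _ ?_) (card_Per hk)
    exact Finset.card_image_le.trans (Finset.card_le_card Finset.sdiff_subset)

end Crest.Agent.R180
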