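import Crest.Agent.R180.Univ

/-!
Existence of the family of conjugates.
-/

set_option autoImplicit false
set_option linter.unusedSectionVars false

namespace Crest.Agent.R180

open MvPolynomial

lemma exists_conj_pair {ι P A : Type} [DecidableEq ι] [CommRing P] [Ring A] [Algebra P A]
    (e : ι → A) (c : ι → P) (he : ∀ i, e i * e i = algebraMap P A (c i)) (y : ι → P) (ε : P)
    (S : Finset ι) : ∃ (g g' r r' : A) (q : P), g * g' = algebraMap P A (1 + ε * q) ∧
      g' * g = algebraMap P A (1 + ε * q) ∧ g = 1 + ε • ((∑ i ∈ S, y i • e i) + ε • r) ∧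
      g' = 1 - ε • ((∑ i ∈ S, y i • e i) + ε • r') := by
  induction S using Finset.induction_on with
  | empty => exact ⟨1, 1, 0, 0, 0, by simp, by simp, by simp, by simp⟩
  | insert i S hi ih =>
    obtain ⟨g, g', r, r', q, h1, h2, h3, h4⟩ := ih
    set Y := ∑ i ∈ S, y i • e i with hY
    have k1 : (1 + (ε * y i) • e i) * (1 - (ε * y i) • e i) =
        algebraMap P A (1 - (ε * y i) ^ 2 * c i) := by
      rw [map_sub, map_one, map_mul, ← Algebra.smul_def, ← he i]
      simp only [mul_sub, add_mul, one_mul, mul_one, smul_mul_assoc, mul_smul_comm, smul_smul,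
        smul_add, sq]
      abel
    have k2 : (1 - (ε * y i) • e i) * (1 + (ε * y i) • e i) =
        algebraMap P A (1 - (ε * y i) ^ 2 * c i) := by
      rw [map_sub, map_one, map_mul, ← Algebra.smul_def, ← he i]
      simp only [sub_mul, mul_add, one_mul, mul_one, smul_mul_assoc, mul_smul_comm, smul_smul,
        smul_sub, sq]
      abel
    have k3 : (1 + ε * q) * (1 - (ε * y i) ^ 2 * c i) =
        1 + ε * (q - ε * y i ^ 2 * c i * (1 + ε * q)) := by ring
    refine ⟨g * (1 + (ε * y i) • e i), (1 - (ε * y i) • e i) * g',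
      r + (Y + ε • r) * (y i • e i), r' - (y i • e i) * (Y + ε • r'),
      q - ε * y i ^ 2 * c i * (1 + ε * q), ?_, ?_, ?_, ?_⟩
    · rw [mul_assoc, ← mul_assoc (1 + _), k1, Algebra.commutes, ← mul_assoc, h1, ← map_mul, k3]
    · rw [mul_assoc, ← mul_assoc g', h2, Algebra.commutes, ← mul_assoc, k2, ← map_mul, mul_comm,
        k3]
    · rw [Finset.sum_insert hi, ← hY, h3, mul_smul]
      generalize y i • e i = z
      simp only [mul_add, add_mul, one_mul, mul_one, smul_mul_assoc, mul_smul_comm, smul_add]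
      abel
    · rw [Finset.sum_insert hi, ← hY, h4, mul_smul]
      generalize y i • e i = z
      simp only [mul_add, sub_mul, mul_sub, one_mul, mul_one, smul_mul_assoc, mul_smul_comm,
        smul_add, smul_sub]
      abel

lemma conj_expand {P A : Type} [CommRing P] [Ring A] [Algebra P A] (ε : P) (Y r r' b : A) :
    (1 + ε • (Y + ε • r)) * b * (1 - ε • (Y + ε • r')) =
      b + ε • (Y * b - b * Y + ε • (r * b - b * r' - (Y + ε • r) * b * (Y + ε • r'))) := by
  simp only [mul_add, add_mul, mul_sub, one_mul, mul_one, smul_mul_assoc, mul_smul_comm,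
    smul_add, smul_sub]
  abel

theorem exists_family (N k : ℕ) : ∃ (P : Type) (_ : CommRing P) (_ : IsDomain P) (_ : Algebra ℚ P)
    (ε : P) (p : Hh N → P), ε ≠ 0 ∧ Conj k ε p ∧ Spec k ε p := by
  let P := MvPolynomial (Option (Hh N ⊕ Hh N)) ℚ
  let ε : P := X none
  let y : Hh N → P := fun χ => X (some (.inl χ))
  let b : QA (fun _ : Ix N => (1 : P)) :=
    TA.mk _ fun χ => if χ ∈ Lam N k then X (some (.inr χ)) else 0
  obtain ⟨g, g', r, r', q, h1, h2, h3, h4⟩ :=
    exists_conj_pair (A := QA (fun _ : Ix N => (1 : P))) (fun χ => TA.E _ χ) _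
      (fun χ => E_mul_self χ) y ε Finset.univ
  have hY : (∑ χ, y χ • TA.E _ χ : QA (fun _ : Ix N => (1 : P))) = TA.mk _ y :=
    TA.sum_E (TA.mk _ y)
  rw [hY] at h3 h4
  set Y : QA (fun _ : Ix N => (1 : P)) := TA.mk _ y with hYd
  set w := r * b - b * r' - (Y + ε • r) * b * (Y + ε • r') with hw
  set v := Y * b - b * Y + ε • w with hv
  have key : g * b * g' = b + ε • v := by rw [h3, h4, conj_expand]
  refine ⟨P, inferInstance, inferInstance, inferInstance, ε,
    fun χ => if χ ∈ Lam N k then b χ + ε * v χ else v χ, X_ne_zero _, ?_, ?_⟩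
  · refine ⟨g, g', b, 1 + ε * q, ?_, h1, h2, fun χ h => if_neg h, ?_⟩
    · intro h
      have := congrArg constantCoeff h
      simp [ε] at this
    · rw [key]
      ext1 χ
      simp only [aa, TA.mk_apply, TA.add_apply, TA.smul_apply, smul_eq_mul]
      split_ifs with h
      · rfl
      · have : b χ = 0 := if_neg h
        rw [this, zero_add]
  · intro b0 Y0 hb0
    let θ : P →+* ℚ := eval (fun o : Option (Hh N ⊕ Hh N) => match o with
      | none => (0 : ℚ)
      | some (.inl χ) => Y0 χ
      | some (.inr χ) => b0 χ)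
    have hε : θ ε = 0 := eval_X _
    have hs : ∀ i : Ix N, θ ((fun _ : Ix N => (1 : P)) i) = (fun _ : Ix N => (1 : ℚ)) i :=
      fun _ => map_one θ
    have hb : bc θ _ _ hs b = b0 := by
      ext1 χ
      rw [bc_apply]
      by_cases h : χ ∈ Lam N k
      · have : b χ = X (some (.inr χ)) := if_pos h
        rw [this]; exact eval_X _
      · have : b χ = 0 := if_neg h
        rw [this, map_zero, hb0 χ h]
    have hYY : bc θ _ _ hs Y = Y0 := by
      ext1 χ
      rw [bc_apply, hYd, TA.mk_apply]
      exact eval_X _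
    have hvv : bc θ _ _ hs v = Y0 * b0 - b0 * Y0 := by
      rw [hv, map_add, bc_smul, hε, zero_smul, add_zero, map_sub, map_mul, map_mul, hb, hYY]
    refine ⟨θ, hε, fun χ => ?_⟩
    dsimp only
    split_ifs with h
    · rw [map_add, map_mul, hε, zero_mul, add_zero, ← bc_apply hs, hb]
    · rw [← bc_apply hs, hvv]

end Crest.Agent.R180
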