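import Crest.Agent.R180.HT
import Crest.Agent.R180.Rank

/-!
Over a prime that is good modulo two, non-zero homogeneous elements become units.
-/

set_option autoImplicit false
set_option linter.unusedSectionVars false

namespace Crest.Agent.R180

open MvPolynomial

variable {N : ℕ} {σ : Type} [Fintype σ] [DecidableEq σ]

open Classical in
/-- Shifted homogeneous projection. -/
noncomputable def g3sp (W : Wt σ (Ix N)) (β γ : Ix N →₀ ℕ) :
    MvPolynomial σ ℚ →ₗ[ℚ] MvPolynomial σ ℚ :=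
  if β ≤ γ then (W.G ℚ).π (γ - β) else 0

lemma g3sp_eq_self_iff (W : Wt σ (Ix N)) (β γ : Ix N →₀ ℕ) (f : MvPolynomial σ ℚ) :
    g3sp W β γ f = f ↔ HS W β γ f := by
  unfold g3sp
  split_ifs with hle
  · rw [W.π_eq_self_iff]
    refine ⟨fun h => ?_, HS.isHom⟩
    have := HS.of_isHom (β := β) h
    rwa [tsub_add_cancel_of_le hle] at this
  · refine ⟨fun h => ?_, fun h => ?_⟩
    · rw [← h]; exact HS.zero _ _
    · ext d
      by_contra hd
      have hd' : coeff d f ≠ 0 := fun h0 => hd (by simp [h0])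
      exact hle (h d hd' ▸ le_add_self)

lemma g3sp_π (W : Wt σ (Ix N)) (β γ δ : Ix N →₀ ℕ) (f : MvPolynomial σ ℚ) :
    g3sp W β γ ((W.G ℚ).π δ f) = if γ = δ + β then (W.G ℚ).π δ f else 0 := by
  unfold g3sp
  by_cases hle : β ≤ γ
  · rw [if_pos hle, Grading.π_of_hom ((W.G ℚ).idem δ f)]
    by_cases h : γ = δ + β
    · rw [if_pos h, if_pos (by rw [h, add_tsub_cancel_right])]
    · rw [if_neg h, if_neg fun e => h (by rw [← e, tsub_add_cancel_of_le hle])]
  · rw [if_neg hle, if_neg fun e : γ = δ + β => hle (e ▸ le_add_self)]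
    rfl

lemma g3sp_sp (W : Wt σ (Ix N)) (β γ γ' : Ix N →₀ ℕ) (f : MvPolynomial σ ℚ) :
    g3sp W β γ (g3sp W β γ' f) = if γ = γ' then g3sp W β γ' f else 0 := by
  by_cases hle : β ≤ γ'
  · have : g3sp W β γ' f = (W.G ℚ).π (γ' - β) f := by rw [g3sp, if_pos hle]
    rw [this, g3sp_π, tsub_add_cancel_of_le hle]
  · have : g3sp W β γ' f = 0 := by rw [g3sp, if_neg hle]; rfl
    rw [this]; simp

lemma g3sp_mem {W : Wt σ (Ix N)} {𝔭 : Ideal (MvPolynomial σ ℚ)} (h : W.IHom 𝔭)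
    (β γ : Ix N →₀ ℕ) {f : MvPolynomial σ ℚ} (hf : f ∈ 𝔭) : g3sp W β γ f ∈ 𝔭 := by
  unfold g3sp
  split_ifs
  · exact h _ f hf
  · exact zero_mem _

/-- The grading of the generic algebra. -/
noncomputable def g3G (W : Wt σ (Ix N)) (s : Ix N → σ) : Grading ℚ (QA (sX s)) (Ix N) where
  π γ :=
    { toFun := fun x => TA.mk _ fun χ => g3sp W (lift χ) γ (x χ)
      map_add' := fun x y => by ext χ : 1; simp
      map_smul' := fun r x => by ext χ : 1; simp }
  idem γ x := by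
    ext χ : 1
    simp [g3sp_sp]
  orth γ γ' x h := by
    ext χ : 1
    simp [g3sp_sp, h]
  fin x := by
    choose t ht using fun χ => (W.G ℚ).fin (x χ)
    refine ⟨Finset.univ.biUnion fun χ => (t χ).image (· + lift χ), ?_⟩
    ext χ : 1
    rw [TA.sum_apply]
    simp only [LinearMap.coe_mk, AddHom.coe_mk, TA.mk_apply]
    conv_lhs => rw [← ht χ]
    conv_rhs => rw [← ht χ]
    simp only [map_sum, g3sp_π]
    rw [Finset.sum_comm]
    refine Finset.sum_congr rfl fun δ hδ => ?_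
    rw [Finset.sum_ite_eq', if_pos]
    exact Finset.mem_biUnion.2 ⟨χ, Finset.mem_univ _, Finset.mem_image_of_mem _ hδ⟩
  fd γ := by
    have := fun χ => (W.G ℚ).fd (γ - lift χ)
    refine Submodule.finiteDimensional_of_le (S₂ := ⨆ χ : Hh N,
      (LinearMap.range ((W.G ℚ).π (γ - lift χ))).map
        ((LinearMap.toSpanSingleton (MvPolynomial σ ℚ) (QA (sX s)) (TA.E _ χ)).restrictScalars ℚ))
      ?_
    rintro _ ⟨x, rfl⟩
    rw [← TA.sum_E (LinearMap.mk _ _ x)]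
    refine Submodule.sum_mem _ fun χ _ => Submodule.mem_iSup_of_mem χ ⟨_, ?_, rfl⟩
    simp only [LinearMap.coe_mk, AddHom.coe_mk, TA.mk_apply, g3sp]
    split_ifs
    · exact ⟨_, rfl⟩
    · exact zero_mem _

lemma g3G_apply (W : Wt σ (Ix N)) (s : Ix N → σ) (γ : Ix N →₀ ℕ) (x : QA (sX s)) (χ : Hh N) :
    (g3G W s).π γ x χ = g3sp W (lift χ) γ (x χ) := rfl

lemma g3G_eq_self_iff (W : Wt σ (Ix N)) (s : Ix N → σ) (γ : Ix N →₀ ℕ) (x : QA (sX s)) :
    (g3G W s).π γ x = x ↔ HT W s γ x := by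
  rw [TA.ext_iff]
  exact forall_congr' fun χ => g3sp_eq_self_iff W _ _ _

/-- Elements whose coefficients outside `S` lie in `𝔭`. -/
noncomputable def g3P (s : Ix N → σ) (𝔭 : Ideal (MvPolynomial σ ℚ)) (S : Finset (Hh N)) :
    Submodule (MvPolynomial σ ℚ) (QA (sX s)) where
  carrier := {x | ∀ χ, χ ∉ S → x χ ∈ 𝔭}
  add_mem' hx hy χ hχ := add_mem (hx χ hχ) (hy χ hχ)
  zero_mem' _ _ := zero_mem _
  smul_mem' r _ hx χ hχ := 𝔭.mul_mem_left r (hx χ hχ)

lemma mem_g3P {s : Ix N → σ} {𝔭 : Ideal (MvPolynomial σ ℚ)} {S : Finset (Hh N)} {x : QA (sX s)} :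
    x ∈ g3P s 𝔭 S ↔ ∀ χ, χ ∉ S → x χ ∈ 𝔭 := Iff.rfl

lemma g3P_hom {W : Wt σ (Ix N)} {𝔭 : Ideal (MvPolynomial σ ℚ)} (h : W.IHom 𝔭) (s : Ix N → σ)
    (S : Finset (Hh N)) : (g3G W s).Hom ((g3P s 𝔭 S).restrictScalars ℚ) :=
  fun γ _ hx χ hχ => g3sp_mem h _ γ (hx χ hχ)

lemma g3G_compat (W : Wt σ (Ix N)) (s : Ix N → σ) : W.Compat (g3G W s) := by
  intro r β γ x hr hx
  rw [g3G_eq_self_iff] at hx ⊢
  exact hx.smul hr

lemma g3P_insert (s : Ix N → σ) (𝔭 : Ideal (MvPolynomial σ ℚ)) (S : Finset (Hh N)) (χ : Hh N) :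
    g3P s 𝔭 (insert χ S) = g3P s 𝔭 S ⊔ Submodule.span (MvPolynomial σ ℚ) {TA.E _ χ} := by
  apply le_antisymm
  · intro x hx
    have : x = (x - x χ • TA.E _ χ) + x χ • TA.E _ χ := by abel
    rw [this]
    refine Submodule.add_mem_sup (fun ψ hψ => ?_)
      (Submodule.smul_mem _ _ (Submodule.mem_span_singleton_self _))
    rw [TA.sub_apply, TA.smul_apply, TA.E_apply]
    split_ifs with e
    · subst e; simp
    · simpa using hx ψ (by simp [e, hψ])
  · refine sup_le (fun x hx ψ hψ => hx ψ fun h => hψ (Finset.mem_insert_of_mem h)) ?_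
    rw [Submodule.span_singleton_le_iff_mem]
    intro ψ hψ
    rw [TA.E_apply, if_neg fun e => hψ (by simp [e])]
    exact zero_mem _

lemma g3P_colon (s : Ix N → σ) (𝔭 : Ideal (MvPolynomial σ ℚ)) {S : Finset (Hh N)} {χ : Hh N}
    (hχ : χ ∉ S) : colon (g3P s 𝔭 S) (TA.E _ χ) = 𝔭 := by
  ext r
  rw [mem_colon', mem_g3P]
  refine ⟨fun h => by simpa [TA.E_apply] using h χ hχ, fun h ψ _ => ?_⟩
  rw [TA.smul_apply, smul_eq_mul]
  exact 𝔭.mul_mem_right _ h

lemma g3P_H {W : Wt σ (Ix N)} {𝔭 : Ideal (MvPolynomial σ ℚ)} (h : W.IHom 𝔭) (s : Ix N → σ)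
    (S : Finset (Hh N)) :
    (g3G W s).H ((g3P s 𝔭 S).restrictScalars ℚ) - (g3G W s).H ((g3P s 𝔭 ∅).restrictScalars ℚ) =
      W.HQ 𝔭 * ∑ χ ∈ S, MvPowerSeries.monomial (lift χ) (1 : ℤ) := by
  induction S using Finset.induction_on with
  | empty => simp
  | insert χ S hχ ih =>
    have := (g3G_compat W s).H_sup_span (g3P_hom h s S)
      ((g3G_eq_self_iff W s _ _).2 (HT.E χ))
    rw [g3P_colon s 𝔭 hχ, ← g3P_insert] at this
    rw [Finset.sum_insert hχ]
    linear_combination this + ih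

lemma g3_prod_monomial (t : Finset (Ix N)) (d : Ix N → Ix N →₀ ℕ) :
    ∏ i ∈ t, MvPowerSeries.monomial (d i) (1 : ℤ) = MvPowerSeries.monomial (∑ i ∈ t, d i) 1 := by
  induction t using Finset.induction_on with
  | empty => simp
  | insert i t hi ih =>
    rw [Finset.prod_insert hi, Finset.sum_insert hi, ih, MvPowerSeries.monomial_mul_monomial,
      one_mul]

lemma g3_sum_monomial : ∑ χ : Hh N, MvPowerSeries.monomial (lift χ) (1 : ℤ) =
    ∏ i : Ix N, (1 + MvPowerSeries.monomial (Finsupp.single i 1) (1 : ℤ)) := by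
  have h1 : ∀ i : Ix N, (1 + MvPowerSeries.monomial (Finsupp.single i 1) (1 : ℤ)) =
      ∑ x : ZMod 2, MvPowerSeries.monomial (Finsupp.single i x.val) (1 : ℤ) := by
    intro i
    have : (Finset.univ : Finset (ZMod 2)) = {0, 1} := by decide
    rw [this, Finset.sum_pair (by decide)]
    simp [show (1 : ZMod 2).val = 1 from rfl]
  simp only [h1]
  rw [Finset.prod_univ_sum, Fintype.piFinset_univ]
  refine Finset.sum_congr rfl fun χ _ => ?_
  have : lift χ = ∑ i, Finsupp.single i (χ i).val := by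
    ext i
    simp [Finsupp.single_apply]
  rw [g3_prod_monomial, this]

lemma g3_lift_single (i : Ix N) : lift (Pi.single i 1 : Hh N) = Finsupp.single i 1 := by
  ext j
  by_cases h : j = i
  · subst h; simp [show (1 : ZMod 2).val = 1 from rfl]
  · simp [h]

lemma g3_qc_single {R : Type} [CommRing R] (t : Ix N → R) (i : Ix N) :
    (qc t).c (Pi.single i 1) (Pi.single i 1) = t i := by
  have hb : bf (Pi.single i 1 : Hh N) (Pi.single i 1) = 0 := by
    refine Finset.sum_eq_zero fun a _ => ?_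
    by_cases h : (a, true) = i
    · subst h; simp
    · simp [h]
  rw [qc_c, hb, sgn_zero, one_mul, Finset.prod_eq_single i]
  · simp [show (1 : ZMod 2).val = 1 from rfl]
  · intro j _ hj
    simp [hj]
  · simp

lemma g3_inj {W : Wt σ (Ix N)} {𝔭 : Ideal (MvPolynomial σ ℚ)} {c : ℕ}
    (h : W.Good (ev2 (Ix N)) Finset.univ 𝔭 c) {s : Ix N → σ} (hs : Function.Injective s)
    (hw : ∀ i, W.w (s i) = Finsupp.single i 2) {γ : Ix N →₀ ℕ} {a : QA (sX s)}
    (ha : HT W s γ a) (hne : a ∉ g3P s 𝔭 ∅) (z : QA (sX s)) (hz : z * a ∈ g3P s 𝔭 ∅) :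
    z ∈ g3P s 𝔭 ∅ := by
  have hl : ∀ x y : QA (sX s), y ∈ g3P s 𝔭 ∅ → x * y ∈ g3P s 𝔭 ∅ := by
    intro x y hy χ _
    rw [TA.mul_apply]
    exact 𝔭.sum_mem fun ψ _ => 𝔭.mul_mem_left _ (hy _ (by simp))
  have hr : ∀ x y : QA (sX s), x ∈ g3P s 𝔭 ∅ → x * y ∈ g3P s 𝔭 ∅ := by
    intro x y hx χ _
    rw [TA.mul_apply]
    exact 𝔭.sum_mem fun ψ _ => 𝔭.mul_mem_right _ (𝔭.mul_mem_left _ (hx _ (by simp)))
  refine h.inj_of_clifford s hs hw (g3G W s) (g3G_compat W s)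
    (fun i => LinearMap.mulLeft (MvPolynomial σ ℚ) (TA.E _ (Pi.single i 1))) ?_ ?_ ?_
    (g3P s 𝔭 ∅) (g3P_hom h.hom s ∅) (fun i x hx => hl _ _ hx) ?_ ?_
    (LinearMap.mulRight (MvPolynomial σ ℚ) a) γ ?_ ?_ (fun x hx => hr _ _ hx)
    ⟨1, by simpa using hne⟩ z hz
  · intro i β x hx
    rw [g3G_eq_self_iff] at hx ⊢
    have := HT.mul hw (HT.E (W := W) (s := s) (Pi.single i 1)) hx
    rwa [g3_lift_single, add_comm] at this
  · intro i x
    simp only [LinearMap.mulLeft_apply]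
    rw [← mul_assoc, E_mul_self, g3_qc_single, Algebra.smul_def]
  · intro i j
    refine ⟨sgn ℚ (om (Pi.single i 1) (Pi.single j 1)), fun x => ?_⟩
    simp only [LinearMap.mulLeft_apply]
    rw [← mul_assoc, ← mul_assoc, TA.E_mul_E, TA.E_mul_E, qc_comm, add_comm, mul_smul,
      smul_mul_assoc, ← map_sgn (algebraMap ℚ (MvPolynomial σ ℚ)), algebraMap_smul]
  · intro r x
    constructor
    · intro hrx
      by_cases hr' : r ∈ 𝔭
      · exact Or.inl hr'
      · exact Or.inr fun χ hχ => (h.prime.mem_or_mem (hrx χ hχ)).resolve_left hr'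
    · rintro (hr' | hx)
      · exact fun χ _ => 𝔭.mul_mem_right _ hr'
      · exact Submodule.smul_mem _ _ hx
  · have := g3P_H h.hom s Finset.univ
    rw [g3_sum_monomial] at this
    rw [← this]
    congr 2
    ext x
    simp [mem_g3P]
  · intro β x hx
    rw [g3G_eq_self_iff] at hx ⊢
    exact HT.mul hw hx ha
  · intro i x
    simp [mul_assoc]

theorem isUnit_of_HT {W : Wt σ (Ix N)} {𝔭 : Ideal (MvPolynomial σ ℚ)} {c : ℕ}
    (h : W.Good (ev2 (Ix N)) Finset.univ 𝔭 c) {s : Ix N → σ} (hs : Function.Injective s)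
    (hw : ∀ i, W.w (s i) = Finsupp.single i 2) {K : Type} [Field K]
    (f : MvPolynomial σ ℚ →+* K) (hker : RingHom.ker f = 𝔭)
    (hsurj : ∀ z : K, ∃ a b, f b ≠ 0 ∧ z * f b = f a) {γ : Ix N →₀ ℕ} {a : QA (sX s)}
    (ha : HT W s γ a) (hne : bc f (sX s) (fun i => f (X (s i))) (fun _ => rfl) a ≠ 0) :
    IsUnit (bc f (sX s) (fun i => f (X (s i))) (fun _ => rfl) a) := by
  set F := bc f (sX s) (fun i => f (X (s i))) (fun _ => rfl) with hF
  have hP : ∀ x, x ∈ g3P s 𝔭 ∅ ↔ F x = 0 := by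
    intro x
    rw [mem_g3P, TA.ext_iff, ← hker]
    simp [hF, RingHom.mem_ker]
  have hden : ∀ z', ∃ (z : QA (sX s)) (b : K), b ≠ 0 ∧ b • z' = F z := by
    intro z'
    choose u v hv huv using fun χ => hsurj (z' χ)
    refine ⟨TA.mk _ fun χ => u χ * ∏ ψ ∈ Finset.univ.erase χ, v ψ, ∏ ψ, f (v ψ),
      Finset.prod_ne_zero_iff.2 fun ψ _ => hv ψ, ?_⟩
    ext χ
    rw [hF, bc_apply, TA.mk_apply, TA.smul_apply, map_mul, map_prod, ← huv,
      ← Finset.mul_prod_erase _ _ (Finset.mem_univ χ), smul_eq_mul]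
    ring
  have hinj : Function.Injective (LinearMap.mulRight K (F a)) := by
    rw [injective_iff_map_eq_zero]
    intro z' hz'
    obtain ⟨z, b, hb, e⟩ := hden z'
    have h1 : F (z * a) = 0 := by
      rw [map_mul, ← e, smul_mul_assoc]
      rw [LinearMap.mulRight_apply] at hz'
      rw [hz', smul_zero]
    have h2 := (hP z).1 (g3_inj h hs hw ha (fun h0 => hne ((hP a).1 h0)) z ((hP _).2 h1))
    rw [← e] at h2
    exact (smul_eq_zero.1 h2).resolve_left hb
  obtain ⟨z, hz⟩ := LinearMap.injective_iff_surjective.1 hinj 1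
  rw [LinearMap.mulRight_apply] at hz
  have hz' : F a * z = 1 := by
    apply hinj
    simp only [LinearMap.mulRight_apply]
    rw [mul_assoc, hz, mul_one, one_mul]
  exact ⟨⟨F a, z, hz', hz⟩, rfl⟩

end Crest.Agent.R180
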