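import Crest.Agent.R180.Series

/-!
Multigraded vector spaces given by projections, Hilbert series of homogeneous subspaces, and the
Hilbert–Serre theorem with the order of vanishing of the K-polynomial.
-/

set_option autoImplicit false
set_option linter.unusedSectionVars false

namespace Crest.Agent.R180

open Module

variable {ι : Type} [Fintype ι] [DecidableEq ι]

/-- A grading of a vector space by `ι →₀ ℕ` with finite-dimensional pieces. -/
structure Grading (k M ι : Type*) [Field k] [AddCommGroup M] [Module k M] where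
  π : (ι →₀ ℕ) → M →ₗ[k] M
  idem : ∀ γ x, π γ (π γ x) = π γ x
  orth : ∀ γ γ' x, γ ≠ γ' → π γ (π γ' x) = 0
  fin : ∀ x, ∃ s : Finset (ι →₀ ℕ), ∑ γ ∈ s, π γ x = x
  fd : ∀ γ, Module.Finite k (LinearMap.range (π γ))

variable {k M : Type*} [Field k] [AddCommGroup M] [Module k M]

lemma finrank_eq_inf_ker_add_map {N : Type*} [AddCommGroup N] [Module k N] (V : Submodule k M)
    [Module.Finite k V] (φ : M →ₗ[k] N) :
    finrank k V = finrank k (V ⊓ LinearMap.ker φ : Submodule k M) + finrank k (V.map φ) := by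
  have h := LinearMap.finrank_range_add_finrank_ker (φ.domRestrict V)
  rw [LinearMap.range_domRestrict, LinearMap.ker_domRestrict] at h
  have e : finrank k ((LinearMap.ker φ).comap V.subtype) =
      finrank k (V ⊓ LinearMap.ker φ : Submodule k M) := by
    rw [← Submodule.finrank_map_subtype_eq, Submodule.map_comap_subtype]
  rw [← h, e, add_comm]

namespace Grading

variable (G : Grading k M ι)

/-- Homogeneous subspaces. -/
def Hom (P : Submodule k M) : Prop := ∀ γ, ∀ x ∈ P, G.π γ x ∈ P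

/-- The Hilbert series of a subspace. -/
noncomputable def H (P : Submodule k M) : MvPowerSeries ι ℤ :=
  fun γ => (finrank k (P.map (G.π γ)) : ℤ)

lemma coeff_H (P : Submodule k M) (γ : ι →₀ ℕ) :
    MvPowerSeries.coeff γ (G.H P) = (finrank k (P.map (G.π γ)) : ℤ) := rfl

/-- Operators that are homogeneous of degree `δ`. -/
def Deg (Z : M →ₗ[k] M) (δ : ι →₀ ℕ) : Prop :=
  ∀ γ x, G.π γ x = x → G.π (γ + δ) (Z x) = Z x

instance fd_map (P : Submodule k M) (γ : ι →₀ ℕ) : Module.Finite k (P.map (G.π γ)) := by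
  have := G.fd γ
  exact Submodule.finiteDimensional_of_le (LinearMap.map_le_range (f := G.π γ) (p := P))

variable {G}

lemma Hom.top : G.Hom ⊤ := fun _ _ _ => trivial

lemma Hom.bot : G.Hom ⊥ := fun _ x hx => by
  rw [Submodule.mem_bot] at hx ⊢
  rw [hx, map_zero]

lemma Hom.inf {P Q : Submodule k M} (hP : G.Hom P) (hQ : G.Hom Q) : G.Hom (P ⊓ Q) :=
  fun γ x hx => ⟨hP γ x hx.1, hQ γ x hx.2⟩

lemma Hom.sup {P Q : Submodule k M} (hP : G.Hom P) (hQ : G.Hom Q) : G.Hom (P ⊔ Q) := by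
  intro γ x hx
  obtain ⟨a, ha, b, hb, rfl⟩ := Submodule.mem_sup.1 hx
  rw [map_add]
  exact Submodule.add_mem_sup (hP γ a ha) (hQ γ b hb)

lemma mem_of_forall_π {P : Submodule k M} {x : M} (h : ∀ γ, G.π γ x ∈ P) : x ∈ P := by
  obtain ⟨s, hs⟩ := G.fin x
  rw [← hs]
  exact P.sum_mem fun γ _ => h γ

lemma eq_zero_of_forall_π {x : M} (h : ∀ γ, G.π γ x = 0) : x = 0 := by
  have : x ∈ (⊥ : Submodule k M) := mem_of_forall_π (G := G) (by simpa using h)
  simpa using this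

lemma π_of_hom {x : M} {γ : ι →₀ ℕ} (hx : G.π γ x = x) (γ' : ι →₀ ℕ) :
    G.π γ' x = if γ' = γ then x else 0 := by
  split_ifs with h
  · rw [h, hx]
  · rw [← hx, G.orth _ _ _ h]

lemma Deg.π_add {Z : M →ₗ[k] M} {δ : ι →₀ ℕ} (hZ : G.Deg Z δ) (γ : ι →₀ ℕ) (x : M) :
    G.π (γ + δ) (Z x) = Z (G.π γ x) := by
  obtain ⟨s, hs⟩ := G.fin x
  conv_lhs => rw [← hs]
  conv_rhs => rw [← hs]
  simp only [map_sum]
  refine Finset.sum_congr rfl fun β _ => ?_
  rw [π_of_hom (hZ β _ (G.idem β x)), π_of_hom (G.idem β x)]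
  by_cases h : γ = β
  · simp [h]
  · simp [h]

lemma Deg.π_of_not_le {Z : M →ₗ[k] M} {δ : ι →₀ ℕ} (hZ : G.Deg Z δ) {γ : ι →₀ ℕ} (h : ¬ δ ≤ γ)
    (x : M) : G.π γ (Z x) = 0 := by
  obtain ⟨s, hs⟩ := G.fin x
  rw [← hs]
  simp only [map_sum]
  refine Finset.sum_eq_zero fun β _ => ?_
  rw [π_of_hom (hZ β _ (G.idem β x)), if_neg]
  rintro rfl
  exact h le_add_self

lemma Hom.map {Z : M →ₗ[k] M} {δ : ι →₀ ℕ} (hZ : G.Deg Z δ) {Q : Submodule k M} (hQ : G.Hom Q) :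
    G.Hom (Q.map Z) := by
  rintro γ _ ⟨x, hx, rfl⟩
  by_cases h : δ ≤ γ
  · obtain ⟨β, rfl⟩ := exists_add_of_le h
    rw [add_comm, hZ.π_add]
    exact ⟨_, hQ β x hx, rfl⟩
  · rw [hZ.π_of_not_le h]; exact zero_mem _

lemma Hom.comap {Z : M →ₗ[k] M} {δ : ι →₀ ℕ} (hZ : G.Deg Z δ) {P : Submodule k M} (hP : G.Hom P) :
    G.Hom (P.comap Z) := by
  intro γ x hx
  rw [Submodule.mem_comap, ← hZ.π_add]
  exact hP _ _ hx

lemma Hom.map_inf {P : Submodule k M} (hP : G.Hom P) (Q : Submodule k M) (hQ : G.Hom Q)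
    (γ : ι →₀ ℕ) : (Q ⊓ P).map (G.π γ) = Q.map (G.π γ) ⊓ P := by
  apply le_antisymm
  · rintro _ ⟨x, hx, rfl⟩
    exact ⟨⟨x, hx.1, rfl⟩, hP γ x hx.2⟩
  · rintro _ ⟨⟨x, hx, rfl⟩, hx'⟩
    exact ⟨G.π γ x, ⟨hQ γ x hx, hx'⟩, G.idem γ x⟩

lemma coeff_H_sub {P Q : Submodule k M} (hP : G.Hom P) (hQ : G.Hom Q) (hle : P ≤ Q) (γ : ι →₀ ℕ) :
    MvPowerSeries.coeff γ (G.H Q - G.H P) = finrank k ((Q.map (G.π γ)).map P.mkQ) := by
  rw [map_sub, coeff_H, coeff_H, finrank_eq_inf_ker_add_map (Q.map (G.π γ)) P.mkQ,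
    Submodule.ker_mkQ, ← hP.map_inf Q hQ, inf_eq_right.2 hle]
  push_cast; ring

lemma NN_H_sub {P Q : Submodule k M} (hle : P ≤ Q) : NN (G.H Q - G.H P) := by
  intro γ
  rw [map_sub, coeff_H, coeff_H, sub_nonneg, Nat.cast_le]
  exact Submodule.finrank_mono (Submodule.map_mono hle)

lemma eq_of_H_eq {P Q : Submodule k M} (hP : G.Hom P) (hle : P ≤ Q) (h : G.H Q - G.H P = 0) :
    Q = P := by
  refine le_antisymm (fun x hx => mem_of_forall_π (G := G) fun γ => ?_) hle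
  have h1 := congrArg (MvPowerSeries.coeff γ) h
  rw [map_sub, coeff_H, coeff_H, map_zero, sub_eq_zero, Nat.cast_inj] at h1
  have h2 : P.map (G.π γ) = Q.map (G.π γ) :=
    Submodule.eq_of_le_of_finrank_eq (Submodule.map_mono hle) h1.symm
  have h3 : G.π γ x ∈ P.map (G.π γ) := h2 ▸ ⟨x, hx, rfl⟩
  obtain ⟨y, hy, e⟩ := h3
  rw [← e]; exact hP γ y hy

/-- Key identity, for a homogeneous map between two graded spaces. -/
lemma key_map {M' : Type*} [AddCommGroup M'] [Module k M'] (G' : Grading k M' ι)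
    (Z : M →ₗ[k] M') (δ : ι →₀ ℕ) (hZ : ∀ γ x, G'.π (γ + δ) (Z x) = Z (G.π γ x))
    (hZ' : ∀ γ x, ¬ δ ≤ γ → G'.π γ (Z x) = 0) {Q : Submodule k M} {P : Submodule k M'}
    (hP : G'.Hom P) (hQ : G.Hom Q) :
    MvPowerSeries.monomial δ (1 : ℤ) * (G.H Q - G.H (Q ⊓ P.comap Z)) =
      G'.H (Q.map Z ⊔ P) - G'.H P := by
  have hZQ : G'.Hom (Q.map Z) := by
    rintro γ _ ⟨x, hx, rfl⟩
    by_cases h : δ ≤ γ
    · obtain ⟨β, rfl⟩ := exists_add_of_le h
      rw [add_comm, hZ]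
      exact ⟨_, hQ β x hx, rfl⟩
    · rw [hZ' _ _ h]; exact zero_mem _
  have hPZ : G.Hom (P.comap Z) := by
    intro γ x hx
    rw [Submodule.mem_comap, ← hZ]
    exact hP _ _ hx
  ext γ
  rw [MvPowerSeries.coeff_monomial_mul, coeff_H_sub hP (hZQ.sup hP) le_sup_right]
  have e1 : ((Q.map Z ⊔ P).map (G'.π γ)).map P.mkQ = ((Q.map Z).map (G'.π γ)).map P.mkQ := by
    rw [Submodule.map_sup, Submodule.map_sup, sup_eq_left]
    rintro _ ⟨_, ⟨x, hx, rfl⟩, rfl⟩
    have : P.mkQ (G'.π γ x) = 0 := (Submodule.Quotient.mk_eq_zero _).2 (hP γ x hx)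
    rw [this]; exact zero_mem _
  rw [e1]
  split_ifs with h
  · obtain ⟨β, rfl⟩ := exists_add_of_le h
    rw [add_tsub_cancel_left, one_mul, map_sub, coeff_H, coeff_H,
      finrank_eq_inf_ker_add_map (Q.map (G.π β)) (P.mkQ ∘ₗ Z), LinearMap.ker_comp,
      Submodule.ker_mkQ, ← hPZ.map_inf Q hQ]
    have e2 : (Q.map Z).map (G'.π (δ + β)) = (Q.map (G.π β)).map Z := by
      rw [← Submodule.map_comp, ← Submodule.map_comp]
      congr 1
      ext x
      simp [add_comm δ, hZ]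
    rw [e2, Submodule.map_comp]
    push_cast; ring
  · have : (Q.map Z).map (G'.π γ) = ⊥ := by
      rw [eq_bot_iff]
      rintro _ ⟨_, ⟨x, hx, rfl⟩, rfl⟩
      rw [hZ' _ _ h]; exact zero_mem _
    rw [this, Submodule.map_bot, finrank_bot, Nat.cast_zero]

lemma key {Z : M →ₗ[k] M} {δ : ι →₀ ℕ} (hZ : G.Deg Z δ) {P Q : Submodule k M}
    (hP : G.Hom P) (hQ : G.Hom Q) :
    MvPowerSeries.monomial δ (1 : ℤ) * (G.H Q - G.H (Q ⊓ P.comap Z)) =
      G.H (Q.map Z ⊔ P) - G.H P :=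
  key_map G Z δ hZ.π_add (fun _ x h => hZ.π_of_not_le h x) hP hQ

lemma cut {Z : M →ₗ[k] M} {δ : ι →₀ ℕ} (hZ : G.Deg Z δ) {P Q : Submodule k M}
    (hP : G.Hom P) (hQ : G.Hom Q) (hinj : Q ⊓ P.comap Z = P) :
    G.H Q - G.H (Q.map Z ⊔ P) = (G.H Q - G.H P) * (1 - MvPowerSeries.monomial δ 1) := by
  have := key hZ hP hQ
  rw [hinj] at this
  linear_combination this

end Grading

/-- Subspaces stable under a finite family of operators. -/
def Stable {J : Type*} (Z : J → M →ₗ[k] M) (𝒥 : Finset J) (S : Submodule k M) : Prop :=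
  ∀ j ∈ 𝒥, ∀ x ∈ S, Z j x ∈ S

/-- Ascending chain condition for stable subspaces between `P` and `Q`. -/
def ACC {J : Type*} (Z : J → M →ₗ[k] M) (𝒥 : Finset J) (P Q : Submodule k M) : Prop :=
  {S | P ≤ S ∧ S ≤ Q ∧ Stable Z 𝒥 S}.WellFoundedOn (· > ·)

/-- The denominator attached to a finite family of degrees. -/
noncomputable def den {J : Type*} (δ : J → ι →₀ ℕ) (𝒥 : Finset J) : MvPolynomial ι ℤ :=
  ∏ j ∈ 𝒥, (1 - MvPolynomial.monomial (δ j) 1)

lemma den_insert {J : Type*} [DecidableEq J] (δ : J → ι →₀ ℕ) {𝒥 : Finset J} {x : J}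
    (hx : x ∉ 𝒥) : den δ (insert x 𝒥) = den δ 𝒥 * (1 - MvPolynomial.monomial (δ x) 1) := by
  rw [den, Finset.prod_insert hx, mul_comm, den]

lemma exists_poly_of_ACC (G : Grading k M ι) {J : Type*} (Z : J → M →ₗ[k] M)
    {P Q : Submodule k M} (hP : G.Hom P) (hQ : G.Hom Q) (hle : P ≤ Q) (h : ACC Z ∅ P Q) :
    ∃ K : MvPolynomial ι ℤ, (K : MvPowerSeries ι ℤ) = G.H Q - G.H P := by
  have main : ∀ S ∈ {S | P ≤ S ∧ S ≤ Q ∧ Stable Z ∅ S}, G.Hom S →
      ∃ K : MvPolynomial ι ℤ, (K : MvPowerSeries ι ℤ) = G.H Q - G.H S := by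
    intro S hS
    refine Set.WellFoundedOn.induction h hS
      (P := fun S => G.Hom S → ∃ K : MvPolynomial ι ℤ, (K : MvPowerSeries ι ℤ) = G.H Q - G.H S) ?_
    intro S hS ih hSh
    by_cases hQS : Q ≤ S
    · exact ⟨0, by rw [le_antisymm hS.2.1 hQS]; simp⟩
    obtain ⟨γ, hγ⟩ : ∃ γ, ¬ Q.map (G.π γ) ≤ S := by
      by_contra hc
      push Not at hc
      exact hQS fun x hx => Grading.mem_of_forall_π (G := G) fun γ => hc γ ⟨x, hx, rfl⟩
    have hhom : G.Hom (Q.map (G.π γ)) := by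
      rintro β _ ⟨x, hx, rfl⟩
      rw [Grading.π_of_hom (G.idem γ x)]
      split_ifs
      · exact ⟨x, hx, rfl⟩
      · exact zero_mem _
    have hle' : Q.map (G.π γ) ≤ Q := by
      rintro _ ⟨x, hx, rfl⟩
      exact hQ γ x hx
    obtain ⟨K, hK⟩ := ih (S ⊔ Q.map (G.π γ))
      ⟨hS.1.trans le_sup_left, sup_le hS.2.1 hle', fun j hj => by simp at hj⟩
      (lt_of_le_of_ne le_sup_left fun e => hγ (e ▸ le_sup_right)) (hSh.sup hhom)
    refine ⟨K + MvPolynomial.monomial γ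
      (MvPowerSeries.coeff γ (G.H (S ⊔ Q.map (G.π γ)) - G.H S)), ?_⟩
    rw [MvPolynomial.coe_add, hK, MvPolynomial.coe_monomial]
    ext β
    by_cases hb : β = γ
    · subst hb
      simp
    · rw [map_add, MvPowerSeries.coeff_monomial_ne hb, add_zero, map_sub, map_sub, sub_right_inj,
        Grading.coeff_H, Grading.coeff_H, Submodule.map_sup]
      have : (Q.map (G.π γ)).map (G.π β) = ⊥ := by
        rw [eq_bot_iff]
        rintro _ ⟨_, ⟨x, hx, rfl⟩, rfl⟩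
        rw [G.orth _ _ _ hb]; exact zero_mem _
      rw [this, sup_bot_eq]
  exact main P ⟨le_rfl, hle, fun j hj => by simp at hj⟩ hP

/-- Hilbert–Serre with the order of vanishing. -/
theorem exists_cl (G : Grading k M ι) {J : Type*} [DecidableEq J] (Z : J → M →ₗ[k] M)
    (δ : J → ι →₀ ℕ) (𝔫 : Ideal (MvPolynomial ι ℤ)) (𝒥 : Finset J)
    (hZ : ∀ j ∈ 𝒥, G.Deg (Z j) (δ j))
    (hq : ∀ i ∈ 𝒥, ∀ j ∈ 𝒥, ∃ c : k, ∀ x, Z i (Z j x) = c • Z j (Z i x))
    (hn : ∀ j ∈ 𝒥, lin (δ j) ∈ 𝔫) :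
    ∀ (P Q : Submodule k M) (e : ℕ), G.Hom P → G.Hom Q → P ≤ Q → Stable Z 𝒥 P → Stable Z 𝒥 Q →
      ACC Z 𝒥 P Q → GK (G.H Q - G.H P) e →
      ∃ κ, Cl (den δ 𝒥) (G.H Q - G.H P) (𝒥.card - e) κ ∧ (0 < 𝒥.card - e → κ ∈ 𝔫) := by
  induction 𝒥 using Finset.induction_on with
  | empty =>
    intro P Q e hP hQ hle _ _ hacc _
    obtain ⟨K, hK⟩ := exists_poly_of_ACC G Z hP hQ hle hacc
    refine ⟨(Phi K).coeff 0, ⟨K, by simp [den, hK], Phi K, by simp, rfl⟩, by simp⟩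
  | insert x 𝒥 hx ih =>
    have ih := ih (fun j hj => hZ j (Finset.mem_insert_of_mem hj))
      (fun i hi j hj => hq i (Finset.mem_insert_of_mem hi) j (Finset.mem_insert_of_mem hj))
      (fun j hj => hn j (Finset.mem_insert_of_mem hj))
    have hxm := Finset.mem_insert_self x 𝒥
    have res : ∀ {S : Submodule k M}, Stable Z (insert x 𝒥) S → Stable Z 𝒥 S :=
      fun h j hj => h j (Finset.mem_insert_of_mem hj)
    intro P Q e hP hQ hle sP sQ hacc hgk
    rw [den_insert δ hx, Finset.card_insert_of_notMem hx]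
    have acc' : ∀ S S' : Submodule k M, P ≤ S → S' ≤ Q → (∀ y ∈ S', Z x y ∈ S) →
        ACC Z 𝒥 S S' := by
      intro S S' h1 h2 h3
      refine Set.WellFoundedOn.subset hacc ?_
      rintro T ⟨t1, t2, t3⟩
      refine ⟨h1.trans t1, t2.trans h2, fun j hj y hy => ?_⟩
      rcases Finset.mem_insert.1 hj with rfl | hj
      · exact t1 (h3 y (t2 hy))
      · exact t3 j hj y hy
    have main : ∀ S ∈ {S | P ≤ S ∧ S ≤ Q ∧ Stable Z (insert x 𝒥) S}, G.Hom S →
        ∃ κ, Cl (den δ 𝒥 * (1 - MvPolynomial.monomial (δ x) 1)) (G.H Q - G.H S)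
          (𝒥.card + 1 - e) κ ∧ (0 < 𝒥.card + 1 - e → κ ∈ 𝔫) := by
      intro S hS
      refine Set.WellFoundedOn.induction hacc hS (P := fun S => G.Hom S →
        ∃ κ, Cl (den δ 𝒥 * (1 - MvPolynomial.monomial (δ x) 1)) (G.H Q - G.H S)
          (𝒥.card + 1 - e) κ ∧ (0 < 𝒥.card + 1 - e → κ ∈ 𝔫)) ?_
      rintro S ⟨s1, s2, s3⟩ ihS hSh
      have gkS : GK (G.H Q - G.H S) e := hgk.of_le (by
        have := Grading.NN_H_sub (G := G) s1
        convert this using 1; ring)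
      have hS1 : G.Hom (Q ⊓ S.comap (Z x)) := hQ.inf (Grading.Hom.comap (hZ x hxm) hSh)
      have le1 : S ≤ Q ⊓ S.comap (Z x) := fun y hy => ⟨s2 hy, s3 x hxm y hy⟩
      have st1 : Stable Z (insert x 𝒥) (Q ⊓ S.comap (Z x)) := by
        intro j hj y hy
        refine ⟨sQ j hj y hy.1, ?_⟩
        obtain ⟨c, hc⟩ := hq x hxm j hj
        rw [SetLike.mem_coe, Submodule.mem_comap, hc]
        exact S.smul_mem _ (s3 j hj _ hy.2)
      by_cases heq : Q ⊓ S.comap (Z x) = S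
      · have hS2 : G.Hom (Q.map (Z x) ⊔ S) := (Grading.Hom.map (hZ x hxm) hQ).sup hSh
        have le2 : Q.map (Z x) ⊔ S ≤ Q := by
          refine sup_le ?_ s2
          rintro _ ⟨y, hy, rfl⟩
          exact sQ x hxm y hy
        have st2 : Stable Z (insert x 𝒥) (Q.map (Z x) ⊔ S) := by
          intro j hj y hy
          obtain ⟨_, ⟨a, ha, rfl⟩, b, hb, rfl⟩ := Submodule.mem_sup.1 hy
          obtain ⟨c, hc⟩ := hq j hj x hxm
          rw [map_add, hc]
          exact Submodule.add_mem_sup (Submodule.smul_mem _ _ ⟨_, sQ j hj a ha, rfl⟩)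
            (s3 j hj b hb)
        have hcut := Grading.cut (hZ x hxm) hSh hQ heq
        rcases e with _ | e
        · have := GK.drop_zero (Grading.NN_H_sub s2) (Grading.NN_H_sub le2) hcut gkS
          refine ⟨0, ?_, fun _ => zero_mem _⟩
          rw [Cl.move_iff, ← hcut, this]
          exact Cl.zero
        · have g2 := GK.drop (Grading.NN_H_sub s2) (Grading.NN_H_sub le2) hcut gkS
          obtain ⟨κ, h1, h2⟩ := ih (Q.map (Z x) ⊔ S) Q e hS2 hQ le2 (res st2) (res sQ)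
            (acc' _ _ (s1.trans le_sup_right) le_rfl fun y hy =>
              Submodule.mem_sup_left ⟨y, hy, rfl⟩) g2
          rw [show 𝒥.card + 1 - (e + 1) = 𝒥.card - e by omega]
          refine ⟨κ, ?_, h2⟩
          rwa [Cl.move_iff, ← hcut]
      · obtain ⟨κ1, a1, b1⟩ := ihS _ ⟨s1.trans le1, inf_le_left, st1⟩
          (lt_of_le_of_ne le1 (Ne.symm heq)) hS1
        have g1 : GK (G.H (Q ⊓ S.comap (Z x)) - G.H S) e := gkS.of_le (by
          have := Grading.NN_H_sub (G := G) (inf_le_left : Q ⊓ S.comap (Z x) ≤ Q)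
          convert this using 1; ring)
        obtain ⟨κ2, a2, -⟩ := ih S _ e hSh hS1 le1 (res s3) (res st1)
          (acc' _ _ s1 inf_le_left fun y hy => hy.2) g1
        have a3 := a2.mul_den (δ x)
        have e0 : G.H Q - G.H S = (G.H Q - G.H (Q ⊓ S.comap (Z x))) +
            (G.H (Q ⊓ S.comap (Z x)) - G.H S) := by ring
        rw [e0]
        by_cases hc : 𝒥.card + 1 - e = 𝒥.card - e + 1
        · rw [← hc] at a3
          exact ⟨_, a1.add a3, fun h => add_mem (b1 h) (neg_mem (𝔫.mul_mem_right _ (hn x hxm)))⟩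
        · exact ⟨_, a1.add (a3.of_lt (by omega)), fun h => by simpa using b1 h⟩
    exact main P ⟨le_rfl, hle, sP⟩ hP

end Crest.Agent.R180
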