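import Crest.Agent.R180.Graded

/-!
The weighted grading of a polynomial ring, homogeneous ideals, and good primes.
-/

set_option autoImplicit false
set_option linter.unusedSectionVars false

namespace Crest.Agent.R180

open Module MvPolynomial

/-- Non-zero multidegrees for the variables. -/
structure Wt (σ ι : Type) where
  w : σ → ι →₀ ℕ
  ne : ∀ j, w j ≠ 0

variable {ι : Type} [Fintype ι] [DecidableEq ι] {σ : Type} [Fintype σ] [DecidableEq σ]
variable (k : Type) [Field k]

lemma degree_weight (w : σ → ι →₀ ℕ) (d : σ →₀ ℕ) :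
    (Finsupp.weight w d).degree = Finsupp.weight (fun j => (w j).degree) d := by
  simp only [Finsupp.weight_apply, Finsupp.sum, map_sum, map_nsmul]

lemma Wt.finite (W : Wt σ ι) (γ : ι →₀ ℕ) : {d : σ →₀ ℕ | Finsupp.weight W.w d = γ}.Finite := by
  refine (Finsupp.finite_of_nat_weight_eq (fun j => (W.w j).degree)
    (fun j h => W.ne j ((Finsupp.degree_eq_zero_iff _).1 h)) γ.degree).subset ?_
  intro d hd
  simp only [Set.mem_ofPred_eq] at hd ⊢
  rw [← degree_weight, hd]

/-- The grading of the polynomial ring. -/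
noncomputable def Wt.G (W : Wt σ ι) : Grading k (MvPolynomial σ k) ι where
  π γ := weightedHomogeneousComponent W.w γ
  idem γ x := (weightedHomogeneousComponent_isWeightedHomogeneous γ x).weightedHomogeneousComponent_same
  orth γ γ' x h :=
    (weightedHomogeneousComponent_isWeightedHomogeneous γ' x).weightedHomogeneousComponent_ne γ h
  fin x := ⟨(weightedHomogeneousComponent_finsupp (w := W.w) x).toFinset, by
    rw [← finsum_eq_sum _ (weightedHomogeneousComponent_finsupp x)]
    exact sum_weightedHomogeneousComponent _ _⟩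
  fd γ := by
    have : LinearMap.range (weightedHomogeneousComponent (R := k) W.w γ) ≤
        Submodule.span k ((fun d => monomial d (1 : k)) ''
          {d : σ →₀ ℕ | Finsupp.weight W.w d = γ}) := by
      rintro _ ⟨x, rfl⟩
      rw [weightedHomogeneousComponent_apply]
      refine Submodule.sum_mem _ fun d hd => ?_
      rw [← mul_one (coeff d x), ← smul_eq_mul, ← smul_monomial]
      exact Submodule.smul_mem _ _ (Submodule.subset_span ⟨d, (Finset.mem_filter.1 hd).2, rfl⟩)
    have := Module.Finite.span_of_finite k ((W.finite γ).image fun d => monomial d (1 : k))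
    exact Submodule.finiteDimensional_of_le ‹_›

variable {k}

lemma Wt.π_eq_self_iff (W : Wt σ ι) (γ : ι →₀ ℕ) (x : MvPolynomial σ k) :
    (W.G k).π γ x = x ↔ x.IsWeightedHomogeneous W.w γ :=
  ⟨fun h => h ▸ weightedHomogeneousComponent_isWeightedHomogeneous γ x,
    fun h => h.weightedHomogeneousComponent_same⟩

lemma Wt.π_hom (W : Wt σ ι) (γ : ι →₀ ℕ) (x : MvPolynomial σ k) :
    ((W.G k).π γ x).IsWeightedHomogeneous W.w γ :=
  weightedHomogeneousComponent_isWeightedHomogeneous γ x

lemma Wt.deg_mul (W : Wt σ ι) {f : MvPolynomial σ k} {δ : ι →₀ ℕ}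
    (hf : f.IsWeightedHomogeneous W.w δ) : (W.G k).Deg (LinearMap.mulLeft k f) δ := by
  intro γ x hx
  rw [W.π_eq_self_iff] at hx ⊢
  rw [add_comm]
  exact hf.mul hx

/-- Homogeneous ideals. -/
def Wt.IHom (W : Wt σ ι) (I : Ideal (MvPolynomial σ k)) : Prop :=
  (W.G k).Hom (I.restrictScalars k)

/-- Hilbert series of the quotient by an ideal. -/
noncomputable def Wt.HQ (W : Wt σ ι) (I : Ideal (MvPolynomial σ k)) : MvPowerSeries ι ℤ :=
  (W.G k).H ⊤ - (W.G k).H (I.restrictScalars k)

lemma Wt.NN_HQ (W : Wt σ ι) (I : Ideal (MvPolynomial σ k)) : NN (W.HQ I) :=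
  Grading.NN_H_sub le_top

/-- The quotient by `I` is generated by the variables in `𝒥`. -/
def Gen (𝒥 : Finset σ) (I : Ideal (MvPolynomial σ k)) : Prop :=
  ∀ r : MvPolynomial σ k, ∃ r' ∈ supported k (𝒥 : Set σ), r - r' ∈ I

lemma Gen.mono {𝒥 : Finset σ} {I I' : Ideal (MvPolynomial σ k)} (h : Gen 𝒥 I) (hle : I ≤ I') :
    Gen 𝒥 I' := fun r => let ⟨r', a, b⟩ := h r; ⟨r', a, hle b⟩

lemma Gen.univ (I : Ideal (MvPolynomial σ k)) : Gen Finset.univ I := fun r =>
  ⟨r, by simp [supported_univ], by simp⟩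

/-- A homogeneous prime whose class in codimension `c` does not vanish under `ev`. -/
structure Wt.Good (W : Wt σ ι) {Ω : Type} [CommRing Ω] (ev : MvPolynomial ι ℤ →+* Ω)
    (𝒥 : Finset σ) (I : Ideal (MvPolynomial σ k)) (c : ℕ) : Prop where
  prime : I.IsPrime
  hom : W.IHom I
  gen : Gen 𝒥 I
  le : c ≤ 𝒥.card
  gk : GK (W.HQ I) (𝒥.card - c)
  cl : ∃ κ, Cl (den W.w 𝒥) (W.HQ I) c κ ∧ ev κ ≠ 0

end Crest.Agent.R180
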