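import Crest.Agent.R180.Quat
import Crest.Agent.R180.Poly

/-!
Homogeneous elements of the generic twisted group algebra.
-/

set_option autoImplicit false
set_option linter.unusedSectionVars false

namespace Crest.Agent.R180

open MvPolynomial

variable {N : ℕ} {σ : Type} [Fintype σ] [DecidableEq σ]

/-- The parameters as variables. -/
noncomputable abbrev sX (s : Ix N → σ) : Ix N → MvPolynomial σ ℚ := fun i => X (s i)

/-- Shifted homogeneity of a polynomial. -/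
def HS (W : Wt σ (Ix N)) (β γ : Ix N →₀ ℕ) (f : MvPolynomial σ ℚ) : Prop :=
  ∀ d, coeff d f ≠ 0 → Finsupp.weight W.w d + β = γ

variable {W : Wt σ (Ix N)} {s : Ix N → σ}

lemma HS.zero (β γ : Ix N →₀ ℕ) : HS W β γ 0 := fun _ h => absurd (coeff_zero _) h

lemma HS.add {β γ : Ix N →₀ ℕ} {f g : MvPolynomial σ ℚ} (hf : HS W β γ f) (hg : HS W β γ g) :
    HS W β γ (f + g) := by
  intro d hd
  by_cases h : coeff d f = 0
  · exact hg d (by simpa [h] using hd)
  · exact hf d h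

lemma HS.sum {α : Type*} {β γ : Ix N →₀ ℕ} (t : Finset α) {f : α → MvPolynomial σ ℚ}
    (hf : ∀ a ∈ t, HS W β γ (f a)) : HS W β γ (∑ a ∈ t, f a) :=
  Finset.sum_induction _ _ (fun _ _ => HS.add) (HS.zero _ _) hf

lemma HS.isHom {β γ : Ix N →₀ ℕ} {f : MvPolynomial σ ℚ} (hf : HS W β γ f) :
    f.IsWeightedHomogeneous W.w (γ - β) := by
  intro d hd
  rw [← hf d hd, add_tsub_cancel_right]

lemma HS.of_isHom {β δ : Ix N →₀ ℕ} {f : MvPolynomial σ ℚ} (hf : f.IsWeightedHomogeneous W.w δ) :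
    HS W β (δ + β) f := fun d hd => by rw [hf hd]

lemma HS.mul {β γ β' γ' : Ix N →₀ ℕ} {f g : MvPolynomial σ ℚ} (hf : HS W β γ f)
    (hg : HS W β' γ' g) : HS W (β + β') (γ + γ') (f * g) := by
  intro d hd
  rw [coeff_mul] at hd
  obtain ⟨p, hp, h⟩ := Finset.exists_ne_zero_of_sum_ne_zero hd
  rw [← Finset.HasAntidiagonal.mem_antidiagonal.1 hp, map_add, ← hf _ (left_ne_zero_of_mul h),
    ← hg _ (right_ne_zero_of_mul h)]
  abel

lemma HS.cancel {β γ δ : Ix N →₀ ℕ} {f : MvPolynomial σ ℚ} (hf : HS W (β + δ) (γ + δ) f) :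
    HS W β γ f := fun d hd => add_right_cancel (b := δ) (by rw [← hf d hd, add_assoc])

lemma isHom_qc (hw : ∀ i, W.w (s i) = Finsupp.single i 2) (χ ψ : Hh N) :
    ∃ δ, ((qc (sX s)).c χ ψ).IsWeightedHomogeneous W.w δ ∧ δ + lift (χ + ψ) = lift χ + lift ψ := by
  refine ⟨0 + ∑ i, ((χ i).val * (ψ i).val) • W.w (s i), ?_, ?_⟩
  · refine IsWeightedHomogeneous.mul ?_ (IsWeightedHomogeneous.prod _ _ _ fun i _ =>
      (isWeightedHomogeneous_X ℚ W.w (s i)).pow _)
    rw [← map_sgn (C : ℚ →+* MvPolynomial σ ℚ)]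
    exact isWeightedHomogeneous_C _ _
  · ext i
    simp only [hw, zero_add, Finsupp.coe_add, Finsupp.coe_finsetSum, Pi.add_apply,
      Finset.sum_apply, Finsupp.coe_smul, Pi.smul_apply, smul_eq_mul, lift_apply]
    rw [Finset.sum_eq_single i]
    · rw [Finsupp.single_eq_same, mul_comm, val_add_two]
    · intro j _ hj
      rw [Finsupp.single_eq_of_ne hj.symm, mul_zero]
    · simp

/-- Homogeneous elements. -/
def HT (W : Wt σ (Ix N)) (s : Ix N → σ) (γ : Ix N →₀ ℕ) (a : QA (sX s)) : Prop :=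
  ∀ χ, HS W (lift χ) γ (a χ)

lemma HT.zero (γ : Ix N →₀ ℕ) : HT W s γ 0 := fun _ => HS.zero _ _

lemma HT.add {γ : Ix N →₀ ℕ} {a b : QA (sX s)} (ha : HT W s γ a) (hb : HT W s γ b) :
    HT W s γ (a + b) := fun χ => (ha χ).add (hb χ)

lemma HT.mul (hw : ∀ i, W.w (s i) = Finsupp.single i 2) {γ γ' : Ix N →₀ ℕ} {a b : QA (sX s)}
    (ha : HT W s γ a) (hb : HT W s γ' b) : HT W s (γ + γ') (a * b) := by
  intro χ
  rw [TA.mul_apply]
  refine HS.sum _ fun ψ _ => ?_
  obtain ⟨δ, h1, h2⟩ := isHom_qc (W := W) hw ψ (χ - ψ)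
  have := ((HS.of_isHom (β := 0) h1).mul (ha ψ)).mul (hb (χ - ψ))
  rw [add_sub_cancel] at h2
  rw [zero_add, add_zero, ← h2, add_comm δ, add_assoc δ, add_comm δ] at this
  exact this.cancel

lemma HT.smul {γ δ : Ix N →₀ ℕ} {r : MvPolynomial σ ℚ} {a : QA (sX s)}
    (hr : r.IsWeightedHomogeneous W.w δ) (ha : HT W s γ a) : HT W s (δ + γ) (r • a) := by
  intro χ
  have := (HS.of_isHom (β := 0) hr).mul (ha χ)
  rwa [zero_add, add_zero] at this

lemma lift_zero : lift (0 : Hh N) = 0 := by ext; simp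

lemma HT.E (χ : Hh N) : HT W s (lift χ) (TA.E _ χ) := by
  intro ψ
  rw [TA.E_apply]
  split_ifs with h
  · subst h
    have := HS.of_isHom (W := W) (β := lift ψ) (isWeightedHomogeneous_one ℚ W.w)
    rwa [zero_add] at this
  · exact HS.zero _ _

lemma HT.one : HT W s 0 1 := by
  have := HT.E (W := W) (s := s) 0
  rwa [lift_zero] at this

lemma HT.algebraMap {δ : Ix N →₀ ℕ} {r : MvPolynomial σ ℚ}
    (hr : r.IsWeightedHomogeneous W.w δ) : HT W s δ (algebraMap _ _ r) := by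
  have := HT.smul (s := s) hr HT.one
  rwa [add_zero, ← Algebra.algebraMap_eq_smul_one] at this

lemma HT.tr {γ : Ix N →₀ ℕ} {a : QA (sX s)} (ha : HT W s γ a) :
    (TA.tr _ a).IsWeightedHomogeneous W.w γ := by
  have := (ha 0).isHom
  rwa [lift_zero, tsub_zero] at this

end Crest.Agent.R180
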