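import Crest.Agent.R180.Quat

/-!
The commutative subalgebra attached to an isotropic subgroup.
-/

set_option autoImplicit false
set_option linter.unusedSectionVars false

namespace Crest.Agent.R180

open Polynomial

variable {N k : ℕ} {R : Type} [CommRing R]

/-- The isotropic subgroup. -/
def Lam (N k : ℕ) : Finset (Hh N) :=
  Finset.univ.filter fun χ => ∀ i, χ i ≠ 0 → i.1.val < k ∧ i.2 = false

/-- The dual isotropic subgroup. -/
def Psi (N k : ℕ) : Finset (Hh N) :=
  Finset.univ.filter fun χ => ∀ i, χ i ≠ 0 → i.1.val < k ∧ i.2 = true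

/-- The orthogonal of the isotropic subgroup. -/
def Per (N k : ℕ) : Finset (Hh N) :=
  Finset.univ.filter fun χ => ∀ a : Fin N, a.val < k → χ (a, true) = 0

lemma mem_Lam {χ : Hh N} : χ ∈ Lam N k ↔ ∀ i, χ i ≠ 0 → i.1.val < k ∧ i.2 = false := by
  simp [Lam]

lemma mem_Psi {χ : Hh N} : χ ∈ Psi N k ↔ ∀ i, χ i ≠ 0 → i.1.val < k ∧ i.2 = true := by
  simp [Psi]

lemma mem_Per {χ : Hh N} : χ ∈ Per N k ↔ ∀ a : Fin N, a.val < k → χ (a, true) = 0 := by
  simp [Per]

lemma zero_mem_Lam : (0 : Hh N) ∈ Lam N k := mem_Lam.2 fun _ h => absurd rfl h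
lemma zero_mem_Psi : (0 : Hh N) ∈ Psi N k := mem_Psi.2 fun _ h => absurd rfl h

lemma add_mem_Lam {a b : Hh N} (ha : a ∈ Lam N k) (hb : b ∈ Lam N k) : a + b ∈ Lam N k := by
  rw [mem_Lam] at *
  intro i hi
  by_cases h : a i = 0
  · exact hb i (by simpa [h] using hi)
  · exact ha i h

lemma add_mem_Psi {a b : Hh N} (ha : a ∈ Psi N k) (hb : b ∈ Psi N k) : a + b ∈ Psi N k := by
  rw [mem_Psi] at *
  intro i hi
  by_cases h : a i = 0
  · exact hb i (by simpa [h] using hi)
  · exact ha i h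

lemma add_mem_Per {a b : Hh N} (ha : a ∈ Per N k) (hb : b ∈ Per N k) : a + b ∈ Per N k := by
  rw [mem_Per] at *
  intro i hi
  simp [ha i hi, hb i hi]

lemma Lam_true {a : Hh N} (ha : a ∈ Lam N k) (i : Fin N) : a (i, true) = 0 := by
  by_contra h
  simpa using (mem_Lam.1 ha _ h).2

lemma Lam_sub_Per {a : Hh N} (ha : a ∈ Lam N k) : a ∈ Per N k :=
  mem_Per.2 fun i _ => Lam_true ha i

lemma add_notMem_Per {a b : Hh N} (ha : a ∉ Per N k) (hb : b ∈ Per N k) : a + b ∉ Per N k := by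
  intro h
  have := add_mem_Per h hb
  rw [add_assoc, Hh_add_self, add_zero] at this
  exact ha this

lemma om_Lam (χ : Hh N) {l : Hh N} (hl : l ∈ Lam N k) :
    om χ l = ∑ a : Fin N, χ (a, true) * l (a, false) := by
  simp [om, bf, Lam_true hl]

lemma om_Per {χ l : Hh N} (hχ : χ ∈ Per N k) (hl : l ∈ Lam N k) : om χ l = 0 := by
  rw [om_Lam χ hl]
  refine Finset.sum_eq_zero fun a _ => ?_
  by_cases h : l (a, false) = 0
  · rw [h, mul_zero]
  · rw [mem_Per.1 hχ a (mem_Lam.1 hl _ h).1, zero_mul]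

/-- Projection to the dual isotropic subgroup. -/
def pr (k : ℕ) (χ : Hh N) : Hh N := fun i => if i.1.val < k ∧ i.2 = true then χ i else 0

lemma pr_mem (χ : Hh N) : pr k χ ∈ Psi N k := by
  rw [mem_Psi]
  intro i hi
  by_contra h
  exact hi (if_neg h)

lemma add_pr_mem (χ : Hh N) : χ + pr k χ ∈ Per N k := by
  rw [mem_Per]
  intro a ha
  simp only [pr, Pi.add_apply, ha, and_self, if_true]
  exact congrFun (Hh_add_self χ) _

lemma om_pr (χ : Hh N) {l : Hh N} (hl : l ∈ Lam N k) : om χ l = om (pr k χ) l := by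
  have h := om_Per (add_pr_mem (k := k) χ) hl
  rw [om_add_left] at h
  revert h
  generalize om χ l = x
  generalize om (pr k χ) l = y
  revert x y; decide

lemma pr_ne_zero {χ : Hh N} (h : χ ∉ Per N k) : pr k χ ≠ 0 := by
  intro h0
  have := add_pr_mem (k := k) χ
  rw [h0, add_zero] at this
  exact h this

lemma exists_om_Psi {l : Hh N} (hl : l ∈ Lam N k) (h0 : l ≠ 0) : ∃ η ∈ Psi N k, om η l = 1 := by
  obtain ⟨⟨a, b⟩, hi⟩ := Function.ne_iff.1 h0
  obtain ⟨h1, h2⟩ := mem_Lam.1 hl _ hi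
  simp only at h1 h2
  subst h2
  refine ⟨Pi.single (a, true) 1, mem_Psi.2 fun i hi => ?_, ?_⟩
  · have : i = (a, true) := by
      by_contra h
      exact hi (Pi.single_eq_of_ne h _)
    subst this
    exact ⟨h1, rfl⟩
  · rw [om_Lam _ hl, Finset.sum_eq_single a]
    · simpa using (zmod2_cases _).resolve_left hi
    · intro b _ hb
      rw [Pi.single_eq_of_ne (by simpa using hb), zero_mul]
    · simp

lemma exists_om_Lam {η : Hh N} (hη : η ∈ Psi N k) (h0 : η ≠ 0) : ∃ l ∈ Lam N k, om η l = 1 := by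
  obtain ⟨⟨a, b⟩, hi⟩ := Function.ne_iff.1 h0
  obtain ⟨h1, h2⟩ := mem_Psi.1 hη _ hi
  simp only at h1 h2
  subst h2
  have hl : (Pi.single (a, false) 1 : Hh N) ∈ Lam N k := mem_Lam.2 fun i hi => by
    have : i = (a, false) := by
      by_contra h
      exact hi (Pi.single_eq_of_ne h _)
    subst this
    exact ⟨h1, rfl⟩
  refine ⟨_, hl, ?_⟩
  rw [om_Lam _ hl, Finset.sum_eq_single a]
  · simpa using (zmod2_cases _).resolve_left hi
  · intro b _ hb
    rw [Pi.single_eq_of_ne (by simpa using hb), mul_zero]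
  · simp

lemma sum_sgn_Psi {l : Hh N} (hl : l ∈ Lam N k) (h0 : l ≠ 0) :
    ∑ η ∈ Psi N k, sgn ℤ (om η l) = 0 := by
  obtain ⟨θ, hθ, h1⟩ := exists_om_Psi hl h0
  refine Finset.sum_involution (fun η _ => η + θ) ?_ ?_ ?_ ?_
  · intro η _
    rw [om_add_left, sgn_add, h1, sgn_one]; ring
  · intro η _ _ h
    have : θ = 0 := by simpa using h
    rw [this, om_zero_left] at h1
    exact zero_ne_one h1
  · exact fun η hη => add_mem_Psi hη hθ
  · intro η _
    rw [add_assoc, Hh_add_self, add_zero]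

lemma card_Psi (hk : k ≤ N) : (Psi N k).card = 2 ^ k := by
  have : Psi N k = Fintype.piFinset fun i : Ix N =>
      if i.1.val < k ∧ i.2 = true then (Finset.univ : Finset (ZMod 2)) else {0} := by
    ext χ
    rw [mem_Psi, Fintype.mem_piFinset]
    refine forall_congr' fun i => ?_
    split_ifs with h
    · simp [h]
    · simp only [Finset.mem_singleton, h, imp_false, not_not]
  rw [this, Fintype.card_piFinset, Fintype.prod_prod_type]
  simp only [apply_ite Finset.card, Finset.card_univ, ZMod.card, Finset.card_singleton,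
    Fintype.prod_bool, and_true, Bool.false_eq_true, and_false, if_false, mul_one]
  rw [Finset.prod_ite, Finset.prod_const_one, mul_one, Finset.prod_const, Fin.card_filter_val_lt,
    min_eq_right hk]

lemma card_Hh : Fintype.card (Hh N) = 4 ^ N := by
  rw [Fintype.card_fun, ZMod.card, Fintype.card_prod, Fintype.card_fin, Fintype.card_bool,
    mul_comm, pow_mul]
  norm_num

lemma card_Per (hk : k ≤ N) : (Per N k).card * 2 ^ k ≤ 4 ^ N := by
  rw [← card_Psi hk, ← Finset.card_product, ← card_Hh]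
  refine Finset.card_le_card_of_injOn (fun p => p.1 + p.2) (fun _ _ => Finset.mem_univ _) ?_
  rintro ⟨a, b⟩ hab ⟨a', b'⟩ hab' e
  simp only [Finset.coe_product, Set.mem_prod, Finset.mem_coe] at hab hab' e
  have hb : b = b' := by
    ext i
    by_cases h : i.1.val < k ∧ i.2 = true
    · obtain ⟨i, j⟩ := i
      obtain ⟨h1, h2⟩ := h
      simp only at h1 h2
      subst h2
      have := congrFun e (i, true)
      simpa [mem_Per.1 hab.1 i h1, mem_Per.1 hab'.1 i h1] using this
    · have h1 : b i = 0 := by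
        by_contra h'
        exact h (mem_Psi.1 hab.2 i h')
      have h2 : b' i = 0 := by
        by_contra h'
        exact h (mem_Psi.1 hab'.2 i h')
      rw [h1, h2]
  subst hb
  simpa using e

section Alg

variable {s : Ix N → R}

lemma sg_of_Per {χ : Hh N} (hχ : χ ∈ Per N k) {b : QA s} (hb : b ∈ TA.Supp _ (Lam N k : Set _)) :
    sg s χ b = b := by
  ext l
  by_cases hl : l ∈ Lam N k
  · simp [om_Per hχ hl]
  · simp [hb l hl]

lemma sg_pr (χ : Hh N) {b : QA s} (hb : b ∈ TA.Supp _ (Lam N k : Set _)) :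
    sg s χ b = sg s (pr k χ) b := by
  ext l
  by_cases hl : l ∈ Lam N k
  · simp [om_pr χ hl]
  · simp [hb l hl]

lemma sg_mem_Supp (χ : Hh N) {S : Set (Hh N)} {b : QA s} (hb : b ∈ TA.Supp _ S) :
    sg s χ b ∈ TA.Supp _ S := fun l hl => by simp [hb l hl]

lemma comm_of_Per {x b : QA s} (hx : x ∈ TA.Supp _ (Per N k : Set _))
    (hb : b ∈ TA.Supp _ (Lam N k : Set _)) : x * b = b * x := by
  rw [← TA.sum_E_of_Supp hx, Finset.sum_mul, Finset.mul_sum]
  refine Finset.sum_congr rfl fun χ hχ => ?_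
  rw [smul_mul_assoc, mul_smul_comm, E_mul_eq, sg_of_Per hχ hb]

lemma comm_mem_Supp (x : QA s) {b : QA s} (hb : b ∈ TA.Supp _ (Lam N k : Set _)) :
    x * b - b * x ∈ TA.Supp _ ((Per N k : Set (Hh N))ᶜ) := by
  rw [← TA.sum_E x, Finset.sum_mul, Finset.mul_sum, ← Finset.sum_sub_distrib]
  refine Submodule.sum_mem _ fun χ _ => ?_
  rw [smul_mul_assoc, mul_smul_comm, ← smul_sub]
  refine Submodule.smul_mem _ _ ?_
  by_cases hχ : χ ∈ Per N k
  · rw [E_mul_eq, sg_of_Per hχ hb, sub_self]; exact zero_mem _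
  · rw [E_mul_eq, ← sub_mul]
    refine TA.mul_mem_Supp (S := (Lam N k : Set _)) (S' := {χ}) ?_
      (sub_mem (sg_mem_Supp χ hb) hb) (TA.E_mem_Supp rfl)
    rintro a ha _ rfl
    rw [add_comm]
    exact add_notMem_Per hχ (Lam_sub_Per ha)

/-- The commutative subalgebra. -/
def LA (s : Ix N → R) (k : ℕ) : Subalgebra R (QA s) :=
  (TA.Supp _ (Lam N k : Set (Hh N))).toSubalgebra (TA.E_mem_Supp (by simpa using zero_mem_Lam))
    fun _ _ hx hy => TA.mul_mem_Supp (fun _ ha _ hb => add_mem_Lam ha hb) hx hy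

lemma mem_LA {x : QA s} : x ∈ LA s k ↔ x ∈ TA.Supp _ (Lam N k : Set (Hh N)) := Iff.rfl

instance : CommRing (LA s k) :=
  { (inferInstance : Ring (LA s k)) with
    mul_comm := fun x y => Subtype.ext
      (comm_of_Per (TA.Supp_mono (fun _ h => Lam_sub_Per h) x.2) y.2) }

instance [Algebra ℚ R] : Algebra ℚ (LA s k) :=
  ((algebraMap R (LA s k)).comp (algebraMap ℚ R)).toAlgebra

/-- Sign automorphisms of the commutative subalgebra. -/
def sgL (s : Ix N → R) (k : ℕ) (η : Hh N) : LA s k →+* LA s k :=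
  ((sg s η).comp (LA s k).val.toRingHom).codRestrict (LA s k) fun x => sg_mem_Supp η x.2

lemma sgL_coe (η : Hh N) (x : LA s k) : (sgL s k η x : QA s) = sg s η x := rfl

lemma sum_sgL (hk : k ≤ N) (x : LA s k) :
    ∑ η ∈ Psi N k, sgL s k η x = algebraMap R _ (((2 ^ k : ℕ) : R) * TA.tr _ (x : QA s)) := by
  apply Subtype.ext
  rw [AddSubmonoidClass.coe_finsetSum]
  ext l
  rw [TA.sum_apply]
  simp only [sgL_coe, sg_apply, Subalgebra.coe_algebraMap, TA.algebraMap_apply, TA.tr_apply]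
  rw [← Finset.mul_sum]
  split_ifs with h
  · subst h
    simp [card_Psi hk, mul_comm]
  · by_cases hl : l ∈ Lam N k
    · have := congrArg (Int.castRingHom R) (sum_sgn_Psi hl h)
      rw [map_sum, map_zero] at this
      simp only [map_sgn] at this
      rw [this, mul_zero]
    · rw [x.2 l hl, zero_mul]

end Alg

/-- The polynomial behind `rel`. -/
noncomputable def relP {K B : Type*} [CommRing K] [Algebra ℚ K] [Ring B] [Algebra K B]
    (m : ℕ) (τ : B →ₗ[K] K) (a : B) : K[X] :=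
  ∑ i ∈ Finset.range (m + 1),
    C ((-1) ^ i * newtonE (fun j => (m : K) * τ (a ^ j)) i) * X ^ (m - i)

lemma aeval_relP {K B : Type*} [CommRing K] [Algebra ℚ K] [Ring B] [Algebra K B]
    (m : ℕ) (τ : B →ₗ[K] K) (a : B) : aeval a (relP m τ a) = rel m τ a := by
  simp only [relP, rel, map_sum, map_mul, aeval_C, map_pow, aeval_X, Algebra.smul_def]

variable [Algebra ℚ R] {s : Ix N → R}

lemma map_relP (hk : k ≤ N) (x : LA s k) :
    (relP (2 ^ k) (TA.tr _) (x : QA s)).map (algebraMap R (LA s k)) =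
      ∏ η ∈ Psi N k, (X - C (sgL s k η x)) := by
  have h := prod_X_sub_C_eq_newtonE (fun η : Psi N k => sgL s k η x)
  rw [Finset.prod_coe_sort (Psi N k) (fun η => X - C (sgL s k η x)), Fintype.card_coe,
    card_Psi hk] at h
  rw [h, relP, Polynomial.map_sum]
  refine Finset.sum_congr rfl fun i _ => ?_
  rw [Polynomial.map_mul, Polynomial.map_pow, map_X, map_C, map_mul, map_pow, map_neg, map_one,
    newtonE_map]
  congr 4
  funext j
  rw [Finset.sum_coe_sort (Psi N k) (fun η => sgL s k η x ^ j)]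
  simp only [← map_pow]
  rw [sum_sgL hk]
  rfl

lemma aeval_coe (x : LA s k) (p : R[X]) :
    aeval (x : QA s) p = ((p.map (algebraMap R (LA s k))).eval x : LA s k) := by
  rw [eval_map_algebraMap]
  exact (aeval_algHom_apply (LA s k).val x p)

theorem rel_eq_zero_of_Lam (hk : k ≤ N) {b : QA s} (hb : b ∈ TA.Supp _ (Lam N k : Set _)) :
    rel (2 ^ k) (TA.tr _) b = 0 := by
  have h := aeval_coe (⟨b, hb⟩ : LA s k) (relP (2 ^ k) (TA.tr _) b)
  rw [aeval_relP, map_relP hk ⟨b, hb⟩, eval_prod,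
    Finset.prod_eq_zero zero_mem_Psi (by
      rw [eval_sub, eval_X, eval_C, sub_eq_zero]
      exact Subtype.ext (sg_zero b).symm)] at h
  exact h

end Crest.Agent.R180
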