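import Crest.Agent.R180.Defs

set_option autoImplicit false

namespace Crest.Agent.R180

open Polynomial

theorem newtonE_zero {K : Type*} [CommRing K] [Algebra ℚ K] (p : ℕ → K) : newtonE p 0 = 1 := by
  rw [newtonE]

theorem newtonE_succ {K : Type*} [CommRing K] [Algebra ℚ K] (p : ℕ → K) (k : ℕ) :
    newtonE p (k + 1) = ((k + 1 : ℚ)⁻¹) • ((-1) ^ k *
      ∑ a : Fin (k + 1), (-1) ^ (a : ℕ) * newtonE p a * p (k + 1 - a)) := by
  rw [newtonE]

theorem newtonE_map {K K' : Type*} [CommRing K] [Algebra ℚ K] [CommRing K'] [Algebra ℚ K']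
    (f : K →+* K') (p : ℕ → K) (k : ℕ) : f (newtonE p k) = newtonE (fun j => f (p j)) k := by
  induction k using Nat.strong_induction_on with
  | _ k ih =>
    cases k with
    | zero => simp [newtonE_zero]
    | succ k =>
      rw [newtonE_succ, newtonE_succ, map_rat_smul]
      congr 1
      simp only [map_mul, map_pow, map_neg, map_one, map_sum]
      congr 1
      exact Finset.sum_congr rfl fun a _ => by rw [ih a a.2]

theorem newtonE_congr {K : Type*} [CommRing K] [Algebra ℚ K] (p q : ℕ → K)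
    (h : ∀ j, 0 < j → p j = q j) (k : ℕ) : newtonE p k = newtonE q k := by
  induction k using Nat.strong_induction_on with
  | _ k ih =>
    cases k with
    | zero => simp [newtonE_zero]
    | succ k =>
      rw [newtonE_succ, newtonE_succ]
      congr 2
      exact Finset.sum_congr rfl fun a _ => by rw [ih a a.2, h _ (Nat.sub_pos_of_lt a.2)]

theorem newtonE_scale {K : Type*} [CommRing K] [Algebra ℚ K] (c : K) (p : ℕ → K) (k : ℕ) :
    newtonE (fun j => c ^ j * p j) k = c ^ k * newtonE p k := by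
  induction k using Nat.strong_induction_on with
  | _ k ih =>
    cases k with
    | zero => simp [newtonE_zero]
    | succ k =>
      rw [newtonE_succ, newtonE_succ, mul_smul_comm]
      congr 1
      rw [mul_left_comm]
      congr 1
      rw [Finset.mul_sum]
      refine Finset.sum_congr rfl fun a _ => ?_
      rw [ih a a.2]
      have : c ^ (k + 1) = c ^ (a : ℕ) * c ^ (k + 1 - a) := by
        rw [← pow_add, Nat.add_sub_cancel' a.2.le]
      rw [this]; ring

theorem newtonE_psum {L Ψ : Type*} [CommRing L] [Algebra ℚ L] [Fintype Ψ] (x : Ψ → L) (k : ℕ) :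
    newtonE (fun j => ∑ ψ, x ψ ^ j) k = (Finset.univ.val.map x).esymm k := by
  induction k using Nat.strong_induction_on with
  | _ k ih =>
    cases k with
    | zero => simp [newtonE_zero, Multiset.esymm]
    | succ k =>
      have h := congrArg (MvPolynomial.aeval (R := ℚ) x)
        (MvPolynomial.mul_esymm_eq_sum Ψ ℚ (k + 1))
      simp only [map_mul, map_natCast, map_pow, map_neg, map_one, map_sum,
        MvPolynomial.aeval_esymm_eq_multiset_esymm, MvPolynomial.psum, MvPolynomial.aeval_X] at h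
      rw [Finset.sum_filter, Finset.Nat.sum_antidiagonal_eq_sum_range_succ_mk,
        Finset.sum_range_succ, if_neg (lt_irrefl _), add_zero] at h
      rw [newtonE_succ]
      have e : ∑ a : Fin (k + 1), (-1 : L) ^ (a : ℕ) * newtonE (fun j => ∑ ψ, x ψ ^ j) a *
          ∑ ψ, x ψ ^ (k + 1 - a) = ∑ a ∈ Finset.range (k + 1), if a < k + 1 then
          (-1 : L) ^ a * (Finset.univ.val.map x).esymm a * ∑ ψ, x ψ ^ (k + 1 - a) else 0 := by
        rw [← Fin.sum_univ_eq_sum_range (fun a => if a < k + 1 then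
          (-1 : L) ^ a * (Finset.univ.val.map x).esymm a * ∑ ψ, x ψ ^ (k + 1 - a) else 0)]
        exact Finset.sum_congr rfl fun a _ => by rw [if_pos a.2, ih a a.2]
      have e2 : (-1 : L) ^ (k + 1 + 1) = (-1) ^ k := by ring
      rw [e, ← e2, ← h]
      have e3 : ((k + 1 : ℕ) : L) * (Finset.univ.val.map x).esymm (k + 1) =
          (k + 1 : ℚ) • (Finset.univ.val.map x).esymm (k + 1) := by
        rw [Algebra.smul_def]; simp
      rw [e3, smul_smul, inv_mul_cancel₀ (by positivity), one_smul]

theorem prod_X_sub_C_eq_newtonE {L Ψ : Type*} [CommRing L] [Algebra ℚ L] [Fintype Ψ] (x : Ψ → L) :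
    ∏ ψ, (X - C (x ψ)) = ∑ i ∈ Finset.range (Fintype.card Ψ + 1),
      C ((-1) ^ i * newtonE (fun j => ∑ ψ, x ψ ^ j) i) * X ^ (Fintype.card Ψ - i) := by
  have h := Multiset.prod_X_sub_X_eq_sum_esymm (Finset.univ.val.map x)
  rw [Multiset.map_map, Multiset.card_map] at h
  refine Eq.trans ?_ (h.trans ?_)
  · rfl
  · refine Finset.sum_congr rfl fun i _ => ?_
    rw [newtonE_psum]
    simp [mul_assoc]

theorem rel_map {K K' B B' : Type*} [CommRing K] [Algebra ℚ K] [CommRing K'] [Algebra ℚ K']
    [Ring B] [Algebra K B] [Ring B'] [Algebra K' B'] (f : K →+* K') (F : B →+* B')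
    (hF : ∀ (c : K) (a : B), F (c • a) = f c • F a) (τ : B →ₗ[K] K) (τ' : B' →ₗ[K'] K')
    (hτ : ∀ a, τ' (F a) = f (τ a)) (m : ℕ) (a : B) : F (rel m τ a) = rel m τ' (F a) := by
  unfold rel
  rw [map_sum]
  refine Finset.sum_congr rfl fun i _ => ?_
  rw [hF, map_pow F, map_mul, newtonE_map]
  simp only [map_mul, map_natCast, map_pow, map_neg, map_one, ← hτ]

theorem rel_smul {K B : Type*} [CommRing K] [Algebra ℚ K] [Ring B] [Algebra K B]
    (τ : B →ₗ[K] K) (m : ℕ) (c : K) (a : B) : rel m τ (c • a) = c ^ m • rel m τ a := by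
  unfold rel
  rw [Finset.smul_sum]
  refine Finset.sum_congr rfl fun i hi => ?_
  have e : (fun j => (m : K) * τ ((c • a) ^ j)) = fun j => c ^ j * ((m : K) * τ (a ^ j)) := by
    funext j
    rw [_root_.smul_pow, map_smul, smul_eq_mul]; ring
  rw [e, newtonE_scale, _root_.smul_pow, smul_smul, smul_smul]
  congr 1
  have : c ^ m = c ^ i * c ^ (m - i) := by
    rw [← pow_add, Nat.add_sub_cancel' (Nat.lt_succ_iff.mp (Finset.mem_range.mp hi))]
  rw [this]; ring

theorem rel_conj {K B : Type*} [CommRing K] [Algebra ℚ K] [Ring B] [Algebra K B]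
    (τ : B →ₗ[K] K) (hτ : ∀ a b : B, τ (a * b) = τ (b * a)) (m : ℕ) (g g' : B)
    (h : g * g' = 1) (h' : g' * g = 1) (a : B) :
    rel m τ (g * a * g') = g * rel m τ a * g' := by
  have hp : ∀ j : ℕ, (g * a * g') ^ j = g * a ^ j * g' := by
    intro j
    induction j with
    | zero => simp [h]
    | succ j ih =>
      rw [pow_succ, ih, pow_succ]
      calc g * a ^ j * g' * (g * a * g') = g * a ^ j * (g' * g) * a * g' := by
            simp only [mul_assoc]
        _ = _ := by rw [h']; simp only [mul_assoc, one_mul]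
  have ht : ∀ j : ℕ, τ (g * a ^ j * g') = τ (a ^ j) := by
    intro j
    rw [hτ, ← mul_assoc, h', one_mul]
  unfold rel
  simp only [hp, ht, Finset.mul_sum, Finset.sum_mul, mul_smul_comm, smul_mul_assoc]

end Crest.Agent.R180
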