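import Crest.Agent.R180.Graded

/-!
Quotients and tensor products of graded spaces.
-/

set_option autoImplicit false
set_option linter.unusedSectionVars false

namespace Crest.Agent.R180

open Module TensorProduct

variable {ι : Type} [Fintype ι] [DecidableEq ι]
variable {k M N : Type*} [Field k] [AddCommGroup M] [Module k M] [AddCommGroup N] [Module k N]

/-- The grading of a quotient by a homogeneous subspace. -/
noncomputable def Grading.quot (G : Grading k M ι) {P : Submodule k M} (hP : G.Hom P) :
    Grading k (M ⧸ P) ι where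
  π γ := P.mapQ P (G.π γ) (fun x hx => hP γ x hx)
  idem γ x := by
    obtain ⟨x, rfl⟩ := P.mkQ_surjective x
    simp [G.idem]
  orth γ γ' x h := by
    obtain ⟨x, rfl⟩ := P.mkQ_surjective x
    simp [G.orth _ _ _ h]
  fin x := by
    obtain ⟨x, rfl⟩ := P.mkQ_surjective x
    obtain ⟨s, hs⟩ := G.fin x
    refine ⟨s, ?_⟩
    conv_rhs => rw [← hs]
    simp
  fd γ := by
    have : LinearMap.range (P.mapQ P (G.π γ) (fun x hx => hP γ x hx)) ≤
        ((⊤ : Submodule k M).map (G.π γ)).map P.mkQ := by
      rintro _ ⟨x, rfl⟩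
      obtain ⟨x, rfl⟩ := P.mkQ_surjective x
      exact ⟨_, ⟨x, trivial, rfl⟩, by simp⟩
    exact Submodule.finiteDimensional_of_le this

lemma Grading.quot_π (G : Grading k M ι) {P : Submodule k M} (hP : G.Hom P) (γ : ι →₀ ℕ) (x : M) :
    (G.quot hP).π γ (P.mkQ x) = P.mkQ (G.π γ x) := rfl

lemma Grading.H_bot (G : Grading k M ι) : G.H ⊥ = 0 := by
  ext γ
  rw [Grading.coeff_H, Submodule.map_bot, finrank_bot]; simp

/-- A degree-preserving map identifies Hilbert series. -/
lemma Grading.H_sub_comap (G : Grading k M ι) (G' : Grading k N ι) (Z : M →ₗ[k] N)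
    (hZ : ∀ γ x, G'.π γ (Z x) = Z (G.π γ x)) {P : Submodule k N} (hP : G'.Hom P)
    (hs : LinearMap.range Z ⊔ P = ⊤) : G.H ⊤ - G.H (P.comap Z) = G'.H ⊤ - G'.H P := by
  have := Grading.key_map (G := G) G' Z 0 (fun γ x => by rw [add_zero, hZ])
    (fun γ x h => absurd zero_le h) hP Grading.Hom.top
  rwa [MvPowerSeries.monomial_zero_one, one_mul, top_inf_eq, Submodule.map_top, hs] at this

lemma Grading.quot_H (G : Grading k M ι) {P : Submodule k M} (hP : G.Hom P) :
    (G.quot hP).H ⊤ = G.H ⊤ - G.H P := by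
  have := Grading.H_sub_comap G (G.quot hP) P.mkQ (G.quot_π hP) Grading.Hom.bot (by simp)
  rw [Grading.H_bot, sub_zero, Submodule.comap_bot, Submodule.ker_mkQ] at this
  exact this.symm

lemma finrank_range_sum {α : Type*} (s : Finset α) (e : α → M →ₗ[k] M)
    (idem : ∀ a ∈ s, ∀ x, e a (e a x) = e a x)
    (orth : ∀ a ∈ s, ∀ b ∈ s, a ≠ b → ∀ x, e a (e b x) = 0)
    (fd : ∀ a ∈ s, Module.Finite k (LinearMap.range (e a))) :
    Module.Finite k (LinearMap.range (∑ a ∈ s, e a)) ∧
      finrank k (LinearMap.range (∑ a ∈ s, e a)) = ∑ a ∈ s, finrank k (LinearMap.range (e a)) := by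
  classical
  induction s using Finset.induction_on with
  | empty =>
    rw [Finset.sum_empty, LinearMap.range_zero]
    exact ⟨inferInstance, by simp⟩
  | insert a s ha ih =>
    have ma := Finset.mem_insert_self a s
    obtain ⟨f1, f2⟩ := ih (fun b hb => idem b (Finset.mem_insert_of_mem hb))
      (fun b hb c hc => orth b (Finset.mem_insert_of_mem hb) c (Finset.mem_insert_of_mem hc))
      (fun b hb => fd b (Finset.mem_insert_of_mem hb))
    rw [Finset.sum_insert ha, Finset.sum_insert ha, ← f2]
    set f := ∑ b ∈ s, e b with hf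
    have hne : ∀ b ∈ s, a ≠ b := fun b hb h => ha (h ▸ hb)
    have ef : ∀ x, e a (f x) = 0 := by
      intro x
      rw [hf, LinearMap.sum_apply, map_sum]
      exact Finset.sum_eq_zero fun b hb => orth a ma b (Finset.mem_insert_of_mem hb) (hne b hb) x
    have fe : ∀ x, f (e a x) = 0 := by
      intro x
      rw [hf, LinearMap.sum_apply]
      exact Finset.sum_eq_zero fun b hb =>
        orth b (Finset.mem_insert_of_mem hb) a ma (hne b hb).symm x
    have ff : ∀ x, f (f x) = f x := by
      intro x
      conv_lhs => rw [hf, LinearMap.sum_apply]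
      conv_rhs => rw [hf, LinearMap.sum_apply]
      refine Finset.sum_congr rfl fun b hb => ?_
      rw [LinearMap.sum_apply, map_sum, Finset.sum_eq_single b]
      · exact idem b (Finset.mem_insert_of_mem hb) x
      · exact fun c hc h => orth b (Finset.mem_insert_of_mem hb) c (Finset.mem_insert_of_mem hc)
          h.symm x
      · exact fun h => absurd hb h
    have := fd a ma
    have fin : Module.Finite k (LinearMap.range (e a + f)) := by
      have : LinearMap.range (e a + f) ≤ LinearMap.range (e a) ⊔ LinearMap.range f := by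
        rintro _ ⟨x, rfl⟩
        exact Submodule.add_mem_sup ⟨x, rfl⟩ ⟨x, rfl⟩
      exact Submodule.finiteDimensional_of_le this
    refine ⟨fin, ?_⟩
    rw [finrank_eq_inf_ker_add_map (LinearMap.range (e a + f)) (e a), add_comm]
    congr 1
    · have : (LinearMap.range (e a + f)).map (e a) = LinearMap.range (e a) := by
        apply le_antisymm LinearMap.map_le_range
        rintro _ ⟨x, rfl⟩
        exact ⟨_, ⟨x, rfl⟩, by simp [idem a ma, ef]⟩
      rw [this]
    · have : LinearMap.range (e a + f) ⊓ LinearMap.ker (e a) = LinearMap.range f := by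
        apply le_antisymm
        · rintro _ ⟨⟨x, rfl⟩, hx⟩
          have : e a x = 0 := by simpa [idem a ma, ef] using hx
          exact ⟨x, by simp [this]⟩
        · rintro _ ⟨x, rfl⟩
          exact ⟨⟨f x, by simp [ef, ff]⟩, ef x⟩
      rw [this]

lemma finrank_range_map (f : M →ₗ[k] M) (g : N →ₗ[k] N) [Module.Finite k (LinearMap.range f)]
    [Module.Finite k (LinearMap.range g)] :
    Module.Finite k (LinearMap.range (TensorProduct.map f g)) ∧
      finrank k (LinearMap.range (TensorProduct.map f g)) =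
        finrank k (LinearMap.range f) * finrank k (LinearMap.range g) := by
  rw [TensorProduct.range_map, ← TensorProduct.range_mapIncl]
  refine ⟨inferInstance, ?_⟩
  rw [LinearMap.finrank_range_of_inj (Module.Flat.tensorProduct_mapIncl_injective_of_right _ _),
    Module.finrank_tensorProduct]

section

variable (G : Grading k M ι) (G' : Grading k N ι)

/-- The projections of the tensor product grading. -/
noncomputable def tensorπ (γ : ι →₀ ℕ) : M ⊗[k] N →ₗ[k] M ⊗[k] N :=
  ∑ p ∈ Finset.HasAntidiagonal.antidiagonal γ, TensorProduct.map (G.π p.1) (G'.π p.2)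

lemma tensorπ_tmul {x : M} {y : N} {α β : ι →₀ ℕ} (hx : G.π α x = x) (hy : G'.π β y = y)
    (γ : ι →₀ ℕ) : tensorπ G G' γ (x ⊗ₜ y) = if γ = α + β then x ⊗ₜ y else 0 := by
  rw [tensorπ, LinearMap.sum_apply]
  split_ifs with h
  · rw [Finset.sum_eq_single (α, β)]
    · simp [hx, hy]
    · intro p _ hp
      rw [TensorProduct.map_tmul, Grading.π_of_hom hx, Grading.π_of_hom hy]
      by_cases h1 : p.1 = α
      · have h2 : p.2 ≠ β := fun h2 => hp (Prod.ext h1 h2)
        simp [h2]
      · simp [h1]
    · intro h'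
      exact absurd (Finset.HasAntidiagonal.mem_antidiagonal.2 h.symm) h'
  · refine Finset.sum_eq_zero fun p hp => ?_
    rw [Finset.HasAntidiagonal.mem_antidiagonal] at hp
    rw [TensorProduct.map_tmul, Grading.π_of_hom hx, Grading.π_of_hom hy]
    by_cases h1 : p.1 = α
    · have h2 : p.2 ≠ β := fun h2 => h (by rw [← hp, h1, h2])
      simp [h2]
    · simp [h1]

lemma tensor_ind (Pr : M ⊗[k] N → Prop) (h0 : Pr 0) (hadd : ∀ a b, Pr a → Pr b → Pr (a + b))
    (h : ∀ x y α β, G.π α x = x → G'.π β y = y → Pr (x ⊗ₜ y)) (z : M ⊗[k] N) : Pr z := by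
  induction z using TensorProduct.induction_on with
  | zero => exact h0
  | add a b ha hb => exact hadd a b ha hb
  | tmul x y =>
    obtain ⟨s, hs⟩ := G.fin x
    obtain ⟨t, ht⟩ := G'.fin y
    rw [← hs, ← ht, TensorProduct.sum_tmul]
    refine Finset.sum_induction _ Pr hadd h0 fun α _ => ?_
    rw [TensorProduct.tmul_sum]
    exact Finset.sum_induction _ Pr hadd h0 fun β _ => h _ _ α β (G.idem _ _) (G'.idem _ _)

lemma tensorπ_fin (γ : ι →₀ ℕ) : Module.Finite k (LinearMap.range (tensorπ G G' γ)) ∧
    finrank k (LinearMap.range (tensorπ G G' γ)) =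
      ∑ p ∈ Finset.HasAntidiagonal.antidiagonal γ,
        finrank k (LinearMap.range (G.π p.1)) * finrank k (LinearMap.range (G'.π p.2)) := by
  have := G.fd
  have := G'.fd
  have h := finrank_range_sum (Finset.HasAntidiagonal.antidiagonal γ)
    (fun p => TensorProduct.map (G.π p.1) (G'.π p.2)) ?_ ?_
    (fun p _ => (finrank_range_map _ _).1)
  · refine ⟨h.1, h.2.trans (Finset.sum_congr rfl fun p _ => (finrank_range_map _ _).2)⟩
  · intro p _ z
    induction z using TensorProduct.induction_on with
    | zero => simp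
    | add a b ha hb => simp only [map_add, ha, hb]
    | tmul x y => simp [G.idem, G'.idem]
  · intro p _ q _ hpq z
    induction z using TensorProduct.induction_on with
    | zero => simp
    | add a b ha hb => simp only [map_add, ha, hb, add_zero]
    | tmul x y =>
      by_cases h1 : p.1 = q.1
      · have h2 : p.2 ≠ q.2 := fun h2 => hpq (Prod.ext h1 h2)
        simp [G'.orth _ _ _ h2]
      · simp [G.orth _ _ _ h1]

/-- The tensor product grading. -/
noncomputable def Grading.tensor : Grading k (M ⊗[k] N) ι where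
  π := tensorπ G G'
  idem γ z := by
    refine tensor_ind G G' (fun z => tensorπ G G' γ (tensorπ G G' γ z) = tensorπ G G' γ z)
      (by simp) (fun a b ha hb => by simp only [map_add, ha, hb]) (fun x y α β hx hy => ?_) z
    rw [tensorπ_tmul G G' hx hy]
    split_ifs with h
    · rw [tensorπ_tmul G G' hx hy, if_pos h]
    · simp
  orth γ γ' z hne := by
    refine tensor_ind G G' (fun z => tensorπ G G' γ (tensorπ G G' γ' z) = 0)
      (by simp) (fun a b ha hb => by simp only [map_add, ha, hb, add_zero])
      (fun x y α β hx hy => ?_) z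
    rw [tensorπ_tmul G G' hx hy]
    split_ifs with h
    · rw [tensorπ_tmul G G' hx hy, if_neg (h ▸ hne)]
    · simp
  fin z := by
    have : ∃ s : Finset (ι →₀ ℕ), ∀ t, s ⊆ t → ∑ γ ∈ t, tensorπ G G' γ z = z := by
      refine tensor_ind G G'
        (fun z => ∃ s : Finset (ι →₀ ℕ), ∀ t, s ⊆ t → ∑ γ ∈ t, tensorπ G G' γ z = z)
        ⟨∅, by simp⟩ ?_ (fun x y α β hx hy => ⟨{α + β}, fun t ht => ?_⟩) z
      · rintro a b ⟨s, hs⟩ ⟨s', hs'⟩
        refine ⟨s ∪ s', fun t ht => ?_⟩
        simp only [map_add, Finset.sum_add_distrib]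
        rw [hs t (Finset.subset_union_left.trans ht), hs' t (Finset.subset_union_right.trans ht)]
      · simp only [tensorπ_tmul G G' hx hy]
        rw [Finset.sum_ite_eq', if_pos (ht (Finset.mem_singleton_self _))]
    obtain ⟨s, hs⟩ := this
    exact ⟨s, hs s le_rfl⟩
  fd γ := (tensorπ_fin G G' γ).1

lemma Grading.coeff_H_top (γ : ι →₀ ℕ) :
    MvPowerSeries.coeff γ (G.H ⊤) = (finrank k (LinearMap.range (G.π γ)) : ℤ) := by
  rw [Grading.coeff_H, Submodule.map_top]

lemma Grading.tensor_H : (G.tensor G').H ⊤ = G.H ⊤ * G'.H ⊤ := by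
  ext γ
  rw [MvPowerSeries.coeff_mul]
  simp only [Grading.coeff_H_top]
  have := (tensorπ_fin G G' γ).2
  exact_mod_cast this

end

end Crest.Agent.R180
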