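import Crest.Agent.R180.Filtr
import Crest.Agent.R180.Tensor

/-!
Pull-back of good primes along a graded map.
-/

set_option autoImplicit false
set_option linter.unusedSectionVars false

namespace Crest.Agent.R180

open Module MvPolynomial TensorProduct

variable {ι : Type} [Fintype ι] [DecidableEq ι] {k : Type} [Field k]

/-- A linear map sending monomials to homogeneous elements commutes with the projections. -/
lemma Wt.π_comm_of_monomial {σ : Type} [Fintype σ] [DecidableEq σ] (W : Wt σ ι) {N : Type*}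
    [AddCommGroup N] [Module k N] (G' : Grading k N ι) (Z : MvPolynomial σ k →ₗ[k] N)
    (h : ∀ d, G'.π (Finsupp.weight W.w d) (Z (monomial d 1)) = Z (monomial d 1))
    (γ : ι →₀ ℕ) (x : MvPolynomial σ k) : G'.π γ (Z x) = Z ((W.G k).π γ x) := by
  induction x using MvPolynomial.induction_on' with
  | monomial d a =>
    rw [← mul_one a, ← smul_eq_mul, ← smul_monomial]
    simp only [map_smul]
    congr 1
    rw [Grading.π_of_hom (h d), Grading.π_of_hom
      ((W.π_eq_self_iff _ _).2 (isWeightedHomogeneous_monomial W.w d 1 rfl))]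
    split_ifs <;> simp
  | add p q hp hq => simp only [map_add, hp, hq]

lemma pullback_weight_mapDomain {σ τ : Type} (w : τ → ι →₀ ℕ) (f : σ → τ) (d : σ →₀ ℕ) :
    Finsupp.weight w (Finsupp.mapDomain f d) = Finsupp.weight (w ∘ f) d := by
  induction d using Finsupp.induction_linear with
  | zero => simp
  | add a b ha hb => rw [Finsupp.mapDomain_add, map_add, map_add, ha, hb]
  | single j n => simp [Finsupp.weight_single]

lemma pullback_rename_hom {σ τ : Type} (w : τ → ι →₀ ℕ) (f : σ → τ) {p : MvPolynomial σ k}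
    {δ : ι →₀ ℕ} (hp : p.IsWeightedHomogeneous (w ∘ f) δ) :
    (rename f p).IsWeightedHomogeneous w δ := by
  rw [← p.support_sum_monomial_coeff, map_sum]
  refine IsWeightedHomogeneous.sum _ _ _ fun d hd => ?_
  rw [rename_monomial]
  refine isWeightedHomogeneous_monomial _ _ _ ?_
  rw [pullback_weight_mapDomain]
  exact hp (mem_support_iff.1 hd)

lemma pullback_range_rename {σ τ : Type} [Fintype σ] [DecidableEq τ] (f : σ → τ) :
    (rename f : MvPolynomial σ k →ₐ[k] MvPolynomial τ k).range =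
      supported k ((Finset.univ.image f : Finset τ) : Set τ) := by
  rw [supported_eq_adjoin_X, ← Algebra.map_top, ← MvPolynomial.adjoin_range_X,
    AlgHom.map_adjoin]
  congr 1
  ext p
  simp

section

variable {σ₀ σ₁ : Type} [Fintype σ₀] [DecidableEq σ₀] [Fintype σ₁] [DecidableEq σ₁]

/-- Sum of two weight systems. -/
def Wt.sum (W₀ : Wt σ₀ ι) (W₁ : Wt σ₁ ι) : Wt (σ₀ ⊕ σ₁) ι where
  w := Sum.elim W₀.w W₁.w
  ne j := by
    cases j with
    | inl j => exact W₀.ne j
    | inr j => exact W₁.ne j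

/-- The polynomial ring on a sum maps to the tensor product. -/
noncomputable def pullbackE (k σ₀ σ₁ : Type) [Field k] :
    MvPolynomial (σ₀ ⊕ σ₁) k →ₐ[k] MvPolynomial σ₀ k ⊗[k] MvPolynomial σ₁ k :=
  aeval (Sum.elim (fun x => X x ⊗ₜ 1) (fun y => 1 ⊗ₜ X y))

lemma pullbackE_inl (f : MvPolynomial σ₀ k) :
    pullbackE k σ₀ σ₁ (rename Sum.inl f) = f ⊗ₜ 1 := by
  have : (pullbackE k σ₀ σ₁).comp (rename Sum.inl) = Algebra.TensorProduct.includeLeft := by
    ext1 x
    simp [pullbackE]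
  exact congrArg (fun g : MvPolynomial σ₀ k →ₐ[k] _ => g f) this

lemma pullbackE_inr (f : MvPolynomial σ₁ k) :
    pullbackE k σ₀ σ₁ (rename Sum.inr f) = 1 ⊗ₜ f := by
  have : (pullbackE k σ₀ σ₁).comp (rename Sum.inr) = Algebra.TensorProduct.includeRight := by
    ext1 x
    simp [pullbackE]
  exact congrArg (fun g : MvPolynomial σ₁ k →ₐ[k] _ => g f) this

lemma pullbackE_surjective : Function.Surjective (pullbackE k σ₀ σ₁) := by
  intro z
  induction z using TensorProduct.induction_on with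
  | zero => exact ⟨0, map_zero _⟩
  | add a b ha hb =>
    obtain ⟨a, rfl⟩ := ha
    obtain ⟨b, rfl⟩ := hb
    exact ⟨a + b, map_add _ _ _⟩
  | tmul x y =>
    exact ⟨rename Sum.inl x * rename Sum.inr y, by
      rw [map_mul, pullbackE_inl, pullbackE_inr, Algebra.TensorProduct.tmul_mul_tmul, mul_one,
        one_mul]⟩

lemma pullbackE_monomial (W₀ : Wt σ₀ ι) (W₁ : Wt σ₁ ι) (d : σ₀ ⊕ σ₁ →₀ ℕ) :
    ∃ (a : MvPolynomial σ₀ k) (b : MvPolynomial σ₁ k) (α β : ι →₀ ℕ),
      a.IsWeightedHomogeneous W₀.w α ∧ b.IsWeightedHomogeneous W₁.w β ∧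
      Finsupp.weight (W₀.sum W₁).w d = α + β ∧ pullbackE k σ₀ σ₁ (monomial d 1) = a ⊗ₜ b := by
  induction d using Finsupp.induction_linear with
  | zero =>
    exact ⟨1, 1, 0, 0, isWeightedHomogeneous_one _ _, isWeightedHomogeneous_one _ _, by simp,
      map_one _⟩
  | add d d' h h' =>
    obtain ⟨a, b, α, β, h1, h2, h3, h4⟩ := h
    obtain ⟨a', b', α', β', h1', h2', h3', h4'⟩ := h'
    refine ⟨a * a', b * b', α + α', β + β', h1.mul h1', h2.mul h2', ?_, ?_⟩
    · rw [map_add, h3, h3', add_add_add_comm]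
    · rw [← one_mul (1 : k), ← monomial_mul, map_mul, h4, h4', Algebra.TensorProduct.tmul_mul_tmul]
  | single j n =>
    cases j with
    | inl j =>
      refine ⟨monomial (Finsupp.single j n) 1, 1, _, 0, isWeightedHomogeneous_monomial _ _ _ rfl,
        isWeightedHomogeneous_one _ _, by simp [Finsupp.weight_single, Wt.sum], ?_⟩
      rw [← pullbackE_inl, rename_monomial, Finsupp.mapDomain_single]
    | inr j =>
      refine ⟨1, monomial (Finsupp.single j n) 1, 0, _, isWeightedHomogeneous_one _ _,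
        isWeightedHomogeneous_monomial _ _ _ rfl, by simp [Finsupp.weight_single, Wt.sum], ?_⟩
      rw [← pullbackE_inr, rename_monomial, Finsupp.mapDomain_single]

/-- The product ideal and its Hilbert series. -/
lemma exists_prod_ideal (W₀ : Wt σ₀ ι) (W₁ : Wt σ₁ ι) {𝔭 : Ideal (MvPolynomial σ₀ k)}
    {𝔮 : Ideal (MvPolynomial σ₁ k)} (h₀ : W₀.IHom 𝔭) (h₁ : W₁.IHom 𝔮) :
    ∃ J : Ideal (MvPolynomial (σ₀ ⊕ σ₁) k), (W₀.sum W₁).IHom J ∧
      (W₀.sum W₁).HQ J = W₀.HQ 𝔭 * W₁.HQ 𝔮 ∧ (∀ f ∈ 𝔭, rename Sum.inl f ∈ J) ∧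
      ∀ f ∈ 𝔮, rename Sum.inr f ∈ J := by
  let Pi := (Algebra.TensorProduct.map (Ideal.Quotient.mkₐ k 𝔭) (Ideal.Quotient.mkₐ k 𝔮)).comp
    (pullbackE k σ₀ σ₁)
  let Z : MvPolynomial (σ₀ ⊕ σ₁) k →ₗ[k]
      (MvPolynomial σ₀ k ⧸ 𝔭.restrictScalars k) ⊗[k] (MvPolynomial σ₁ k ⧸ 𝔮.restrictScalars k) :=
    TensorProduct.map (𝔭.restrictScalars k).mkQ (𝔮.restrictScalars k).mkQ ∘ₗ
      (pullbackE k σ₀ σ₁).toLinearMap
  let e := TensorProduct.congr (Submodule.Quotient.restrictScalarsEquiv k 𝔭)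
    (Submodule.Quotient.restrictScalarsEquiv k 𝔮)
  have he : ∀ f, e (Z f) = Pi f := by
    intro f
    change e (TensorProduct.map _ _ (pullbackE k σ₀ σ₁ f)) =
      Algebra.TensorProduct.map _ _ (pullbackE k σ₀ σ₁ f)
    generalize pullbackE k σ₀ σ₁ f = z
    induction z using TensorProduct.induction_on with
    | zero => simp
    | add a b ha hb => simp only [map_add, ha, hb]
    | tmul x y => rfl
  have hker : (RingHom.ker Pi).restrictScalars k = (⊥ : Submodule k _).comap Z := by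
    ext f
    rw [Submodule.restrictScalars_mem, RingHom.mem_ker, ← he, Submodule.mem_comap,
      Submodule.mem_bot, LinearEquiv.map_eq_zero_iff]
  let G' := ((W₀.G k).quot h₀).tensor ((W₁.G k).quot h₁)
  have hZ : ∀ γ x, G'.π γ (Z x) = Z (((W₀.sum W₁).G k).π γ x) := by
    refine (W₀.sum W₁).π_comm_of_monomial G' Z fun d => ?_
    obtain ⟨a, b, α, β, h1, h2, h3, h4⟩ := pullbackE_monomial (k := k) W₀ W₁ d
    have : Z (monomial d 1) = (𝔭.restrictScalars k).mkQ a ⊗ₜ (𝔮.restrictScalars k).mkQ b := by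
      change TensorProduct.map _ _ (pullbackE k σ₀ σ₁ _) = _
      rw [h4, TensorProduct.map_tmul]
    rw [this, h3]
    refine (tensorπ_tmul ((W₀.G k).quot h₀) ((W₁.G k).quot h₁) (α := α) (β := β) ?_ ?_ _).trans
      (if_pos rfl)
    · rw [Grading.quot_π, (W₀.π_eq_self_iff _ _).2 h1]
    · rw [Grading.quot_π, (W₁.π_eq_self_iff _ _).2 h2]
  have hs : Function.Surjective Z :=
    (TensorProduct.map_surjective (Submodule.mkQ_surjective _) (Submodule.mkQ_surjective _)).comp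
      pullbackE_surjective
  refine ⟨RingHom.ker Pi, ?_, ?_, fun f hf => ?_, fun f hf => ?_⟩
  · rw [Wt.IHom, hker]
    intro γ x hx
    rw [Submodule.mem_comap, Submodule.mem_bot] at hx ⊢
    rw [← hZ, hx, map_zero]
  · rw [Wt.HQ, hker, Grading.H_sub_comap _ G' Z hZ Grading.Hom.bot
      (by rw [LinearMap.range_eq_top.2 hs, top_sup_eq]), Grading.H_bot, sub_zero,
      Grading.tensor_H, Grading.quot_H, Grading.quot_H]
    rfl
  · rw [RingHom.mem_ker]
    change Algebra.TensorProduct.map _ _ (pullbackE k σ₀ σ₁ _) = 0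
    rw [pullbackE_inl, Algebra.TensorProduct.map_tmul, Ideal.Quotient.mkₐ_eq_mk,
      Ideal.Quotient.eq_zero_iff_mem.2 hf, zero_tmul]
  · rw [RingHom.mem_ker]
    change Algebra.TensorProduct.map _ _ (pullbackE k σ₀ σ₁ _) = 0
    rw [pullbackE_inr, Algebra.TensorProduct.map_tmul, Ideal.Quotient.mkₐ_eq_mk k 𝔮,
      Ideal.Quotient.eq_zero_iff_mem.2 hf, tmul_zero]

end

theorem Wt.Good.pullback {σ₀ σ₁ : Type} [Fintype σ₀] [DecidableEq σ₀] [Fintype σ₁] [DecidableEq σ₁]
    {Ω : Type} [CommRing Ω] [IsDomain Ω] {ev : MvPolynomial ι ℤ →+* Ω}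
    {W₀ : Wt σ₀ ι} {W₁ : Wt σ₁ ι} {𝔭 : Ideal (MvPolynomial σ₀ k)} {𝔮 : Ideal (MvPolynomial σ₁ k)}
    {c c' : ℕ} (h₀ : W₀.Good ev Finset.univ 𝔭 c) (h₁ : W₁.Good ev Finset.univ 𝔮 c')
    (φ : σ₁ → MvPolynomial σ₀ k) (hφ : ∀ y, (φ y).IsWeightedHomogeneous W₀.w (W₁.w y)) :
    ∃ 𝔭' c'', 𝔭 ≤ 𝔭' ∧ (∀ f ∈ 𝔮, aeval φ f ∈ 𝔭') ∧ c'' ≤ c + c' ∧
      W₀.Good ev Finset.univ 𝔭' c'' := by
  obtain ⟨J, hJ, hHQ, hl, hr⟩ := exists_prod_ideal W₀ W₁ h₀.hom h₁.hom
  set W := W₀.sum W₁ with hW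
  obtain ⟨κ, hκ, hev⟩ := h₀.cl
  obtain ⟨κ', hκ', hev'⟩ := h₁.cl
  have hc := h₀.le
  have hc' := h₁.le
  have hcard : (Finset.univ : Finset (σ₀ ⊕ σ₁)).card =
      (Finset.univ : Finset σ₀).card + (Finset.univ : Finset σ₁).card := by simp
  have hden : den W.w Finset.univ = den W₀.w Finset.univ * den W₁.w Finset.univ := by
    simp only [den, Fintype.prod_sum_type]
    rfl
  obtain ⟨Q₀, hJQ, hQ₀⟩ := W.compat_self.extract (ev := ev) (P := J) (Q := ⊤) hJ Grading.Hom.top
    le_top (Gen.univ J) (fun r hr y _ => Ideal.mul_mem_right _ _ hr) (c := c + c') (by omega)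
    (by
      change GK (W.HQ J) _
      rw [hHQ, show (Finset.univ : Finset (σ₀ ⊕ σ₁)).card - (c + c') =
        ((Finset.univ : Finset σ₀).card - c) + ((Finset.univ : Finset σ₁).card - c') by omega]
      exact GK.mul (W₀.NN_HQ _) (W₁.NN_HQ _) h₀.gk h₁.gk)
    (κ := κ * κ')
    (by
      change Cl _ (W.HQ J) _ _
      rw [hHQ, hden]
      exact hκ.mul hκ')
    (by rw [map_mul]; exact mul_ne_zero hev hev')
  have huniv : (Finset.univ : Finset (σ₀ ⊕ σ₁)) =
      Finset.univ.image Sum.inr ∪ Finset.univ.image Sum.inl := by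
    ext x; cases x <;> simp
  rw [huniv] at hQ₀
  have hrange := pullback_range_rename (k := k) (Sum.inl : σ₀ → σ₀ ⊕ σ₁)
  obtain ⟨Q₁, c'', hQ, hX, hcc, hp, hh, hgen, hle, hgk, hcl⟩ := Wt.Good.elim
    (Sum.elim (fun _ => 0) fun y => rename Sum.inl (φ y)) _
    (by rw [Finset.disjoint_left]; intro x; cases x <;> simp)
    (fun x hx => by
      obtain ⟨y, -, rfl⟩ := Finset.mem_image.1 hx
      rw [← hrange]
      exact ⟨_, rfl⟩)
    (fun x hx => by
      obtain ⟨y, -, rfl⟩ := Finset.mem_image.1 hx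
      exact pullback_rename_hom W.w Sum.inl (hφ y)) hQ₀
  have hcard' : ((Finset.univ : Finset σ₀).image (Sum.inl : σ₀ → σ₀ ⊕ σ₁)).card =
      (Finset.univ : Finset σ₀).card := Finset.card_image_of_injective _ Sum.inl_injective
  have hden' : den W.w ((Finset.univ : Finset σ₀).image (Sum.inl : σ₀ → σ₀ ⊕ σ₁)) =
      den W₀.w Finset.univ := by
    rw [den, Finset.prod_image fun _ _ _ _ h => Sum.inl_injective h]
    rfl
  rw [hcard'] at hle hgk
  rw [hden'] at hcl
  let R : MvPolynomial σ₀ k →ₐ[k] MvPolynomial (σ₀ ⊕ σ₁) k := rename Sum.inl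
  have hZ : ∀ γ x, (W.G k).π γ (R.toLinearMap x) = R.toLinearMap ((W₀.G k).π γ x) :=
    W₀.π_comm_of_monomial (W.G k) R.toLinearMap fun d => (W.π_eq_self_iff _ _).2
      (pullback_rename_hom W.w Sum.inl (isWeightedHomogeneous_monomial _ _ _ rfl))
  have hHQ' : W₀.HQ (Q₁.comap R) = W.HQ Q₁ := by
    have e : (Q₁.comap R).restrictScalars k = (Q₁.restrictScalars k).comap R.toLinearMap := by
      ext; rfl
    rw [Wt.HQ, Wt.HQ, e]
    refine Grading.H_sub_comap (W₀.G k) (W.G k) R.toLinearMap hZ hh ?_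
    rw [eq_top_iff]
    intro r _
    obtain ⟨r', a, b⟩ := hgen r
    rw [← hrange] at a
    obtain ⟨s, rfl⟩ := a
    rw [← add_sub_cancel (R s) r]
    exact Submodule.add_mem_sup ⟨s, rfl⟩ b
  refine ⟨Q₁.comap R, c'', fun f hf => hQ (hJQ (hl f hf)), fun f hf => ?_, hcc,
    Ideal.comap_isPrime _ _, ?_, Gen.univ _, hle, hHQ' ▸ hgk, hHQ' ▸ hcl⟩
  · have h1 : ∀ f : MvPolynomial σ₁ k, rename Sum.inr f - R (aeval φ f) ∈ Q₁ := by
      intro f
      induction f using MvPolynomial.induction_on with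
      | C a => simp [R]
      | add p q hp hq =>
        rw [map_add, map_add, map_add, add_sub_add_comm]
        exact add_mem hp hq
      | mul_X p j hp =>
        have h2 : X (Sum.inr j) - R (φ j) ∈ Q₁ := hX (Sum.inr j) (by simp)
        rw [map_mul, map_mul, map_mul, rename_X, aeval_X,
          show rename Sum.inr p * X (Sum.inr j) - R (aeval φ p) * R (φ j) =
            (rename Sum.inr p - R (aeval φ p)) * X (Sum.inr j) +
              R (aeval φ p) * (X (Sum.inr j) - R (φ j)) by ring]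
        exact add_mem (Q₁.mul_mem_right _ hp) (Q₁.mul_mem_left _ h2)
    have := Q₁.sub_mem (hQ (hJQ (hr f hf))) (h1 f)
    rwa [sub_sub_cancel] at this
  · intro γ x hx
    change R.toLinearMap _ ∈ Q₁
    rw [← hZ]
    exact hh γ _ hx

end Crest.Agent.R180
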