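import Crest.Agent.R180.Twist
import Crest.Agent.R180.Newton

/-!
Tensor products of generic quaternion algebras as twisted group algebras.
-/

set_option autoImplicit false
set_option linter.unusedSectionVars false

namespace Crest.Agent.R180

/-- Index set of the generators. -/
abbrev Ix (N : ℕ) : Type := Fin N × Bool

/-- The grading group. -/
abbrev Hh (N : ℕ) : Type := Ix N → ZMod 2

variable {N : ℕ} {R : Type} [CommRing R] {R' : Type} [CommRing R']

/-- The sign character. -/
def sgn (R : Type) [CommRing R] (x : ZMod 2) : R := (-1) ^ x.val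

lemma zmod2_cases (x : ZMod 2) : x = 0 ∨ x = 1 := by revert x; decide

@[simp] lemma sgn_zero : sgn R 0 = 1 := by simp [sgn]
@[simp] lemma sgn_one : sgn R 1 = -1 := by
  rw [sgn, show (1 : ZMod 2).val = 1 from rfl, pow_one]

lemma sgn_add (x y : ZMod 2) : sgn R (x + y) = sgn R x * sgn R y := by
  rcases zmod2_cases x with rfl | rfl <;> rcases zmod2_cases y with rfl | rfl <;>
    simp [show (1 + 1 : ZMod 2) = 0 from rfl]

lemma sgn_mul_self (x : ZMod 2) : sgn R x * sgn R x = 1 := by
  rcases zmod2_cases x with rfl | rfl <;> simp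

@[simp] lemma map_sgn (f : R →+* R') (x : ZMod 2) : f (sgn R x) = sgn R' x := by simp [sgn]

/-- The bilinear form defining the signs. -/
def bf (χ ψ : Hh N) : ZMod 2 := ∑ a : Fin N, χ (a, true) * ψ (a, false)

lemma bf_add_left (a b c : Hh N) : bf (a + b) c = bf a c + bf b c := by
  simp [bf, add_mul, Finset.sum_add_distrib]

lemma bf_add_right (a b c : Hh N) : bf a (b + c) = bf a b + bf a c := by
  simp [bf, mul_add, Finset.sum_add_distrib]

@[simp] lemma bf_zero_left (a : Hh N) : bf 0 a = 0 := by simp [bf]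
@[simp] lemma bf_zero_right (a : Hh N) : bf a 0 = 0 := by simp [bf]

/-- The symplectic form. -/
def om (χ ψ : Hh N) : ZMod 2 := bf χ ψ + bf ψ χ

lemma om_add_left (a b c : Hh N) : om (a + b) c = om a c + om b c := by
  simp only [om, bf_add_left, bf_add_right]; ring

lemma om_add_right (a b c : Hh N) : om a (b + c) = om a b + om a c := by
  simp only [om, bf_add_left, bf_add_right]; ring

@[simp] lemma om_zero_left (a : Hh N) : om 0 a = 0 := by simp [om]
@[simp] lemma om_zero_right (a : Hh N) : om a 0 = 0 := by simp [om]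

lemma val_cocycle (a b d : ZMod 2) :
    a.val * b.val + (a + b).val * d.val = b.val * d.val + a.val * (b + d).val := by
  revert a b d; decide

lemma val_add_two (a b : ZMod 2) : 2 * (a.val * b.val) + (a + b).val = a.val + b.val := by
  revert a b; decide

lemma val_le_one (a : ZMod 2) : a.val ≤ 1 := by revert a; decide

lemma Hh_add_self (a : Hh N) : a + a = 0 := by
  ext i
  rcases zmod2_cases (a i) with h | h <;> simp [h]
  rfl

/-- The cocycle of the tensor product of quaternion algebras. -/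
def qc (s : Ix N → R) : Coc (Hh N) R where
  c χ ψ := sgn R (bf χ ψ) * ∏ i, s i ^ ((χ i).val * (ψ i).val)
  assoc a b d := by
    have h1 : (∏ i, s i ^ ((a i).val * (b i).val)) * ∏ i, s i ^ (((a + b) i).val * (d i).val) =
        (∏ i, s i ^ ((b i).val * (d i).val)) * ∏ i, s i ^ ((a i).val * ((b + d) i).val) := by
      rw [← Finset.prod_mul_distrib, ← Finset.prod_mul_distrib]
      refine Finset.prod_congr rfl fun i _ => ?_
      rw [← pow_add, ← pow_add, Pi.add_apply, Pi.add_apply, val_cocycle]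
    rw [bf_add_left, bf_add_right, sgn_add, sgn_add]
    linear_combination (sgn R (bf a b) * sgn R (bf a d) * sgn R (bf b d)) * h1
  zero_left a := by simp
  zero_right a := by simp

lemma qc_c (s : Ix N → R) (χ ψ : Hh N) :
    (qc s).c χ ψ = sgn R (bf χ ψ) * ∏ i, s i ^ ((χ i).val * (ψ i).val) := rfl

lemma qc_comm (s : Ix N → R) (χ ψ : Hh N) : (qc s).c χ ψ = sgn R (om χ ψ) * (qc s).c ψ χ := by
  rw [qc_c, qc_c, om, sgn_add]
  simp only [mul_comm (χ _).val]
  linear_combination (-(sgn R (bf χ ψ) * ∏ i, s i ^ ((ψ i).val * (χ i).val))) *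
    sgn_mul_self (R := R) (bf ψ χ)

/-- The tensor product of quaternion algebras. -/
abbrev QA (s : Ix N → R) : Type := TA (qc s)

/-- The degree of a basis element. -/
noncomputable def lift (χ : Hh N) : Ix N →₀ ℕ := Finsupp.equivFunOnFinite.symm fun i => (χ i).val

@[simp] lemma lift_apply (χ : Hh N) (i : Ix N) : lift χ i = (χ i).val := rfl

/-- Base change. -/
def bc (f : R →+* R') (s : Ix N → R) (s' : Ix N → R') (hs : ∀ i, f (s i) = s' i) :
    QA s →+* QA s' :=
  TA.map (qc s) (qc s') f (fun _ => 1) rfl (fun a b => by simp [qc_c, hs])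

@[simp] lemma bc_apply {f : R →+* R'} {s : Ix N → R} {s' : Ix N → R'} (hs : ∀ i, f (s i) = s' i)
    (x : QA s) (χ : Hh N) : bc f s s' hs x χ = f (x χ) := by simp [bc]

lemma bc_smul {f : R →+* R'} {s : Ix N → R} {s' : Ix N → R'} (hs : ∀ i, f (s i) = s' i)
    (r : R) (x : QA s) : bc f s s' hs (r • x) = f r • bc f s s' hs x := TA.map_smul' r x

lemma bc_algebraMap {f : R →+* R'} {s : Ix N → R} {s' : Ix N → R'} (hs : ∀ i, f (s i) = s' i)
    (r : R) : bc f s s' hs (algebraMap R _ r) = algebraMap R' _ (f r) := TA.map_algebraMap r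

lemma bc_rel [Algebra ℚ R] [Algebra ℚ R'] {f : R →+* R'} {s : Ix N → R} {s' : Ix N → R'}
    (hs : ∀ i, f (s i) = s' i) (m : ℕ) (x : QA s) :
    bc f s s' hs (rel m (TA.tr _) x) = rel m (TA.tr _) (bc f s s' hs x) :=
  rel_map f _ (bc_smul hs) _ _ (fun a => TA.tr_map a) m x

/-- The monomial `t ^ γ`. -/
noncomputable def tpow (t : Ix N → R) (γ : Ix N →₀ ℕ) : R := ∏ i, t i ^ γ i

lemma tpow_add (t : Ix N → R) (γ γ' : Ix N →₀ ℕ) : tpow t (γ + γ') = tpow t γ * tpow t γ' := by
  simp [tpow, pow_add, Finset.prod_mul_distrib]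

lemma tpow_single (t : Ix N → R) (i : Ix N) (n : ℕ) : tpow t (Finsupp.single i n) = t i ^ n := by
  rw [tpow, Finset.prod_eq_single i]
  · simp
  · intro j _ hj
    simp [Finsupp.single_eq_of_ne hj]
  · simp

lemma map_tpow (f : R →+* R') (t : Ix N → R) (γ : Ix N →₀ ℕ) :
    f (tpow t γ) = tpow (fun i => f (t i)) γ := by simp [tpow]

lemma tpow_ne_zero [IsDomain R] {t : Ix N → R} (ht : ∀ i, t i ≠ 0) (γ : Ix N →₀ ℕ) :
    tpow t γ ≠ 0 := Finset.prod_ne_zero_iff.2 fun i _ => pow_ne_zero _ (ht i)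

/-- Splitting: base change to a ring where the parameters are squares. -/
noncomputable def rs (f : R →+* R') (s : Ix N → R) (t : Ix N → R') (hs : ∀ i, f (s i) = t i ^ 2) :
    QA s →+* QA (fun _ : Ix N => (1 : R')) :=
  TA.map (qc s) (qc _) f (fun χ => tpow t (lift χ)) (by simp [tpow]) (fun a b => by
    simp only [qc_c, tpow, map_mul, map_sgn, map_prod, map_pow, hs, one_pow,
      Finset.prod_const_one, mul_one, lift_apply]
    rw [mul_assoc, ← Finset.prod_mul_distrib, ← Finset.prod_mul_distrib, mul_comm]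
    congr 1
    refine Finset.prod_congr rfl fun i _ => ?_
    rw [← pow_mul, ← pow_add, ← pow_add, Pi.add_apply, val_add_two])

@[simp] lemma rs_apply {f : R →+* R'} {s : Ix N → R} {t : Ix N → R'}
    (hs : ∀ i, f (s i) = t i ^ 2) (x : QA s) (χ : Hh N) :
    rs f s t hs x χ = f (x χ) * tpow t (lift χ) := rfl

lemma rs_smul {f : R →+* R'} {s : Ix N → R} {t : Ix N → R'} (hs : ∀ i, f (s i) = t i ^ 2)
    (r : R) (x : QA s) : rs f s t hs (r • x) = f r • rs f s t hs x := TA.map_smul' r x

lemma rs_algebraMap {f : R →+* R'} {s : Ix N → R} {t : Ix N → R'} (hs : ∀ i, f (s i) = t i ^ 2)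
    (r : R) : rs f s t hs (algebraMap R _ r) = algebraMap R' _ (f r) := TA.map_algebraMap r

lemma rs_rel [Algebra ℚ R] [Algebra ℚ R'] {f : R →+* R'} {s : Ix N → R} {t : Ix N → R'}
    (hs : ∀ i, f (s i) = t i ^ 2) (m : ℕ) (x : QA s) :
    rs f s t hs (rel m (TA.tr _) x) = rel m (TA.tr _) (rs f s t hs x) :=
  rel_map f _ (rs_smul hs) _ _ (fun a => TA.tr_map a) m x

/-- Sign automorphisms. -/
def sg (s : Ix N → R) (η : Hh N) : QA s →+* QA s :=
  TA.map (qc s) (qc s) (RingHom.id R) (fun χ => sgn R (om η χ)) (by simp)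
    (fun a b => by rw [om_add_right, sgn_add, RingHom.id_apply, mul_comm])

@[simp] lemma sg_apply {s : Ix N → R} (η : Hh N) (x : QA s) (χ : Hh N) :
    sg s η x χ = x χ * sgn R (om η χ) := rfl

lemma sg_smul {s : Ix N → R} (η : Hh N) (r : R) (x : QA s) : sg s η (r • x) = r • sg s η x :=
  TA.map_smul' r x

lemma sg_zero {s : Ix N → R} (x : QA s) : sg s 0 x = x := by ext; simp

lemma sg_sg {s : Ix N → R} (η θ : Hh N) (x : QA s) : sg s η (sg s θ x) = sg s (η + θ) x := by
  ext χ; simp only [sg_apply, om_add_left, sgn_add]; ring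

lemma E_mul_eq {s : Ix N → R} (η : Hh N) (x : QA s) : TA.E _ η * x = sg s η x * TA.E _ η := by
  ext χ
  rw [TA.E_mul_apply, TA.mul_E_apply, sg_apply, qc_comm]
  ring

lemma E_mul_self {s : Ix N → R} (η : Hh N) :
    (TA.E _ η * TA.E _ η : QA s) = algebraMap R _ ((qc s).c η η) := by
  rw [TA.E_mul_E, Hh_add_self, Algebra.algebraMap_eq_smul_one, TA.one_def]

end Crest.Agent.R180
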