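import Mathlib

/-!
Multigraded Hilbert series calculus, series level: classes (lowest-order terms of
K-polynomials) and polynomial growth.
-/

set_option autoImplicit false
set_option linter.unusedSectionVars false

namespace Crest.Agent.R180

open Polynomial

variable {ι : Type} [Fintype ι] [DecidableEq ι]

/-- Substitution `t_i ↦ 1 + τ ξ_i`. -/
noncomputable def Phi : MvPolynomial ι ℤ →+* Polynomial (MvPolynomial ι ℤ) :=
  MvPolynomial.eval₂Hom (Int.castRingHom _) (fun i => 1 + C (MvPolynomial.X i) * X)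

/-- The linear form attached to a degree. -/
noncomputable def lin (δ : ι →₀ ℕ) : MvPolynomial ι ℤ :=
  ∑ i, (δ i : MvPolynomial ι ℤ) * MvPolynomial.X i

lemma lin_add (a b : ι →₀ ℕ) : lin (a + b) = lin a + lin b := by
  simp [lin, add_mul, Finset.sum_add_distrib]

lemma lin_single (i : ι) (n : ℕ) :
    lin (Finsupp.single i n) = (n : MvPolynomial ι ℤ) * MvPolynomial.X i := by
  rw [lin, Finset.sum_eq_single i]
  · simp
  · intro j _ hj
    simp [Finsupp.single_eq_of_ne hj]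
  · simp

lemma lin_zero : lin (0 : ι →₀ ℕ) = 0 := by simp [lin]

lemma Phi_monomial (δ : ι →₀ ℕ) : ∃ P : Polynomial (MvPolynomial ι ℤ),
    Phi (MvPolynomial.monomial δ (1 : ℤ)) = 1 + X * P ∧ P.coeff 0 = lin δ := by
  induction δ using Finsupp.induction_linear with
  | zero => exact ⟨0, by simp [Phi], by simp [lin_zero]⟩
  | add a b ha hb =>
    obtain ⟨P, hP, hP0⟩ := ha
    obtain ⟨Q, hQ, hQ0⟩ := hb
    refine ⟨P + Q + X * P * Q, ?_, ?_⟩
    · rw [← one_mul (1 : ℤ), ← MvPolynomial.monomial_mul, map_mul, hP, hQ]; ring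
    · simp [lin_add, hP0, hQ0, mul_assoc]
  | single i n =>
    induction n with
    | zero => exact ⟨0, by simp [Phi], by simp [lin_zero]⟩
    | succ n ih =>
      obtain ⟨P, hP, hP0⟩ := ih
      refine ⟨P + C (MvPolynomial.X i) + X * P * C (MvPolynomial.X i), ?_, ?_⟩
      · have : MvPolynomial.monomial (Finsupp.single i (n + 1)) (1 : ℤ) =
            MvPolynomial.monomial (Finsupp.single i n) (1 : ℤ) * MvPolynomial.X i := by
          rw [MvPolynomial.X, MvPolynomial.monomial_mul, ← Finsupp.single_add, mul_one]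
        rw [this, map_mul, hP]
        simp only [Phi, MvPolynomial.eval₂Hom_X']
        ring
      · simp [hP0, lin_single, lin_add, mul_assoc]

/-- `h * den` is a polynomial whose image under `Phi` is divisible by `τ ^ c`, with `κ` the
coefficient of `τ ^ c`. -/
def Cl (den : MvPolynomial ι ℤ) (h : MvPowerSeries ι ℤ) (c : ℕ) (κ : MvPolynomial ι ℤ) : Prop :=
  ∃ K : MvPolynomial ι ℤ, (K : MvPowerSeries ι ℤ) = h * den ∧
    ∃ P : Polynomial (MvPolynomial ι ℤ), Phi K = X ^ c * P ∧ P.coeff 0 = κ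

namespace Cl

variable {den den' : MvPolynomial ι ℤ} {h h' : MvPowerSeries ι ℤ} {c c' : ℕ}
  {κ κ' : MvPolynomial ι ℤ}

lemma zero : Cl den 0 c 0 := ⟨0, by simp, 0, by simp, by simp⟩

lemma add (a : Cl den h c κ) (b : Cl den h' c κ') : Cl den (h + h') c (κ + κ') := by
  obtain ⟨K, hK, P, hP, rfl⟩ := a
  obtain ⟨K', hK', P', hP', rfl⟩ := b
  exact ⟨K + K', by rw [MvPolynomial.coe_add, hK, hK', add_mul], P + P',
    by rw [map_add, hP, hP', mul_add], by simp⟩

lemma unique (a : Cl den h c κ) (b : Cl den h c κ') : κ = κ' := by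
  obtain ⟨K, hK, P, hP, rfl⟩ := a
  obtain ⟨K', hK', P', hP', rfl⟩ := b
  have : K = K' := MvPolynomial.coe_injective _ _ (hK.trans hK'.symm)
  subst this
  have := mul_left_cancel₀ (pow_ne_zero c X_ne_zero) (hP.symm.trans hP')
  rw [this]

lemma of_lt (a : Cl den h c κ) (hc : c' < c) : Cl den h c' 0 := by
  obtain ⟨K, hK, P, hP, rfl⟩ := a
  obtain ⟨d, rfl⟩ := Nat.exists_eq_add_of_lt hc
  exact ⟨K, hK, X * (X ^ d * P), by rw [hP]; ring, by simp⟩

lemma mul (a : Cl den h c κ) (b : Cl den' h' c' κ') :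
    Cl (den * den') (h * h') (c + c') (κ * κ') := by
  obtain ⟨K, hK, P, hP, rfl⟩ := a
  obtain ⟨K', hK', P', hP', rfl⟩ := b
  exact ⟨K * K', by rw [MvPolynomial.coe_mul, MvPolynomial.coe_mul, hK, hK']; ring, P * P',
    by rw [map_mul, hP, hP']; ring, by simp⟩

lemma shift (a : Cl den h c κ) (γ : ι →₀ ℕ) :
    Cl den (MvPowerSeries.monomial γ (1 : ℤ) * h) c κ := by
  obtain ⟨K, hK, P, hP, rfl⟩ := a
  obtain ⟨Q, hQ, -⟩ := Phi_monomial γ
  refine ⟨MvPolynomial.monomial γ 1 * K, ?_, (1 + X * Q) * P, ?_, by simp⟩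
  · rw [MvPolynomial.coe_mul, MvPolynomial.coe_monomial, hK, mul_assoc]
  · rw [map_mul, hQ, hP]; ring

lemma mul_den (a : Cl den h c κ) (δ : ι →₀ ℕ) :
    Cl (den * (1 - MvPolynomial.monomial δ 1)) h (c + 1) (-(lin δ * κ)) := by
  obtain ⟨K, hK, P, hP, rfl⟩ := a
  obtain ⟨Q, hQ, hQ0⟩ := Phi_monomial δ
  refine ⟨K * (1 - MvPolynomial.monomial δ 1), ?_, -(Q * P), ?_, by simp [hQ0]⟩
  · rw [MvPolynomial.coe_mul, MvPolynomial.coe_mul, hK, mul_assoc]
  · rw [map_mul, map_sub, map_one, hQ, hP]; ring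

lemma mul_den_two (a : Cl den h c κ) (δ : ι →₀ ℕ) :
    Cl (den * (1 + MvPolynomial.monomial δ 1)) h c (2 * κ) := by
  obtain ⟨K, hK, P, hP, rfl⟩ := a
  obtain ⟨Q, hQ, hQ0⟩ := Phi_monomial δ
  refine ⟨K * (1 + MvPolynomial.monomial δ 1), ?_, (2 + X * Q) * P, ?_, by simp⟩
  · rw [MvPolynomial.coe_mul, MvPolynomial.coe_mul, hK, mul_assoc]
  · rw [map_mul, map_add, map_one, hQ, hP]; ring

lemma coe_one_sub (δ : ι →₀ ℕ) :
    ((1 - MvPolynomial.monomial δ 1 : MvPolynomial ι ℤ) : MvPowerSeries ι ℤ) =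
      1 - MvPowerSeries.monomial δ 1 := by
  have := map_sub (MvPolynomial.coeToMvPowerSeries.ringHom (σ := ι) (R := ℤ)) 1
    (MvPolynomial.monomial δ 1)
  simpa using this

lemma move_iff (δ : ι →₀ ℕ) :
    Cl (den * (1 - MvPolynomial.monomial δ 1)) h c κ ↔
      Cl den (h * (1 - MvPowerSeries.monomial δ 1)) c κ := by
  unfold Cl
  rw [MvPolynomial.coe_mul, coe_one_sub, mul_assoc, mul_comm (den : MvPowerSeries ι ℤ)]

end Cl

/-- Non-negative coefficients. -/
def NN (h : MvPowerSeries ι ℤ) : Prop := ∀ γ, 0 ≤ MvPowerSeries.coeff γ h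

/-- The corner of the box of side `n`. -/
noncomputable def bx (n : ℕ) : ι →₀ ℕ := Finsupp.equivFunOnFinite.symm fun _ => n

lemma le_bx {γ : ι →₀ ℕ} {n : ℕ} : γ ≤ bx n ↔ ∀ i, γ i ≤ n := by
  simp [Finsupp.le_def, bx]

/-- Sum of the coefficients in the box of side `n`. -/
noncomputable def cum (h : MvPowerSeries ι ℤ) (n : ℕ) : ℤ :=
  ∑ γ ∈ Finset.Iic (bx n : ι →₀ ℕ), MvPowerSeries.coeff γ h

/-- Polynomial growth of order at most `e`. -/
def GK (h : MvPowerSeries ι ℤ) (e : ℕ) : Prop := ∃ C : ℤ, ∀ n : ℕ, cum h n ≤ C * (n + 1) ^ e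

lemma cum_add (h h' : MvPowerSeries ι ℤ) (n : ℕ) : cum (h + h') n = cum h n + cum h' n := by
  simp [cum, Finset.sum_add_distrib]

lemma cum_nonneg {h : MvPowerSeries ι ℤ} (hh : NN h) (n : ℕ) : 0 ≤ cum h n :=
  Finset.sum_nonneg fun γ _ => hh γ

lemma cum_mono {h : MvPowerSeries ι ℤ} (hh : NN h) {n m : ℕ} (hnm : n ≤ m) : cum h n ≤ cum h m := by
  apply Finset.sum_le_sum_of_subset_of_nonneg
  · intro γ
    simp only [Finset.mem_Iic, le_bx]
    exact fun h i => (h i).trans hnm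
  · exact fun γ _ _ => hh γ

lemma NN.shift {h : MvPowerSeries ι ℤ} (hh : NN h) (δ : ι →₀ ℕ) :
    NN (MvPowerSeries.monomial δ (1 : ℤ) * h) := by
  intro γ
  rw [MvPowerSeries.coeff_monomial_mul]
  split_ifs
  · rw [one_mul]; exact hh _
  · exact le_rfl

lemma cum_le_shift {h : MvPowerSeries ι ℤ} (hh : NN h) (δ : ι →₀ ℕ) (n : ℕ) :
    cum h n ≤ cum (MvPowerSeries.monomial δ (1 : ℤ) * h) (n + δ.degree) := by
  unfold cum
  have : ∑ γ ∈ Finset.Iic (bx n : ι →₀ ℕ), MvPowerSeries.coeff γ h =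
      ∑ γ ∈ (Finset.Iic (bx n : ι →₀ ℕ)).image (δ + ·),
        MvPowerSeries.coeff γ (MvPowerSeries.monomial δ (1 : ℤ) * h) := by
    rw [Finset.sum_image (fun a _ b _ e => add_left_cancel e)]
    simp [MvPowerSeries.coeff_add_monomial_mul]
  rw [this]
  apply Finset.sum_le_sum_of_subset_of_nonneg
  · intro γ hγ
    obtain ⟨β, hβ, rfl⟩ := Finset.mem_image.1 hγ
    simp only [Finset.mem_Iic, le_bx] at hβ ⊢
    intro i
    have := hβ i
    have h2 := Finsupp.le_degree i δ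
    simp only [Finsupp.coe_add, Pi.add_apply]
    omega
  · exact fun γ _ _ => hh.shift δ γ

lemma cum_shift_le {h : MvPowerSeries ι ℤ} (hh : NN h) {δ : ι →₀ ℕ} (n : ℕ) :
    cum (MvPowerSeries.monomial δ (1 : ℤ) * h) n ≤
      ∑ γ ∈ (Finset.Iic (bx n : ι →₀ ℕ)).filter (fun γ => γ + δ ≤ bx n), MvPowerSeries.coeff γ h := by
  unfold cum
  simp only [MvPowerSeries.coeff_monomial_mul, one_mul]
  rw [← Finset.sum_filter]
  have : ∑ γ ∈ (Finset.Iic (bx n : ι →₀ ℕ)).filter (fun γ => δ ≤ γ),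
      MvPowerSeries.coeff (γ - δ) h =
      ∑ γ ∈ ((Finset.Iic (bx n : ι →₀ ℕ)).filter (fun γ => δ ≤ γ)).image (· - δ),
        MvPowerSeries.coeff γ h := by
    rw [Finset.sum_image]
    intro a ha b hb e
    simp only [Finset.coe_filter, Set.mem_ofPred_eq] at ha hb
    have := congrArg (· + δ) e
    simpa [tsub_add_cancel_of_le ha.2, tsub_add_cancel_of_le hb.2] using this
  rw [this]
  apply Finset.sum_le_sum_of_subset_of_nonneg
  · intro γ hγ
    obtain ⟨β, hβ, rfl⟩ := Finset.mem_image.1 hγ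
    simp only [Finset.mem_filter, Finset.mem_Iic] at hβ ⊢
    exact ⟨tsub_le_self.trans hβ.1, by rw [tsub_add_cancel_of_le hβ.2]; exact hβ.1⟩
  · exact fun γ _ _ => hh γ

lemma GK.of_le {h h' : MvPowerSeries ι ℤ} {e : ℕ} (hg : GK h e) (hle : NN (h - h')) : GK h' e := by
  obtain ⟨C, hC⟩ := hg
  refine ⟨C, fun n => le_trans ?_ (hC n)⟩
  have := cum_add h' (h - h') n
  rw [add_sub_cancel] at this
  have := cum_nonneg hle n
  omega

lemma GK.nonneg_const {h : MvPowerSeries ι ℤ} {e : ℕ} (hg : GK h e) :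
    ∃ C : ℤ, 0 ≤ C ∧ ∀ n : ℕ, cum h n ≤ C * (n + 1) ^ e := by
  obtain ⟨C, hC⟩ := hg
  refine ⟨max C 0, le_max_right _ _, fun n => (hC n).trans ?_⟩
  exact mul_le_mul_of_nonneg_right (le_max_left _ _) (by positivity)

lemma GK.mono {h : MvPowerSeries ι ℤ} {e e' : ℕ} (hg : GK h e) (hle : e ≤ e') : GK h e' := by
  obtain ⟨C, hC0, hC⟩ := hg.nonneg_const
  refine ⟨C, fun n => (hC n).trans ?_⟩
  apply mul_le_mul_of_nonneg_left _ hC0
  exact pow_le_pow_right₀ (by omega) hle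

lemma GK.add {h h' : MvPowerSeries ι ℤ} {e : ℕ} (hg : GK h e) (hg' : GK h' e) : GK (h + h') e := by
  obtain ⟨C, hC⟩ := hg
  obtain ⟨C', hC'⟩ := hg'
  refine ⟨C + C', fun n => ?_⟩
  rw [cum_add, add_mul]
  exact add_le_add (hC n) (hC' n)

lemma GK.of_shift {h : MvPowerSeries ι ℤ} {e : ℕ} (hh : NN h) {δ : ι →₀ ℕ}
    (hg : GK (MvPowerSeries.monomial δ (1 : ℤ) * h) e) : GK h e := by
  obtain ⟨C, hC0, hC⟩ := hg.nonneg_const
  refine ⟨C * (δ.degree + 1) ^ e, fun n => (cum_le_shift hh δ n).trans ((hC _).trans ?_)⟩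
  rw [mul_assoc, ← mul_pow]
  apply mul_le_mul_of_nonneg_left _ hC0
  apply pow_le_pow_left₀ (by positivity)
  push_cast
  nlinarith [Int.natCast_nonneg n, Int.natCast_nonneg δ.degree]

lemma GK.shift {h : MvPowerSeries ι ℤ} {e : ℕ} (hh : NN h) (δ : ι →₀ ℕ) (hg : GK h e) :
    GK (MvPowerSeries.monomial δ (1 : ℤ) * h) e := by
  obtain ⟨C, hC⟩ := hg
  refine ⟨C, fun n => (cum_shift_le hh n).trans (le_trans ?_ (hC n))⟩
  exact Finset.sum_le_sum_of_subset_of_nonneg (Finset.filter_subset _ _) fun γ _ _ => hh γ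

lemma cum_drop {h h' : MvPowerSeries ι ℤ} (hh : NN h) (hh' : NN h') {δ : ι →₀ ℕ}
    (e : h' = h * (1 - MvPowerSeries.monomial δ 1)) (n j : ℕ) :
    (j + 1) * cum h' n ≤ cum h (n + j * δ.degree) := by
  have e1 : h = h' + MvPowerSeries.monomial δ (1 : ℤ) * h := by rw [e]; ring
  induction j with
  | zero =>
    simp only [Nat.cast_zero, zero_add, one_mul, zero_mul, add_zero]
    conv_rhs => rw [e1]
    rw [cum_add]
    have := cum_nonneg (hh.shift δ) n
    omega
  | succ j ih =>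
    have a1 := cum_le_shift hh δ (n + j * δ.degree)
    have a2 : cum h (n + (j + 1) * δ.degree) = cum h' (n + (j + 1) * δ.degree) +
        cum (MvPowerSeries.monomial δ (1 : ℤ) * h) (n + (j + 1) * δ.degree) := by
      rw [← cum_add, ← e1]
    have a3 := cum_mono hh' (show n ≤ n + (j + 1) * δ.degree by omega)
    rw [show n + j * δ.degree + δ.degree = n + (j + 1) * δ.degree by ring] at a1
    push_cast
    nlinarith

lemma GK.drop {h h' : MvPowerSeries ι ℤ} (hh : NN h) (hh' : NN h') {δ : ι →₀ ℕ} {e : ℕ}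
    (eq : h' = h * (1 - MvPowerSeries.monomial δ 1)) (hg : GK h (e + 1)) : GK h' e := by
  obtain ⟨C, hC0, hC⟩ := hg.nonneg_const
  refine ⟨C * (δ.degree + 1) ^ (e + 1), fun n => ?_⟩
  have a1 := (cum_drop hh hh' eq n n).trans (hC _)
  have a2 : C * (((n + n * δ.degree : ℕ) : ℤ) + 1) ^ (e + 1) ≤
      (n + 1) * (C * (δ.degree + 1) ^ (e + 1) * (n + 1) ^ e) := by
    have : ((n : ℤ) + 1) * (C * (δ.degree + 1) ^ (e + 1) * (n + 1) ^ e) =
        C * ((δ.degree + 1) * (n + 1)) ^ (e + 1) := by rw [mul_pow]; ring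
    rw [this]
    apply mul_le_mul_of_nonneg_left _ hC0
    apply pow_le_pow_left₀ (by positivity)
    push_cast
    nlinarith [Int.natCast_nonneg n, Int.natCast_nonneg δ.degree]
  exact le_of_mul_le_mul_left (a1.trans a2) (by positivity)

lemma GK.drop_zero {h h' : MvPowerSeries ι ℤ} (hh : NN h) (hh' : NN h') {δ : ι →₀ ℕ}
    (eq : h' = h * (1 - MvPowerSeries.monomial δ 1)) (hg : GK h 0) : h' = 0 := by
  obtain ⟨C, hC0, hC⟩ := hg.nonneg_const
  have key : ∀ n, cum h' n = 0 := by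
    intro n
    have a1 := (cum_drop hh hh' eq n C.toNat).trans (hC _)
    have a2 := cum_nonneg hh' n
    rw [pow_zero, mul_one, Int.toNat_of_nonneg hC0] at a1
    by_contra hne
    have : 1 ≤ cum h' n := by omega
    nlinarith
  ext γ
  have h1 := key γ.degree
  unfold cum at h1
  rw [Finset.sum_eq_zero_iff_of_nonneg (fun γ _ => hh' γ)] at h1
  rw [h1 γ (by simp only [Finset.mem_Iic, le_bx]; exact fun i => Finsupp.le_degree i γ)]
  simp

lemma NN.mul {h h' : MvPowerSeries ι ℤ} (hh : NN h) (hh' : NN h') : NN (h * h') := by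
  intro γ
  rw [MvPowerSeries.coeff_mul]
  exact Finset.sum_nonneg fun p _ => mul_nonneg (hh _) (hh' _)

lemma cum_mul_le {h h' : MvPowerSeries ι ℤ} (hh : NN h) (hh' : NN h') (n : ℕ) :
    cum (h * h') n ≤ cum h n * cum h' n := by
  unfold cum
  rw [Finset.sum_mul_sum, ← Finset.sum_product']
  simp only [MvPowerSeries.coeff_mul]
  rw [Finset.sum_sigma']
  rw [← Finset.sum_image (s := (Finset.Iic (bx n : ι →₀ ℕ)).sigma
      fun γ => Finset.HasAntidiagonal.antidiagonal γ)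
    (g := fun x => x.2)
    (f := fun p => MvPowerSeries.coeff p.1 h * MvPowerSeries.coeff p.2 h')]
  · apply Finset.sum_le_sum_of_subset_of_nonneg
    · intro p hp
      obtain ⟨x, hx, rfl⟩ := Finset.mem_image.1 hp
      simp only [Finset.mem_sigma, Finset.mem_Iic, Finset.HasAntidiagonal.mem_antidiagonal] at hx
      simp only [Finset.mem_product, Finset.mem_Iic]
      exact ⟨le_trans (by rw [← hx.2]; exact le_self_add) hx.1,
        le_trans (by rw [← hx.2]; exact le_add_self) hx.1⟩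
    · exact fun p _ _ => mul_nonneg (hh _) (hh' _)
  · rintro ⟨a, p⟩ ha ⟨b, q⟩ hb e
    simp only [Finset.coe_sigma, Set.mem_sigma_iff, Finset.mem_coe,
      Finset.HasAntidiagonal.mem_antidiagonal] at ha hb
    simp only at e
    subst e
    have : a = b := ha.2.symm.trans hb.2
    subst this
    rfl

lemma GK.mul {h h' : MvPowerSeries ι ℤ} (hh : NN h) (hh' : NN h') {e e' : ℕ}
    (hg : GK h e) (hg' : GK h' e') : GK (h * h') (e + e') := by
  obtain ⟨C, hC0, hC⟩ := hg.nonneg_const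
  obtain ⟨C', hC0', hC'⟩ := hg'.nonneg_const
  refine ⟨C * C', fun n => (cum_mul_le hh hh' n).trans ?_⟩
  calc cum h n * cum h' n ≤ (C * (n + 1) ^ e) * (C' * (n + 1) ^ e') :=
        mul_le_mul (hC n) (hC' n) (cum_nonneg hh' n) (by positivity)
    _ = _ := by ring

end Crest.Agent.R180
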