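import Crest.Agent.R180.G1
import Crest.Agent.R180.G3
import Crest.Agent.R180.Pullback
import Crest.Agent.R180.Casimir

/-!
Construction of the finite stages.
-/

set_option autoImplicit false
set_option linter.unusedSectionVars false

namespace Crest.Agent.R180

open MvPolynomial

variable {N k j : ℕ}

/-- Variables: the parameters and the coordinates of two generic elements. -/
abbrev Rv (N : ℕ) : Type := Ix N ⊕ (Hh N ⊕ Hh N)

/-- Degrees of the variables. -/
noncomputable def W0 (hN : 0 < N) : Wt (Rv N) (Ix N) where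
  w
    | .inl i => Finsupp.single i 2
    | .inr (.inl χ) => 1 • Del N - lift χ
    | .inr (.inr χ) => 1 • Del N - lift χ
  ne
    | .inl i => by simp
    | .inr (.inl χ) => sub_lift_ne_zero hN χ le_rfl
    | .inr (.inr χ) => sub_lift_ne_zero hN χ le_rfl

/-- The generic algebra. -/
abbrev GA (N : ℕ) : Type := QA (sX (Sum.inl : Ix N → Rv N))

/-- First generic element. -/
noncomputable def uh (N : ℕ) : GA N := TA.mk _ fun χ => X (.inr (.inl χ))

/-- Second generic element. -/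
noncomputable def vh (N : ℕ) : GA N := TA.mk _ fun χ => X (.inr (.inr χ))

/-- The product of the parameters. -/
noncomputable def sig (N : ℕ) : MvPolynomial (Rv N) ℚ := ∏ i, X (.inl i)

lemma sig_hom (hN : 0 < N) : (sig N).IsWeightedHomogeneous (W0 hN).w (Del N) := by
  have := IsWeightedHomogeneous.prod Finset.univ (fun i : Ix N => (X (.inl i) : MvPolynomial (Rv N) ℚ))
    (fun i => (W0 hN).w (.inl i)) (fun i _ => isWeightedHomogeneous_X ℚ (W0 hN).w (.inl i))
  have e : ∑ i, (W0 hN).w (.inl i) = Del N := by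
    ext i
    rw [Finsupp.finsetSum_apply]
    simp only [W0, Finsupp.single_apply, Finset.sum_ite_eq', Finset.mem_univ, if_true, Del_apply]
  rwa [e] at this

lemma uh_hom (hN : 0 < N) : HT (W0 hN) Sum.inl (1 • Del N) (uh N) := by
  intro χ
  have := HS.of_isHom (β := lift χ) (isWeightedHomogeneous_X ℚ (W0 hN).w (.inr (.inl χ)))
  simp only [W0] at this
  rwa [tsub_add_cancel_of_le (lift_le χ le_rfl)] at this

lemma vh_hom (hN : 0 < N) : HT (W0 hN) Sum.inl (1 • Del N) (vh N) := by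
  intro χ
  have := HS.of_isHom (β := lift χ) (isWeightedHomogeneous_X ℚ (W0 hN).w (.inr (.inr χ)))
  simp only [W0] at this
  rwa [tsub_add_cancel_of_le (lift_le χ le_rfl)] at this

/-- Specialisation of the generic algebra. -/
noncomputable abbrev sp {K : Type} [CommRing K] (f : MvPolynomial (Rv N) ℚ →+* K) :
    GA N →+* QA (fun i : Ix N => f (X (.inl i))) :=
  bc f (sX Sum.inl) (fun i => f (X (.inl i))) (fun _ => rfl)

lemma exists_hat (hN : 0 < N) (e : Expr) : ∃ (j : ℕ) (w : GA N), HT (W0 hN) Sum.inl (j • Del N) w ∧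
    ∀ (K : Type) [Field K] [Algebra ℚ K] (f : MvPolynomial (Rv N) ℚ →+* K), f (sig N) ≠ 0 →
      sp f w = f (sig N) ^ j •
        e.eval (TA.tr _) ((f (sig N))⁻¹ • sp f (uh N)) ((f (sig N))⁻¹ • sp f (vh N)) := by
  induction e with
  | u => exact ⟨1, uh N, uh_hom hN, fun K _ _ f hf => by
      rw [Expr.eval, pow_one, smul_smul, mul_inv_cancel₀ hf, one_smul]⟩
  | v => exact ⟨1, vh N, vh_hom hN, fun K _ _ f hf => by
      rw [Expr.eval, pow_one, smul_smul, mul_inv_cancel₀ hf, one_smul]⟩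
  | const q =>
    refine ⟨0, algebraMap _ _ (C q : MvPolynomial (Rv N) ℚ), ?_, fun K _ _ f _ => ?_⟩
    · rw [zero_smul]
      exact HT.algebraMap (isWeightedHomogeneous_C _ _)
    · rw [Expr.eval, pow_zero, one_smul, bc_algebraMap]
      congr 1
      exact DFunLike.congr_fun (RingHom.ext_rat (f.comp C) (algebraMap ℚ K)) q
  | add a b ha hb =>
    obtain ⟨i, w, h1, h2⟩ := ha
    obtain ⟨j, w', h1', h2'⟩ := hb
    refine ⟨i + j, sig N ^ j • w + sig N ^ i • w', HT.add ?_ ?_, fun K _ _ f hf => ?_⟩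
    · rw [add_comm, add_smul]
      exact HT.smul ((sig_hom hN).pow j) h1
    · rw [add_smul]
      exact HT.smul ((sig_hom hN).pow i) h1'
    · rw [Expr.eval, map_add, bc_smul, bc_smul, h2 K f hf, h2' K f hf, smul_smul, smul_smul,
        map_pow, map_pow, ← pow_add, ← pow_add, add_comm j, smul_add]
  | mul a b ha hb =>
    obtain ⟨i, w, h1, h2⟩ := ha
    obtain ⟨j, w', h1', h2'⟩ := hb
    refine ⟨i + j, w * w', ?_, fun K _ _ f hf => ?_⟩
    · rw [add_smul]
      exact HT.mul (fun _ => rfl) h1 h1'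
    · rw [Expr.eval, map_mul, h2 K f hf, h2' K f hf, smul_mul_smul_comm, pow_add]
  | tr a ha =>
    obtain ⟨i, w, h1, h2⟩ := ha
    refine ⟨i, algebraMap _ _ (TA.tr _ w), HT.algebraMap h1.tr, fun K _ _ f hf => ?_⟩
    have : f (TA.tr _ w) = TA.tr _ (sp f w) := (TA.tr_map w).symm
    rw [Expr.eval, bc_algebraMap, this, h2 K f hf, map_smul, smul_eq_mul, map_mul,
      ← Algebra.smul_def]

lemma impose_rel (hN : 0 < N) (hk : k ≤ N) (hj : 1 ≤ j) {𝔭 : Ideal (MvPolynomial (Rv N) ℚ)} {c : ℕ}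
    (h : (W0 hN).Good (ev2 (Ix N)) Finset.univ 𝔭 c) {w : GA N}
    (hw : HT (W0 hN) Sum.inl (j • Del N) w) :
    ∃ 𝔭' c' c₁, 𝔭 ≤ 𝔭' ∧ c' ≤ c + c₁ ∧ c₁ * 2 ^ k ≤ 4 ^ N ∧
      (W0 hN).Good (ev2 (Ix N)) Finset.univ 𝔭' c' ∧
      ∀ χ, rel (2 ^ k) (TA.tr _) (sig N • w) χ ∈ 𝔭' := by
  obtain ⟨I, c₁, hI, hc, hrel⟩ := exists_good_rel hN hk hj
  let φ : Sv N → MvPolynomial (Rv N) ℚ := fun v => match v with
    | .inl i => X (.inl i)
    | .inr none => sig N
    | .inr (some χ) => if χ ∈ Lam N k then sig N * w χ else w χ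
  obtain ⟨𝔭', c', h1, h2, h3, h4⟩ := h.pullback hI φ (by
    rintro (i | _ | χ)
    · exact isWeightedHomogeneous_X ℚ (W0 hN).w (.inl i)
    · exact sig_hom hN
    · simp only [φ, W1]
      split_ifs
      · have := (HT.smul (sig_hom hN) hw χ).isHom
        rwa [add_comm, ← succ_nsmul] at this
      · exact (hw χ).isHom)
  refine ⟨𝔭', c', c₁, h1, h3, hc, h4, fun χ => ?_⟩
  have hs : ∀ i, (aeval φ : _ →ₐ[ℚ] _).toRingHom (sS N i) = sX Sum.inl i := fun i => aeval_X _ _
  have e : bc (aeval φ : _ →ₐ[ℚ] _).toRingHom (sS N) (sX Sum.inl) hs (Tt N k) = sig N • w := by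
    ext1 χ
    by_cases hχ : χ ∈ Lam N k <;> simp [Tt, φ, hχ]
  rw [← e, ← bc_rel, bc_apply]
  exact h2 _ (hrel χ)

lemma impose_all (hN : 0 < N) (j : ℕ → ℕ) (hj : ∀ i, 1 ≤ j i) (w : ℕ → GA N)
    (hw : ∀ i, HT (W0 hN) Sum.inl (j i • Del N) (w i)) (n : ℕ) (hn : n + 1 ≤ N) :
    ∃ (𝔭 : Ideal (MvPolynomial (Rv N) ℚ)) (c : ℕ), (W0 hN).Good (ev2 (Ix N)) Finset.univ 𝔭 c ∧
      c * 2 ^ (n + 1) + 4 ^ N ≤ 4 ^ N * 2 ^ n ∧
      ∀ i < n, ∀ χ, rel (2 ^ (i + 2)) (TA.tr _) (sig N • w i) χ ∈ 𝔭 := by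
  induction n with
  | zero => exact ⟨⊥, 0, (W0 hN).good_bot, by simp, by simp⟩
  | succ n ih =>
    obtain ⟨𝔭, c, h1, h2, h3⟩ := ih (by omega)
    obtain ⟨𝔭', c', c₁, a1, a2, a3, a4, a5⟩ := impose_rel (k := n + 2) hN hn (hj n) h1 (hw n)
    refine ⟨𝔭', c', a4, ?_, fun i hi χ => ?_⟩
    · have := Nat.mul_le_mul_right (2 ^ (n + 2)) a2
      rw [add_mul] at this
      simp only [pow_succ] at *
      nlinarith
    · rcases Nat.lt_succ_iff_lt_or_eq.1 hi with hi | rfl
      · exact a1 (h3 i hi χ)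
      · exact a5 χ

/-- The set of values of trace polynomials. -/
def evalRing {K B : Type} [Field K] [Algebra ℚ K] [Ring B] [Algebra K B] (τ : B →ₗ[K] K)
    (x y : B) : Subring B where
  carrier := Set.range fun e : Expr => e.eval τ x y
  mul_mem' := by
    rintro _ _ ⟨a, rfl⟩ ⟨b, rfl⟩
    exact ⟨.mul a b, rfl⟩
  one_mem' := ⟨.const 1, by simp [Expr.eval]⟩
  add_mem' := by
    rintro _ _ ⟨a, rfl⟩ ⟨b, rfl⟩
    exact ⟨.add a b, rfl⟩
  zero_mem' := ⟨.const 0, by simp [Expr.eval]⟩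
  neg_mem' := by
    rintro _ ⟨a, rfl⟩
    exact ⟨.mul (.const (-1)) a, by simp [Expr.eval]⟩

lemma span_evalRing_le {K B : Type} [Field K] [Algebra ℚ K] [Ring B] [Algebra K B] (τ : B →ₗ[K] K)
    (x y : B) (M : Submodule K B) (h1 : (1 : B) ∈ M) (hx : ∀ z ∈ M, x * z ∈ M)
    (hy : ∀ z ∈ M, y * z ∈ M) : Submodule.span K (evalRing τ x y : Set B) ≤ M := by
  have : ∀ e : Expr, ∀ z ∈ M, e.eval τ x y * z ∈ M := by
    intro e
    induction e with
    | u => exact hx
    | v => exact hy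
    | const q => intro z hz; rw [Expr.eval, ← Algebra.smul_def]; exact M.smul_mem _ hz
    | add a b ha hb => intro z hz; rw [Expr.eval, add_mul]; exact M.add_mem (ha z hz) (hb z hz)
    | mul a b ha hb => intro z hz; rw [Expr.eval, mul_assoc]; exact ha _ (hb z hz)
    | tr a _ => intro z hz; rw [Expr.eval, ← Algebra.smul_def]; exact M.smul_mem _ hz
  rw [Submodule.span_le]
  rintro _ ⟨e, rfl⟩
  simpa using this e 1 h1

lemma dependent_of_small {K : Type} [Field K] [CharZero K] (f : MvPolynomial (Rv N) ℚ →+* K)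
    (hf : f (sig N) ≠ 0) (A : Subring (QA (fun i : Ix N => f (X (.inl i)))))
    (hA : ∀ a ∈ A, algebraMap K _ (TA.tr _ a) ∈ A) (hunit : ∀ a ∈ A, a ≠ 0 → IsUnit a)
    (hx : (f (sig N))⁻¹ • sp f (uh N) ∈ A) (hy : (f (sig N))⁻¹ • sp f (vh N) ∈ A) {e : ℕ}
    (he : Module.finrank K (Submodule.span K (A : Set (QA (fun i : Ix N => f (X (.inl i)))))) ≤ e)
    (τ : Finset (Rv N)) (hτ : τ.card = (Fintype.card (Ix N) + 4 ^ N + 2 * e) + 1) :
    ∃ F : MvPolynomial (Rv N) ℚ, F ≠ 0 ∧ F ∈ supported ℚ (τ : Set (Rv N)) ∧ f F = 0 := by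
  set x := (f (sig N))⁻¹ • sp f (uh N) with hxd
  set y := (f (sig N))⁻¹ • sp f (vh N) with hyd
  set S := Submodule.span K (A : Set (QA (fun i : Ix N => f (X (.inl i))))) with hS
  let L1 : QA (fun i : Ix N => f (X (.inl i))) × S × S →ₗ[K] QA (fun i : Ix N => f (X (.inl i))) :=
    (LinearMap.mulRight K x - LinearMap.mulLeft K x) ∘ₗ LinearMap.fst K _ _ +
      S.subtype ∘ₗ LinearMap.fst K _ _ ∘ₗ LinearMap.snd K _ _
  let L2 : QA (fun i : Ix N => f (X (.inl i))) × S × S →ₗ[K] QA (fun i : Ix N => f (X (.inl i))) :=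
    (LinearMap.mulRight K y - LinearMap.mulLeft K y) ∘ₗ LinearMap.fst K _ _ +
      S.subtype ∘ₗ LinearMap.snd K _ _ ∘ₗ LinearMap.snd K _ _
  let L : QA (fun i : Ix N => f (X (.inl i))) × S × S →ₗ[K] (Rv N → K) :=
    LinearMap.pi fun v => match v with
      | .inl _ => 0
      | .inr (.inl χ) => f (sig N) • (TA.coef _ χ ∘ₗ L1)
      | .inr (.inr χ) => f (sig N) • (TA.coef _ χ ∘ₗ L2)
  obtain ⟨F, h1, h2, h3⟩ := dependent_of_derivations (fun v => f (X v))
    (Finset.univ.image Sum.inl) (LinearMap.range L) (by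
      intro δ hδ
      have hδ1 : ∀ i, δ (f (X (.inl i))) = 0 := fun i => hδ _ (by simp)
      have hmul : ∀ a b : K, δ (a * b) = δ a * b + a * δ b := fun a b => by
        rw [δ.leibniz, smul_eq_mul, smul_eq_mul]; ring
      have hprod : ∀ g : Ix N → K, (∀ i, δ (g i) = 0) → δ (∏ i, g i) = 0 := fun g hg =>
        Finset.prod_induction _ (fun a => δ a = 0)
          (fun a b ha hb => by rw [hmul, ha, hb]; ring) δ.map_one_eq_zero fun i _ => hg i
      have hσ : δ (f (sig N)) = 0 := by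
        rw [sig, map_prod]; exact hprod _ hδ1
      have hc : ∀ a b, δ.toLinearMap.toAddMonoidHom ((qc fun i : Ix N => f (X (.inl i))).c a b)
          = 0 := by
        intro a b
        change δ _ = 0
        rw [qc_c, hmul, hprod _ (fun i => by rw [δ.leibniz_pow, hδ1]; simp)]
        rcases zmod2_cases (bf a b) with h | h <;> simp [h]
      obtain ⟨y0, hy0⟩ := casimir (TA.tr _) TA.tr_one TA.tr_comm A hA hunit δ
        (TA.cw _ δ.toLinearMap.toAddMonoidHom) (TA.cw_mul _ hmul hc) (TA.cw_smul _ hmul)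
      refine ⟨(y0, ⟨_, hy0 x hx⟩, ⟨_, hy0 y hy⟩), ?_⟩
      ext v
      rcases v with i | χ | χ
      · simp [L, hδ1]
      · have : f (X (.inr (.inl χ))) = f (sig N) * x χ := by
          simp [hxd, uh, ← mul_assoc, mul_inv_cancel₀ hf]
        rw [this, hmul, hσ]
        simp [L, L1]
      · have : f (X (.inr (.inr χ))) = f (sig N) * y χ := by
          simp [hyd, vh, ← mul_assoc, mul_inv_cancel₀ hf]
        rw [this, hmul, hσ]
        simp [L, L2]) τ (by
      have a1 := LinearMap.finrank_range_le L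
      rw [Module.finrank_prod, Module.finrank_prod, TA.finrank_eq, card_Hh] at a1
      have a2 : (Finset.univ.image (Sum.inl : Ix N → Rv N)).card ≤ Fintype.card (Ix N) :=
        Finset.card_image_le
      omega)
  refine ⟨F, h1, h2, ?_⟩
  rw [← h3]
  exact DFunLike.congr_fun (MvPolynomial.ringHom_ext' (f := f)
    (g := (aeval fun v => f (X v) : _ →ₐ[ℚ] K).toRingHom) (RingHom.ext_rat _ _) (by simp)) F

theorem exists_stage (enum : ℕ → Expr) (n : ℕ) : Nonempty (Stage enum n) := by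
  obtain ⟨N, hNn⟩ : ∃ N, N = n + 1 := ⟨_, rfl⟩
  have hN : 0 < N := by omega
  choose j w hw hev using exists_hat hN
  obtain ⟨𝔭, c, hgood, hc, hrel⟩ := impose_all hN (fun i => j (enum i) + 1) (fun _ => by omega)
    (fun i => sig N • w (enum i)) (fun i => by
      rw [succ_nsmul']
      exact HT.smul (sig_hom hN) (hw _)) n hNn.ge
  have := hgood.prime
  let K := FractionRing (MvPolynomial (Rv N) ℚ ⧸ 𝔭)
  have : CharZero K := algebraRat.charZero K
  let f : MvPolynomial (Rv N) ℚ →+* K := (algebraMap _ K).comp (Ideal.Quotient.mk 𝔭)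
  have hinj : Function.Injective (algebraMap (MvPolynomial (Rv N) ℚ ⧸ 𝔭) K) :=
    IsFractionRing.injective _ _
  have hker : RingHom.ker f = 𝔭 := by
    ext r
    rw [RingHom.mem_ker, RingHom.comp_apply, map_eq_zero_iff _ hinj, Ideal.Quotient.eq_zero_iff_mem]
  have hsurj : ∀ z : K, ∃ a b, f b ≠ 0 ∧ z * f b = f a := by
    intro z
    obtain ⟨a, b, hb, rfl⟩ := IsFractionRing.div_surjective (A := MvPolynomial (Rv N) ℚ ⧸ 𝔭) z
    obtain ⟨a, rfl⟩ := Ideal.Quotient.mk_surjective a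
    obtain ⟨b, rfl⟩ := Ideal.Quotient.mk_surjective b
    have : f b ≠ 0 :=
      IsFractionRing.to_map_ne_zero_of_mem_nonZeroDivisors (R := MvPolynomial (Rv N) ℚ ⧸ 𝔭) hb
    exact ⟨a, b, this, div_mul_cancel₀ _ this⟩
  have hf : f (sig N) ≠ 0 := by
    rw [Ne, ← RingHom.mem_ker, hker]
    refine hgood.not_mem_of_supported (𝒥₀ := Finset.univ.image Sum.inl) (Finset.subset_univ _)
      ?_ (prod_mem fun i _ => X_mem_supported.2 (by simp))
      (Finset.prod_ne_zero_iff.2 fun i _ => X_ne_zero _)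
    intro v hv
    obtain ⟨i, -, rfl⟩ := Finset.mem_image.1 hv
    simp only [W0, lin_single, map_mul, map_natCast]
    rw [← map_natCast (C : ZMod 2 →+* MvPolynomial (Ix N) (ZMod 2)),
      show ((2 : ℕ) : ZMod 2) = 0 from rfl, C_0, zero_mul]
  have hunit : ∀ e : Expr, e.eval (TA.tr _) ((f (sig N))⁻¹ • sp f (uh N))
      ((f (sig N))⁻¹ • sp f (vh N)) ≠ 0 → IsUnit (e.eval (TA.tr _) ((f (sig N))⁻¹ • sp f (uh N))
      ((f (sig N))⁻¹ • sp f (vh N))) := by
    intro e he
    have h1 := hev e K f hf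
    have h2 := isUnit_of_HT hgood Sum.inl_injective (fun _ => rfl) f hker hsurj (hw e) (by
      rw [h1]
      exact smul_ne_zero (pow_ne_zero _ hf) he)
    have h3 := ((IsUnit.mk0 _ (inv_ne_zero (pow_ne_zero (j e) hf))).map (algebraMap K _)).mul h2
    rwa [h1, ← Algebra.smul_def, smul_smul, inv_mul_cancel₀ (pow_ne_zero _ hf), one_smul] at h3
  refine ⟨{ K := K
            B := QA (fun i : Ix N => f (X (.inl i)))
            τ := TA.tr _
            x := (f (sig N))⁻¹ • sp f (uh N)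
            y := (f (sig N))⁻¹ • sp f (vh N)
            unit := hunit
            rel_eq := fun i hi => ?_
            big := fun M _ h1 hx hy => ?_ }⟩
  · have h1 : sp f (rel (2 ^ (i + 2)) (TA.tr _) (sig N • sig N • w (enum i))) = 0 := by
      ext1 χ
      rw [bc_apply, TA.zero_apply, ← RingHom.mem_ker, hker]
      exact hrel i hi χ
    rw [bc_rel, bc_smul, bc_smul, hev _ K f hf, smul_smul, smul_smul, rel_smul] at h1
    exact (smul_eq_zero.1 h1).resolve_left
      (pow_ne_zero _ (mul_ne_zero (mul_ne_zero hf hf) (pow_ne_zero _ hf)))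
  · by_contra hlt
    push Not at hlt
    refine hgood.not_dependent (Fintype.card (Ix N) + 4 ^ N + 2 * n) ?_ fun τ _ hτ => ?_
    · rw [Finset.card_univ, Fintype.card_sum, Fintype.card_sum, card_Hh]
      have h4 : 4 * n < 4 ^ N := by
        rw [hNn, pow_succ, mul_comm]
        exact Nat.mul_lt_mul_of_pos_right (Nat.lt_pow_self (by norm_num)) (by norm_num)
      have h5 : c * 2 ≤ 4 ^ N := by
        refine Nat.le_of_mul_le_mul_right (c := 2 ^ n) ?_ (by positivity)
        rw [pow_succ] at hc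
        nlinarith [Nat.zero_le (4 ^ N)]
      omega
    · obtain ⟨F, a1, a2, a3⟩ := dependent_of_small f hf
        (evalRing (TA.tr _) ((f (sig N))⁻¹ • sp f (uh N)) ((f (sig N))⁻¹ • sp f (vh N)))
        (by rintro _ ⟨e, rfl⟩; exact ⟨.tr e, rfl⟩) (by rintro _ ⟨e, rfl⟩; exact hunit e)
        ⟨.u, rfl⟩ ⟨.v, rfl⟩
        ((Submodule.finrank_mono (span_evalRing_le _ _ _ M h1 hx hy)).trans hlt) τ hτ
      exact ⟨F, hker ▸ a3, a1, a2⟩

end Crest.Agent.R180
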