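import Mathlib

/-!
Twisted group algebras of finite abelian groups.
-/

set_option autoImplicit false
set_option linter.unusedSectionVars false

namespace Crest.Agent.R180

/-- Normalised two-cocycles with values in a commutative ring. -/
structure Coc (H R : Type) [AddCommGroup H] [CommRing R] where
  c : H → H → R
  assoc : ∀ a b d, c a b * c (a + b) d = c b d * c a (b + d)
  zero_left : ∀ a, c 0 a = 1
  zero_right : ∀ a, c a 0 = 1

variable {H : Type} [AddCommGroup H] [Fintype H] [DecidableEq H]
variable {R : Type} [CommRing R]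

/-- The twisted group algebra. -/
def TA (_C : Coc H R) : Type := H → R

namespace TA

variable {C : Coc H R}

instance : AddCommGroup (TA C) := inferInstanceAs (AddCommGroup (H → R))
instance {S : Type*} [Semiring S] [Module S R] : Module S (TA C) :=
  inferInstanceAs (Module S (H → R))
instance {S S' : Type*} [Semiring S] [Semiring S'] [Module S R] [Module S' R] [SMul S S']
    [IsScalarTower S S' R] : IsScalarTower S S' (TA C) :=
  inferInstanceAs (IsScalarTower S S' (H → R))
instance : Module.Finite R (TA C) := inferInstanceAs (Module.Finite R (H → R))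
instance : Module.Free R (TA C) := inferInstanceAs (Module.Free R (H → R))

instance : CoeFun (TA C) (fun _ => H → R) := ⟨fun x => x⟩

@[ext] lemma ext {x y : TA C} (h : ∀ a, x a = y a) : x = y := funext h

@[simp] lemma add_apply (x y : TA C) (a : H) : (x + y) a = x a + y a := rfl
@[simp] lemma sub_apply (x y : TA C) (a : H) : (x - y) a = x a - y a := rfl
@[simp] lemma neg_apply (x : TA C) (a : H) : (-x) a = -x a := rfl
@[simp] lemma zero_apply (a : H) : (0 : TA C) a = 0 := rfl
@[simp] lemma smul_apply {S : Type*} [Semiring S] [Module S R] (r : S) (x : TA C) (a : H) :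
    (r • x) a = r • x a := rfl
lemma sum_apply {α : Type*} (s : Finset α) (x : α → TA C) (a : H) :
    (∑ i ∈ s, x i) a = ∑ i ∈ s, x i a := Finset.sum_apply a s x

/-- Elements from coefficient functions. -/
def mk (C : Coc H R) (f : H → R) : TA C := f

@[simp] lemma mk_apply (f : H → R) (a : H) : mk C f a = f a := rfl

/-- The standard basis. -/
def E (C : Coc H R) (a : H) : TA C := mk C (Pi.single a 1)

lemma E_apply (a b : H) : E C a b = if b = a then 1 else 0 := by
  simp [E, Pi.single_apply]

lemma sum_E (x : TA C) : ∑ a, x a • E C a = x := by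
  ext b
  simp [sum_apply, E_apply]

instance : Mul (TA C) := ⟨fun x y => mk C fun a => ∑ b, C.c b (a - b) * x b * y (a - b)⟩
instance : One (TA C) := ⟨E C 0⟩

lemma mul_apply (x y : TA C) (a : H) : (x * y) a = ∑ b, C.c b (a - b) * x b * y (a - b) := rfl
lemma one_def : (1 : TA C) = E C 0 := rfl

lemma E_mul_apply (b : H) (y : TA C) (a : H) : (E C b * y) a = C.c b (a - b) * y (a - b) := by
  simp [mul_apply, E_apply]

lemma mul_E_apply (x : TA C) (b a : H) : (x * E C b) a = C.c (a - b) b * x (a - b) := by
  rw [mul_apply, Finset.sum_eq_single (a - b)]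
  · simp [E_apply]
  · intro d _ hd
    rw [E_apply, if_neg, mul_zero]
    rintro rfl
    exact hd (by abel)
  · simp

lemma E_mul_E (a b : H) : E C a * E C b = C.c a b • E C (a + b) := by
  ext d
  rw [E_mul_apply, smul_apply, E_apply, E_apply]
  by_cases h : d = a + b
  · simp [h]
  · rw [if_neg h, if_neg (fun e => h (by rw [← e]; abel))]
    simp

instance : Ring (TA C) :=
  { (inferInstance : AddCommGroup (TA C)) with
    mul := (· * ·)
    one := 1
    left_distrib := fun x y z => by
      ext a; simp [mul_apply, mul_add, Finset.sum_add_distrib]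
    right_distrib := fun x y z => by
      ext a; simp [mul_apply, mul_add, add_mul, Finset.sum_add_distrib]
    zero_mul := fun x => by ext a; simp [mul_apply]
    mul_zero := fun x => by ext a; simp [mul_apply]
    mul_assoc := fun x y z => by
      ext a
      simp only [mul_apply, Finset.mul_sum, Finset.sum_mul]
      rw [Finset.sum_comm]
      refine Finset.sum_congr rfl fun b _ => ?_
      rw [← Equiv.sum_comp (Equiv.addLeft b)]
      refine Finset.sum_congr rfl fun d _ => ?_
      have := C.assoc b d (a - b - d)
      simp only [Equiv.coe_addLeft, add_sub_cancel_left]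
      rw [show a - (b + d) = a - b - d by abel]
      rw [show d + (a - b - d) = a - b by abel] at this
      linear_combination (x b * y d * z (a - b - d)) * this
    one_mul := fun x => by
      ext a; rw [one_def, E_mul_apply, C.zero_left, sub_zero, one_mul]
    mul_one := fun x => by
      ext a; rw [one_def, mul_E_apply, C.zero_right, sub_zero, one_mul] }

instance : Algebra R (TA C) := Algebra.ofModule
  (fun r x y => by ext a; simp [mul_apply, Finset.mul_sum, mul_assoc, mul_left_comm])
  (fun r x y => by ext a; simp [mul_apply, Finset.mul_sum, mul_assoc, mul_left_comm])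

lemma one_apply (a : H) : (1 : TA C) a = if a = 0 then 1 else 0 := E_apply 0 a

lemma algebraMap_apply (r : R) (a : H) : algebraMap R (TA C) r a = if a = 0 then r else 0 := by
  rw [Algebra.algebraMap_eq_smul_one, smul_apply, one_apply]
  split_ifs <;> simp

instance [Nontrivial R] : Nontrivial (TA C) :=
  ⟨0, 1, fun h => by simpa [one_apply] using congrArg (fun x : TA C => x 0) h⟩

/-- Coefficient extraction. -/
def coef (C : Coc H R) (a : H) : TA C →ₗ[R] R where
  toFun x := x a
  map_add' _ _ := rfl
  map_smul' _ _ := rfl

@[simp] lemma coef_apply (a : H) (x : TA C) : coef C a x = x a := rfl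

/-- The normalised trace. -/
def tr (C : Coc H R) : TA C →ₗ[R] R := coef C 0

@[simp] lemma tr_apply (x : TA C) : tr C x = x 0 := rfl

lemma tr_one : tr C 1 = 1 := by simp [one_apply]

lemma tr_algebraMap (r : R) : tr C (algebraMap R (TA C) r) = r := by simp [algebraMap_apply]

lemma tr_comm (x y : TA C) : tr C (x * y) = tr C (y * x) := by
  simp only [tr_apply, mul_apply, zero_sub]
  rw [← Equiv.sum_comp (Equiv.neg H)]
  refine Finset.sum_congr rfl fun b _ => ?_
  have := C.assoc b (-b) b
  rw [add_neg_cancel, neg_add_cancel, C.zero_left, C.zero_right] at this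
  simp only [Equiv.neg_apply, neg_neg]
  linear_combination (-(x (-b) * y b)) * this

lemma finrank_eq [Nontrivial R] : Module.finrank R (TA C) = Fintype.card H :=
  Module.finrank_fintype_fun_eq_card R

section Map

variable {R' : Type} [CommRing R'] {C' : Coc H R'}

/-- Base change combined with a rescaling of the basis. -/
def map (C : Coc H R) (C' : Coc H R') (f : R →+* R') (lam : H → R') (h0 : lam 0 = 1)
    (h : ∀ a b, f (C.c a b) * lam (a + b) = lam a * lam b * C'.c a b) : TA C →+* TA C' where
  toFun x := mk C' fun a => f (x a) * lam a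
  map_one' := by
    ext a
    simp only [mk_apply, one_apply]
    split_ifs with h
    · simp [h, h0]
    · simp
  map_mul' x y := by
    ext a
    simp only [mk_apply, mul_apply, map_sum, map_mul, Finset.sum_mul]
    refine Finset.sum_congr rfl fun b _ => ?_
    have := h b (a - b)
    rw [add_sub_cancel] at this
    linear_combination (f (x b) * f (y (a - b))) * this
  map_zero' := by ext a; simp
  map_add' x y := by ext a; simp [add_mul]

variable {f : R →+* R'} {lam : H → R'} {h0 : lam 0 = 1}
    {h : ∀ a b, f (C.c a b) * lam (a + b) = lam a * lam b * C'.c a b}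

@[simp] lemma map_apply (x : TA C) (a : H) : map C C' f lam h0 h x a = f (x a) * lam a := rfl

lemma map_smul' (r : R) (x : TA C) :
    map C C' f lam h0 h (r • x) = f r • map C C' f lam h0 h x := by
  ext a; simp [mul_assoc]

lemma tr_map (x : TA C) : tr C' (map C C' f lam h0 h x) = f (tr C x) := by simp [h0]

lemma map_algebraMap (r : R) :
    map C C' f lam h0 h (algebraMap R (TA C) r) = algebraMap R' (TA C') (f r) := by
  rw [Algebra.algebraMap_eq_smul_one, Algebra.algebraMap_eq_smul_one, map_smul', map_one]

lemma map_E (a : H) : map C C' f lam h0 h (E C a) = lam a • E C' a := by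
  ext b
  simp only [map_apply, E_apply, smul_apply]
  split_ifs with h
  · simp [h]
  · simp

end Map

/-- Elements supported in a set. -/
def Supp (C : Coc H R) (S : Set H) : Submodule R (TA C) where
  carrier := {x | ∀ a, a ∉ S → x a = 0}
  add_mem' hx hy a ha := by simp [hx a ha, hy a ha]
  zero_mem' _ _ := rfl
  smul_mem' r x hx a ha := by simp [hx a ha]

lemma mem_Supp {S : Set H} {x : TA C} : x ∈ Supp C S ↔ ∀ a, a ∉ S → x a = 0 := Iff.rfl

lemma E_mem_Supp {S : Set H} {a : H} (ha : a ∈ S) : E C a ∈ Supp C S := by
  intro b hb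
  rw [E_apply, if_neg]
  rintro rfl
  exact hb ha

lemma Supp_mono {S S' : Set H} (h : S ⊆ S') : Supp C S ≤ Supp C S' :=
  fun _ hx a ha => hx a fun h' => ha (h h')

lemma mul_mem_Supp {S S' S'' : Set H} (h : ∀ a ∈ S, ∀ b ∈ S', a + b ∈ S'') {x y : TA C}
    (hx : x ∈ Supp C S) (hy : y ∈ Supp C S') : x * y ∈ Supp C S'' := by
  intro a ha
  rw [mul_apply]
  refine Finset.sum_eq_zero fun b _ => ?_
  by_cases hb : b ∈ S
  · rw [hy (a - b) fun h' => ha (by simpa using h b hb _ h'), mul_zero]
  · rw [hx b hb, mul_zero, zero_mul]

lemma sum_E_of_Supp {S : Finset H} {x : TA C} (hx : x ∈ Supp C (S : Set H)) :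
    ∑ a ∈ S, x a • E C a = x := by
  conv_rhs => rw [← sum_E x]
  refine Finset.sum_subset (Finset.subset_univ _) fun a _ ha => ?_
  rw [hx a ha, zero_smul]

lemma finrank_Supp_le {K : Type} [Field K] {C : Coc H K} (S : Finset H) :
    Module.finrank K (Supp C (S : Set H)) ≤ S.card := by
  have : Supp C (S : Set H) ≤ Submodule.span K (Set.range fun a : S => E C a) := by
    intro x hx
    rw [← sum_E_of_Supp hx]
    exact Submodule.sum_mem _ fun a ha =>
      Submodule.smul_mem _ _ (Submodule.subset_span ⟨⟨a, ha⟩, rfl⟩)
  refine (Submodule.finrank_mono this).trans ?_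
  simpa [Set.finrank] using finrank_range_le_card (R := K) (fun a : S => E C a)

/-- Coefficientwise action of an additive map. -/
def cw (C : Coc H R) (δ : R →+ R) : TA C →+ TA C where
  toFun x := mk C fun a => δ (x a)
  map_zero' := by ext a; simp
  map_add' x y := by ext a; simp

@[simp] lemma cw_apply (δ : R →+ R) (x : TA C) (a : H) : cw C δ x a = δ (x a) := rfl

lemma cw_mul (δ : R →+ R) (hδ : ∀ a b, δ (a * b) = δ a * b + a * δ b)
    (hc : ∀ a b, δ (C.c a b) = 0) (x y : TA C) :
    cw C δ (x * y) = cw C δ x * y + x * cw C δ y := by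
  ext a
  simp only [cw_apply, mul_apply, add_apply, map_sum, hδ, hc, ← Finset.sum_add_distrib]
  refine Finset.sum_congr rfl fun b _ => ?_
  ring

lemma cw_smul (δ : R →+ R) (hδ : ∀ a b, δ (a * b) = δ a * b + a * δ b) (r : R) (x : TA C) :
    cw C δ (r • x) = δ r • x + r • cw C δ x := by
  ext a
  simp [hδ]

end TA

end Crest.Agent.R180
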