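import Crest.Agent.R180.Lagr
import Crest.Agent.R180.Filtr

/-!
The universal element of the degenerating family, and homogeneous kernels.
-/

set_option autoImplicit false
set_option linter.unusedSectionVars false

namespace Crest.Agent.R180

open MvPolynomial

section Hker

variable {ι : Type} [Fintype ι] [DecidableEq ι] {σ : Type} [Fintype σ] [DecidableEq σ]
variable {k : Type} [Field k] {P : Type} [CommRing P] [Algebra k P]

/-- The graded map attached to a point. -/
noncomputable def Wt.hmap (W : Wt σ ι) (k : Type) [Field k] [Algebra k P] (p : σ → P) :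
    MvPolynomial σ k →ₐ[k] MvPolynomial ι P :=
  aeval fun j => monomial (W.w j) (p j)

lemma Wt.hmap_X (W : Wt σ ι) (p : σ → P) (j : σ) :
    W.hmap k p (X j) = monomial (W.w j) (p j) := aeval_X _ _

lemma Wt.hmap_of_hom (W : Wt σ ι) (p : σ → P) {f : MvPolynomial σ k} {γ : ι →₀ ℕ}
    (hf : f.IsWeightedHomogeneous W.w γ) : W.hmap k p f = monomial γ (aeval p f) := by
  conv_lhs => rw [f.as_sum]
  conv_rhs => rw [f.as_sum]
  rw [map_sum, map_sum, map_sum]
  refine Finset.sum_congr rfl fun d hd => ?_
  rw [← hf (mem_support_iff.1 hd), Wt.hmap, aeval_monomial, aeval_monomial,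
    MvPolynomial.algebraMap_apply, ← C_mul_monomial]
  congr 1
  clear hd
  induction d using Finsupp.induction_linear with
  | zero => simp
  | add a b ha hb =>
    rw [Finsupp.prod_add_index' (fun _ => pow_zero _) (fun _ _ _ => pow_add _ _ _),
      Finsupp.prod_add_index' (fun _ => pow_zero _) (fun _ _ _ => pow_add _ _ _), ha, hb,
      monomial_mul, map_add]
  | single i n =>
    rw [Finsupp.prod_single_index (by simp), Finsupp.prod_single_index (by simp),
      monomial_pow, Finsupp.weight_single]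

lemma Wt.coeff_hmap (W : Wt σ ι) (p : σ → P) (f : MvPolynomial σ k) (γ : ι →₀ ℕ) :
    coeff γ (W.hmap k p f) = aeval p ((W.G k).π γ f) := by
  obtain ⟨s, hs⟩ := (W.G k).fin f
  conv_lhs => rw [← hs]
  conv_rhs => rw [← hs]
  simp only [map_sum, coeff_sum]
  refine Finset.sum_congr rfl fun β _ => ?_
  rw [W.hmap_of_hom p (W.π_hom β f), coeff_monomial, Grading.π_of_hom ((W.G k).idem β f)]
  by_cases h : β = γ
  · simp [h]
  · simp [h, Ne.symm h]

lemma Wt.hom_ker_hmap (W : Wt σ ι) (p : σ → P) : W.IHom (RingHom.ker (W.hmap k p)) := by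
  intro γ f hf
  change W.hmap k p _ = 0
  change W.hmap k p _ = 0 at hf
  rw [W.hmap_of_hom p (W.π_hom γ f), ← W.coeff_hmap, hf, coeff_zero, map_zero]

end Hker

variable {N k j : ℕ}

/-- The degree `(2, …, 2)`. -/
noncomputable def Del (N : ℕ) : Ix N →₀ ℕ := bx 2

@[simp] lemma Del_apply (i : Ix N) : Del N i = 2 := rfl

lemma lift_le (χ : Hh N) (hj : 1 ≤ j) : lift χ ≤ j • Del N := by
  intro i
  have := val_le_one (χ i)
  simp only [lift_apply, Finsupp.coe_smul, Pi.smul_apply, Del_apply, smul_eq_mul]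
  omega

lemma sub_lift_ne_zero (hN : 0 < N) (χ : Hh N) (hj : 1 ≤ j) : j • Del N - lift χ ≠ 0 := by
  intro h
  have h1 := DFunLike.congr_fun h (⟨0, hN⟩, true)
  have := val_le_one (χ (⟨0, hN⟩, true))
  simp only [Finsupp.coe_tsub, Finsupp.coe_smul, Pi.sub_apply, Pi.smul_apply, Del_apply,
    smul_eq_mul, lift_apply, Finsupp.coe_zero, Pi.zero_apply] at h1
  omega

/-- Variables: the parameters, the deformation variable, and the coordinates. -/
abbrev Sv (N : ℕ) : Type := Ix N ⊕ Option (Hh N)

/-- Degrees of the variables. -/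
noncomputable def W1 (hN : 0 < N) (k : ℕ) (hj : 1 ≤ j) : Wt (Sv N) (Ix N) where
  w
    | .inl i => Finsupp.single i 2
    | .inr none => Del N
    | .inr (some χ) => (if χ ∈ Lam N k then j + 1 else j) • Del N - lift χ
  ne
    | .inl i => by simp
    | .inr none => fun h => by simpa using DFunLike.congr_fun h (⟨0, hN⟩, true)
    | .inr (some χ) => sub_lift_ne_zero hN χ (by split_ifs <;> omega)

/-- The parameters. -/
noncomputable abbrev sS (N : ℕ) : Ix N → MvPolynomial (Sv N) ℚ := fun i => X (.inl i)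

/-- The universal element. -/
noncomputable def Tt (N k : ℕ) : QA (sS N) := TA.mk _ fun χ =>
  if χ ∈ Lam N k then X (.inr (some χ)) else X (.inr none) * X (.inr (some χ))

/-- The commutative part of the universal element. -/
noncomputable def Bt (N k : ℕ) : QA (sS N) := TA.mk _ fun χ =>
  if χ ∈ Lam N k then X (.inr (some χ)) else 0

lemma Bt_mem : Bt N k ∈ TA.Supp _ (Lam N k : Set (Hh N)) := fun _ h => if_neg h

/-- The normal variables. -/
def NV (N k : ℕ) : Finset (Sv N) := (Per N k \ Lam N k).image fun χ => .inr (some χ)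

section Point

variable {P : Type} [CommRing P]

/-- The point of the parameter space defined by a family of split elements. -/
def pp (ε : P) (p : Hh N → P) : Sv N → P
  | .inl _ => 1
  | .inr none => ε
  | .inr (some χ) => p χ

/-- The split element. -/
def aa (k : ℕ) (ε : P) (p : Hh N → P) : QA (fun _ : Ix N => (1 : P)) :=
  TA.mk _ fun χ => if χ ∈ Lam N k then p χ else ε * p χ

/-- The split element is conjugate into the commutative subalgebra. -/
def Conj (k : ℕ) (ε : P) (p : Hh N → P) : Prop :=
  ∃ (g g' b : QA (fun _ : Ix N => (1 : P))) (ν : P), ν ≠ 0 ∧ g * g' = algebraMap P _ ν ∧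
    g' * g = algebraMap P _ ν ∧ b ∈ TA.Supp _ (Lam N k : Set (Hh N)) ∧ aa k ε p = g * b * g'

/-- The family specialises to all tangent directions. -/
def Spec (k : ℕ) (ε : P) (p : Hh N → P) : Prop :=
  ∀ b Y : QA (fun _ : Ix N => (1 : ℚ)), b ∈ TA.Supp _ (Lam N k : Set (Hh N)) →
    ∃ θ : P →+* ℚ, θ ε = 0 ∧ ∀ χ, θ (p χ) = if χ ∈ Lam N k then b χ else (Y * b - b * Y) χ

end Point

end Crest.Agent.R180
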